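import Vale.Agent.P167.H364.LitT
import Vale.Agent.P167.N.H174.CT.Bad3
import Vale.Agent.P167.N.H437Q.Ret
import Vale.Agent.P167.H174.BD.Asm2
import Vale.Agent.P167.H174.BD.Fin

/-!
# P167, `0 < q < 4`, [GEO]: the row GEO:BAD (variant of H174/BD with the box `bxT`)
-/

set_option autoImplicit false

set_option linter.unusedVariables false

set_option linter.unusedSectionVars false

namespace Vale.Agent.P167.H364

open Vale.Agent.P167.H174.BD Vale.Agent.P167.H174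

open Filter Topology Set

open Relation (ReflTransGen)

open Vale.Agent.P145.FB (PStep)

open Vale.Agent.P167.FKA (Cor)

open Vale.Agent.P167.E6 Vale.Agent.P167.E2

open Vale.Agent.P167.H192 (ro)

open Vale.Agent.P167.H718 (Dq)

open Vale.Agent.P167.H634 (SqD)

open Vale.Agent.P167.H72.SD (dk om Wr NSup NSlo Ff)

open Vale.Agent.P167.H713.Q (Cn Cfl Dn oR)

open Vale.Agent.P167.H446.G

open Vale.Agent.P167.H174.CT (NearC thk rep T32 Far)

open Vale.Agent.P167.H531.Q (BC)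

open Vale.Agent.P167.H411 (exn Set6)

open Vale.Agent.P167.QT

/-- **The targets are near the target**, with the box `bxT`. -/
theorem targ_nearT {n : ℕ} {p : ZMod n → ℤ × ℤ} {k : ℕ} {C : Cst} {δ s ρ : ℝ} (hC : C.Sm ρ)
    (hδ : 0 < δ) (hs : 0 < s) (hsm : s ≤ C.m) (hδm : 8 * δ ≤ C.m)
    {b : Bool} {t : ℤ × ℤ}
    (ht : if b then t ∈ BR.sites (bxT C p k δ s) else
      t ∈ Ff (ro (p k)) (mq C.Lc s δ + 1)
        ((vd p k C.Ld s δ).1 - mb C.m δ) ((vd p k C.Ld s δ).1 + mb C.m δ)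
        ((vd p k C.Ld s δ).2 - mb C.m δ) ((vd p k C.Ld s δ).2 + mb C.m δ)) :
    δ * ((nm (t - ro (p k)) : ℤ) : ℝ) ≤ 2 * ρ := by
  cases b
  · exact H825.B5.targ_near (b := false) hC hδ hs hsm hδm ht
  have hm := hC.m_pos
  have h1 := hC.m_Ld
  have h2 := hC.Ld_Lc
  have h3 := hC.Lc_le
  have h4 : √2 ≤ 3 / 2 := by
    rw [show (3 / 2 : ℝ) = √((3 / 2) ^ 2) by rw [Real.sqrt_sq]; norm_num]
    exact Real.sqrt_le_sqrt (by norm_num)
  have m1 := H825.B5.mb_le hδ hm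
  have m3 := H825.B5.mq_le hδ hs (L := C.Lc) (by linarith)
  have n2 : δ * (mq C.Lc s δ : ℝ) ≤ 3 / 2 * (C.Lc + s) :=
    m3.trans (mul_le_mul_of_nonneg_right h4 (by linarith))
  have key : nm (t - ro (p k)) ≤ mq C.Lc s δ + mb C.m δ := by
    rw [if_pos rfl] at ht
    unfold BR.sites bxT at ht
    simp only [Finset.mem_biUnion, Finset.mem_insert, Finset.mem_singleton] at ht
    obtain ⟨v, hv, hvt⟩ := ht
    unfold FK.Bq at hv
    simp only [Finset.mem_product, Finset.mem_Ico] at hv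
    unfold nm
    simp only [Prod.fst_sub, Prod.snd_sub, max_le_iff, abs_le]
    rcases hvt with rfl | rfl | rfl | rfl <;> omega
  have h' : ((nm (t - ro (p k)) : ℤ) : ℝ) ≤ (mq C.Lc s δ : ℝ) + (mb C.m δ : ℝ) := by
    exact_mod_cast key
  refine (mul_le_mul_of_nonneg_left h' hδ.le).trans ?_
  rw [mul_add]
  linarith

section

variable {Φ : (ℝ × ℝ) ≃ₜ (ℝ × ℝ)} {ψ : ℂ → ℂ} {δ : ℕ → ℝ} {N k : ℕ → ℕ}
  {p : ∀ n, ZMod (N n) → ℤ × ℤ} {S : ℕ → Finset (ℤ × ℤ)} {ψn : ℕ → ℂ → ℂ}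

open Classical in
/-- **[BAD]**, one colour. -/
theorem bad_cT {μ : ℝ} (hμ : Vale.Agent.P167.N.Kit (2 * Real.cos μ)) (H : Set6 Φ ψ δ N k p S ψn)
    (hK : QE.Stair 3 Φ δ N k p S) (h1 : P_b1 δ N k p S) (h3 : P_b3 Φ δ N k p S) {T R : ℝ}
    (hT : 0 ≤ T) (hR : 0 < R) : ∃ ρ : ℝ, 0 < ρ ∧ ∀ C : Cst, C.T = T → C.R = R → C.Sm ρ →
    ∀ (c : Bool) (r η : ℝ), 0 < r → 0 < η → ∀ ε' : ℝ, 0 < ε' → ∃ s₀ : ℝ, 0 < s₀ ∧
      ∀ s : ℝ, 0 < s → s ≤ s₀ → ∀ᶠ n in atTop, ∀ κ : Hst → ℕ,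
        QE.BefIx (exn δ N k p S ψn n) C.T C.R κ →
        QE.ExW (exn δ N k p S ψn n).C (QE.wq ((2 * Real.cos μ) ^ 2) (N n) (p n) (k n) (S n))
          ({A | η < prT μ C (p n) (k n) (S n) (δ n) r s A (κ A) c}.indicator 1) ≤ ε' := by
  have hμ_pos := hμ.pos
  obtain ⟨m, hm, hb4⟩ := H825.B4.b4 H hK hT hR.le
  refine ⟨m / 8, by positivity, ?_⟩
  rintro C rfl rfl hC c r η hr hη ε' hε'
  have hsq : √((2 * Real.cos μ) ^ 2) = 2 * Real.cos μ := Real.sqrt_sq (by linarith)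
  have hq1 : Vale.Agent.P167.N.Kit (√((2 * Real.cos μ) ^ 2)) := by
    rw [hsq]
    exact hμ
  have hq4 : (2 * Real.cos μ) ^ 2 ≤ 4 := by nlinarith [Real.cos_le_one μ]
  obtain ⟨r', hr', hr'r, hr'm⟩ : ∃ r' : ℝ, 0 < r' ∧ r' ≤ r ∧ r' ≤ m / 8 :=
    ⟨min r (m / 8), by positivity, min_le_left _ _, min_le_right _ _⟩
  obtain ⟨r₁, hr₁, hr₁', h3⟩ := h3 r' hr'
  obtain ⟨r₂, hr₂, hret⟩ := Vale.Agent.P167.N.H437Q.Ret.p_ret hq1 hq4 H.appr ψn r₁ hr₁ hr₁' (ε' / 2) (by positivity)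
  obtain ⟨r₃, hr₃, s₁, hs₁, h3⟩ := h3 r₂ hr₂
  obtain ⟨ρF, hρF, hρF3, hρFm⟩ : ∃ ρF : ℝ, 0 < ρF ∧ ρF ≤ r₃ ∧ ρF ≤ m / 8 :=
    ⟨min r₃ (m / 8), by positivity, min_le_left _ _, min_le_right _ _⟩
  obtain ⟨L, hL, hLn⟩ := exists_L H
  obtain ⟨K, hK8, hlaw⟩ := Vale.Agent.P167.N.H174.CT.bad_small2 hq1 hq4
  obtain ⟨R₁, hR₁, hlaw⟩ := hlaw Φ δ N k p S H.appr ρF L hρF hL
  obtain ⟨R₂, hR₂, hR₂1, hR₂r, hR₂F, hR₂o⟩ : ∃ R₂ : ℝ, 0 < R₂ ∧ R₂ ≤ R₁ ∧ 8 * R₂ ≤ r' ∧
      16 * R₂ ≤ ρF ∧ R₂ ≤ 1 := by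
    refine ⟨min (min R₁ 1) (min (r' / 8) (ρF / 16)), by positivity,
      (min_le_left _ _).trans (min_le_left _ _), ?_, ?_,
      (min_le_left _ _).trans (min_le_right _ _)⟩
    · have := (min_le_right (min R₁ 1) (min (r' / 8) (ρF / 16))).trans (min_le_left _ _)
      linarith
    · have := (min_le_right (min R₁ 1) (min (r' / 8) (ρF / 16))).trans (min_le_right _ _)
      linarith
  obtain ⟨ε, hε, hεη, hεε⟩ : ∃ ε : ℝ, 0 < ε ∧ ε ≤ η ∧ ε ≤ ε' / 2 :=
    ⟨min η (ε' / 2), by positivity, min_le_left _ _, min_le_right _ _⟩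
  obtain ⟨ηc, hηc, hlaw⟩ := hlaw R₂ hR₂ hR₂1 ε hε
  have hK0 : 0 < K := by linarith
  obtain ⟨ηb, hηb, hηb1, hηb2⟩ : ∃ ηb : ℝ, 0 < ηb ∧ ηb ≤ ηc / 2 ∧ ηb ≤ R₂ / (4 * K) :=
    ⟨min (ηc / 2) (R₂ / (4 * K)), by positivity, min_le_left _ _, min_le_right _ _⟩
  obtain ⟨s₂, hs₂, h1⟩ := h1 ηb hηb
  refine ⟨min (min s₁ s₂) (min (R₂ / (8 * K) / 2000) C.m),
    lt_min (lt_min hs₁ hs₂) (lt_min (by positivity) hC.m_pos), fun s hs hss => ?_⟩
  have t1 : s ≤ s₁ := (hss.trans (min_le_left _ _)).trans (min_le_left _ _)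
  have t2 : s ≤ s₂ := (hss.trans (min_le_left _ _)).trans (min_le_right _ _)
  have t3 : 2000 * s ≤ R₂ / (8 * K) := by
    have := (hss.trans (min_le_right _ _)).trans (min_le_left _ _)
    linarith
  have t4 : s ≤ C.m := (hss.trans (min_le_right _ _)).trans (min_le_right _ _)
  have hmp := hC.m_pos
  filter_upwards [hlaw, hret, h3 s hs t1, h1 s hs t2, hb4, hLn, marks H.appr (show 0 < ρF / 16 by
    positivity), CT.two_ev H.appr, H.appr.2.1.eventually (gt_mem_nhds (show (0 : ℝ) <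
      min (min (ηc / 2) (R₂ / (8 * K) / 200)) (C.m / 8) by positivity))]
    with n hlaw hret h3 h1 hb4 hLn hmk hk2 hδn
  obtain ⟨Z, col, hZ, hcov, hlaw⟩ := hlaw
  obtain ⟨hδ, hk0, hkN, hp, hS⟩ := H.appr.1 n
  have d1 : δ n ≤ ηc / 2 := (hδn.le.trans (min_le_left _ _)).trans (min_le_left _ _)
  have d2 : 200 * δ n ≤ R₂ / (8 * K) := by
    have := (hδn.le.trans (min_le_left _ _)).trans (min_le_right _ _)
    linarith
  have d3 : 8 * δ n ≤ C.m := by
    have := hδn.le.trans (min_le_right _ _)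
    linarith
  intro κ hκ
  set Bx : Finset (ℤ × ℤ) := bxT C (p n) (k n) (δ n) s with hBx
  set F : Set (ℤ × ℤ) := Ff (H192.ro (p n (k n))) (mq C.Lc s (δ n) + 1)
    ((vd (p n) (k n) C.Ld s (δ n)).1 - mb C.m (δ n)) ((vd (p n) (k n) C.Ld s (δ n)).1 + mb C.m (δ n))
    ((vd (p n) (k n) C.Ld s (δ n)).2 - mb C.m (δ n)) ((vd (p n) (k n) C.Ld s (δ n)).2 + mb C.m (δ n))
    with hF
  set E : Finset (Sym2 (ℤ × ℤ)) → Set Cfg := fun A =>
    if CA p k S Φ δ n s r' ρF A (κ A) then ∅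
    else NSE (p n) (k n) (S n) (δ n) r s A (κ A) Bx F c with hE
  have hCe : ∀ {A : Finset (Sym2 (ℤ × ℤ))}, A ∈ (exn δ N k p S ψn n).C ↔ A ⊆ edges (S n) :=
    H411.mem_Qc (p := p n) (k := k n) (δ := δ n)
  have hKn : ∀ A : Finset (Sym2 (ℤ × ℤ)), (exn δ N k p S ψn n).K A = len (p n) (k n) A + 2 :=
    fun A => rfl
  -- the histories
  have hHist : CT.Hist (exn δ N k p S ψn n) κ E := by
    intro A hA A' hA' h
    have hA1 := hCe.1 hA
    have hA1' := hCe.1 hA'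
    have h' : ∀ i ≤ κ A, run (p n) (k n) A' (i - 1) = run (p n) (k n) A (i - 1) := h
    have hκ' : κ A' = κ A := hκ.1 A hA A' hA' h
    have hCA : CA p k S Φ δ n s r' ρF A' (κ A') ↔ CA p k S Φ δ n s r' ρF A (κ A) := by
      unfold CA
      rw [hκ']
      simp only [Cfl_agree hp hS hkN hA1 hA1' h']
    have hNS : NSE (p n) (k n) (S n) (δ n) r s A' (κ A') Bx F c =
        NSE (p n) (k n) (S n) (δ n) r s A (κ A) Bx F c := by
      unfold NSE
      cases c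
      · exact hist_lo hp hS hkN hκ.1 false _ _ F A hA A' hA' h
      · exact hist_up hp hS hkN hκ.1 true _ _ Bx A hA A' hA' h
    show (if CA p k S Φ δ n s r' ρF A' (κ A') then ∅ else _) =
      (if CA p k S Φ δ n s r' ρF A (κ A) then ∅ else _)
    rw [hNS]
    exact if_congr hCA rfl rfl
  have hmk0 : m / 8 * 2 = m / 4 := by ring
  -- the inclusion
  have hinc : ∀ A ⊆ edges (S n), H192.cfg (wiredOpen (p n) (k n) A) ∈ E A → ∃ z ∈ Z,
      rep (Dq (S n) (p n) (k n)) (thk (p n) (k n) (S n) z ⌊R₂ / δ n⌋ (col z))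
        (H192.cfg (wiredOpen (p n) (k n) A)) ∈
          T32 (Dq (S n) (p n) (k n)) (col z) z (2 * ⌊R₂ / (K * δ n)⌋) ⌊R₂ / δ n⌋
            ⌊ηc / δ n⌋₊ := by
    intro A hA hEA
    have hCA : ¬ CA p k S Φ δ n s r' ρF A (κ A) := by
      intro h
      simp only [hE, if_pos h] at hEA
      exact hEA
    simp only [hE, if_neg hCA] at hEA
    have hAC := hCe.2 hA
    obtain ⟨hj1, hj2⟩ := hκ.2 A hAC
    have hj : κ A ≤ len (p n) (k n) A + 1 := by
      rw [hKn] at hj1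
      omega
    obtain ⟨-, hb, -⟩ := hb4 A hAC (κ A) hj1 hj2
    have h5' : ∀ w ∈ Om (δ n) (S n), ‖w‖ + R₂ ≤ L := fun w hw => by
      have := hLn w hw
      linarith
    refine H825.B5.inc (Φ := Φ) (m := m) (r := r) (r' := r') (s := s) (K := K) (R₂ := R₂)
      (ρF := ρF) (ηb := ηb) (ηc := ηc) (L := L) (r₃ := ρF) (Bx := Bx) (F := F) (c := c) hp hS hk0
      hk2 hA hj hK8 hδ hs t3 d2 hηb2 (by linarith) hηb hR₂r hR₂F hρFm hr'm hr'r le_rfl h1 hZ hcov
      ?_ ?_ h5' hmk.1 hmk.2 ?_ ?_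
    · intro z hz
      refine hb z (rS s (δ n)) (rR r' (δ n)) ?_ hz
      -- the radii
      have e1 : (⌈100 * s / δ n⌉₊ : ℝ) < 100 * s / δ n + 1 := Nat.ceil_lt_add_one (by positivity)
      have e2 : r' / δ n < (⌊r' / δ n⌋₊ : ℝ) + 1 := Nat.lt_floor_add_one _
      have e3 : ((rS s (δ n) : ℕ) : ℝ) = 8 * (⌈100 * s / δ n⌉₊ : ℝ) := by
        unfold rS; push_cast; ring
      have e4 : ((rR r' (δ n) : ℕ) : ℝ) = (⌊r' / δ n⌋₊ : ℝ) := rfl
      rw [e3, e4]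
      have e5 : 400 * s / δ n + 10 ≤ r' / δ n := by
        have h8 : R₂ / (8 * K) ≤ R₂ := by
          rw [div_le_iff₀ (by positivity)]
          nlinarith
        rw [div_add' _ _ _ hδ.ne', div_le_div_iff_of_pos_right hδ]
        linarith
      have e6 : 400 * s / δ n = 4 * (100 * s / δ n) := by ring
      linarith
    · intro z c u w hz hcf
      exact hCA ⟨z, c, u, w, hz, hcf⟩
    · intro t ht
      have h8 := targ_nearT (p := p n) (k := k n) hC hδ hs t4 d3 (b := c) (t := t) ht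
      linarith
    · unfold NSE at hEA
      cases c
      · exact hEA
      · exact hEA
  -- the law
  have h5 := hlaw ψn κ hκ.1 E hHist hinc
  have hfin : ((exn δ N k p S ψn n).C).Finite := by
    have : (exn δ N k p S ψn n).C = (((edges (S n)).powerset : Finset _) : Set _) := rfl
    rw [this]
    exact Finset.finite_toSet _
  have hw : ∀ A ∈ (exn δ N k p S ψn n).C,
      0 < QE.wq ((2 * Real.cos μ) ^ 2) (N n) (p n) (k n) (S n) A := fun A _ =>
    QG.weight_pos (by positivity) _ _ _ _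
  refine (QE.exW_mono hfin hw (g := fun A => ({A | ε < FK.Pr (√((2 * Real.cos μ) ^ 2))
      (Dq (S n) (p n) (k n) \ H161.Rd (p n) (k n) (S n) A (κ A))
      (H192.cfg (wiredOpen (p n) (k n) A)) (E A)}.indicator (1 : Hst → ℝ) A) +
      ({A | Ret Φ δ N k p n r₁ r₂ A}.indicator (1 : Hst → ℝ) A)) ?_).trans ?_
  · intro A hA
    by_cases hA2 : A ∈ {A | η < prT μ C (p n) (k n) (S n) (δ n) r s A (κ A) c}
    swap
    · rw [indicator_of_notMem hA2]
      exact add_nonneg (indicator_nonneg (fun _ _ => zero_le_one) _)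
        (indicator_nonneg (fun _ _ => zero_le_one) _)
    rw [indicator_of_mem hA2]
    have hj1 := (hκ.2 A hA).1
    by_cases hCA : CA p k S Φ δ n s r' ρF A (κ A)
    · have hr2 : Ret Φ δ N k p n r₁ r₂ A := by
        by_contra hno
        obtain ⟨z, c', u, w, g1, g2⟩ := hCA
        exact h3 A (hCe.1 hA) (κ A) (by rw [hKn] at hj1; omega) hno z (g1.trans hρF3) c' u w g2
      rw [indicator_of_mem (s := {A | Ret Φ δ N k p n r₁ r₂ A}) hr2]
      have := indicator_nonneg (s := {A | ε < FK.Pr (√((2 * Real.cos μ) ^ 2))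
        (Dq (S n) (p n) (k n) \ H161.Rd (p n) (k n) (S n) A (κ A))
        (H192.cfg (wiredOpen (p n) (k n) A)) (E A)}) (f := (1 : Hst → ℝ))
        (fun _ _ => zero_le_one) A
      simp only [Pi.one_apply] at this ⊢
      linarith
    · have hmem : A ∈ {A | ε < FK.Pr (√((2 * Real.cos μ) ^ 2))
          (Dq (S n) (p n) (k n) \ H161.Rd (p n) (k n) (S n) A (κ A))
          (H192.cfg (wiredOpen (p n) (k n) A)) (E A)} := by
        show ε < _
        rw [hsq]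
        refine hεη.trans_lt ?_
        have hA3 : η < prT μ C (p n) (k n) (S n) (δ n) r s A (κ A) c := hA2
        have e1 : E A = NSE (p n) (k n) (S n) (δ n) r s A (κ A) Bx F c := by
          simp only [hE, if_neg hCA]
        rw [e1]
        unfold prT at hA3
        unfold NSE
        cases c
        · exact hA3
        · exact hA3
      rw [indicator_of_mem hmem]
      have := indicator_nonneg (s := {A | Ret Φ δ N k p n r₁ r₂ A}) (f := (1 : Hst → ℝ))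
        (fun _ _ => zero_le_one) A
      simp only [Pi.one_apply] at this ⊢
      linarith
  · rw [QE.exW_add hfin]
    have h6 : QE.ExW (exn δ N k p S ψn n).C
        (QE.wq ((2 * Real.cos μ) ^ 2) (N n) (p n) (k n) (S n)) (fun A =>
          {A | ε < FK.Pr (√((2 * Real.cos μ) ^ 2))
            (Dq (S n) (p n) (k n) \ H161.Rd (p n) (k n) (S n) A (κ A))
            (H192.cfg (wiredOpen (p n) (k n) A)) (E A)}.indicator (1 : Hst → ℝ) A) ≤ ε' / 2 :=
      (le_of_eq (by rfl)).trans (h5.trans hεε)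
    have h7 : QE.ExW (exn δ N k p S ψn n).C
        (QE.wq ((2 * Real.cos μ) ^ 2) (N n) (p n) (k n) (S n)) (fun A =>
          {A | Ret Φ δ N k p n r₁ r₂ A}.indicator (1 : Hst → ℝ) A) ≤ ε' / 2 :=
      (le_of_eq (by rfl)).trans hret
    linarith

end

open Classical in
/-- **[BAD]** from the blocks (B1), (B3). -/
theorem b_badT_of {μ : ℝ} (hμ : Vale.Agent.P167.N.Kit (2 * Real.cos μ)) (hb1 : L_b1)
    (hb3 : ∀ (Φ : (ℝ × ℝ) ≃ₜ (ℝ × ℝ)) (δ : ℕ → ℝ) (N k : ℕ → ℕ)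
      (p : ∀ n, ZMod (N n) → ℤ × ℤ) (S : ℕ → Finset (ℤ × ℤ)), Approx Φ δ N k p S →
      P_b3 Φ δ N k p S) : B_badT μ := by
  have hμ_pos := hμ.pos
  intro Φ ψ δ N k p S ψn H hK T R hT hR
  obtain ⟨ρ, hρ, hb⟩ := bad_cT hμ H hK (b1_of hb1 H.appr) (hb3 Φ δ N k p S H.appr) hT hR
  refine ⟨ρ, hρ, fun C hC1 hC2 hC => ?_⟩
  intro r η hr hη ε' hε'
  obtain ⟨s₁, hs₁, h1⟩ := hb C hC1 hC2 hC true r η hr hη (ε' / 2) (by positivity)
  obtain ⟨s₂, hs₂, h2⟩ := hb C hC1 hC2 hC false r η hr hη (ε' / 2) (by positivity)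
  refine ⟨min s₁ s₂, lt_min hs₁ hs₂, fun s hs hss => ?_⟩
  filter_upwards [h1 s hs (hss.trans (min_le_left _ _)), h2 s hs (hss.trans (min_le_right _ _))]
    with n h1 h2 κ hκ
  have h1 := h1 κ hκ
  have h2 := h2 κ hκ
  have hfin : ((exn δ N k p S ψn n).C).Finite := by
    have : (exn δ N k p S ψn n).C = (((edges (S n)).powerset : Finset _) : Set _) := rfl
    rw [this]
    exact Finset.finite_toSet _
  have hw : ∀ A ∈ (exn δ N k p S ψn n).C,
      0 < QE.wq ((2 * Real.cos μ) ^ 2) (N n) (p n) (k n) (S n) A := fun A _ =>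
    QG.weight_pos (by positivity) _ _ _ _
  refine (QE.exW_mono hfin hw (g := fun A =>
    ({A | η < prT μ C (p n) (k n) (S n) (δ n) r s A (κ A) true}.indicator (1 : Hst → ℝ) A) +
    ({A | η < prT μ C (p n) (k n) (S n) (δ n) r s A (κ A) false}.indicator (1 : Hst → ℝ) A))
    ?_).trans ?_
  · intro A hA
    have g1 := indicator_nonneg (s := {A | η < prT μ C (p n) (k n) (S n) (δ n) r s A (κ A) true})
      (f := (1 : Hst → ℝ)) (fun _ _ => zero_le_one) A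
    have g2 := indicator_nonneg (s := {A | η < prT μ C (p n) (k n) (S n) (δ n) r s A (κ A) false})
      (f := (1 : Hst → ℝ)) (fun _ _ => zero_le_one) A
    by_cases hA2 : A ∈ {A | ¬ ∀ c, prT μ C (p n) (k n) (S n) (δ n) r s A (κ A) c ≤ η}
    swap
    · rw [indicator_of_notMem hA2]
      exact add_nonneg g1 g2
    rw [indicator_of_mem hA2]
    have h3 : ¬ ∀ c, prT μ C (p n) (k n) (S n) (δ n) r s A (κ A) c ≤ η := hA2
    push Not at h3
    obtain ⟨c, hc⟩ := h3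
    cases c
    · rw [indicator_of_mem (s := {A | η < prT μ C (p n) (k n) (S n) (δ n) r s A (κ A) false})
        (show A ∈ {A | η < prT μ C (p n) (k n) (S n) (δ n) r s A (κ A) false} from hc)]
      simp only [Pi.one_apply] at g1 ⊢
      linarith
    · rw [indicator_of_mem (s := {A | η < prT μ C (p n) (k n) (S n) (δ n) r s A (κ A) true})
        (show A ∈ {A | η < prT μ C (p n) (k n) (S n) (δ n) r s A (κ A) true} from hc)]
      simp only [Pi.one_apply] at g2 ⊢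
      linarith
  · rw [QE.exW_add hfin]
    have h6 : QE.ExW (exn δ N k p S ψn n).C
        (QE.wq ((2 * Real.cos μ) ^ 2) (N n) (p n) (k n) (S n)) (fun A =>
          {A | η < prT μ C (p n) (k n) (S n) (δ n) r s A (κ A) true}.indicator (1 : Hst → ℝ) A)
        ≤ ε' / 2 := h1
    have h7 : QE.ExW (exn δ N k p S ψn n).C
        (QE.wq ((2 * Real.cos μ) ^ 2) (N n) (p n) (k n) (S n)) (fun A =>
          {A | η < prT μ C (p n) (k n) (S n) (δ n) r s A (κ A) false}.indicator (1 : Hst → ℝ) A)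
        ≤ ε' / 2 := h2
    linarith

/-- **ROW GEO:BAD** -/
theorem b_badT {μ : ℝ} (h0 : 0 < μ) (h1 : μ < Real.pi / 2)
    (hQ : Vale.Agent.P167.N.Kit (2 * Real.cos μ)) : B_badT μ :=
  b_badT_of hQ l_b1 p_b3

end Vale.Agent.P167.H364
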