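import Vale.Agent.P167.H816.Stop
import Vale.Agent.P167.H72.SD.Lat2

/-!
# P167, `0 < Q ≤ 1`, [GEO]: comparison lemmas with a bank, and monotone forms

* `bk_bank`, `bk_mono` : 816's `bk` with one set `U` which contains `u` and not `v`; the monotone form;
* `bks_bank`, `bks_mono` : the dual forms.
-/

set_option autoImplicit false

namespace Vale.Agent.P167.H364

open Finset Relation Vale.Agent.P167.FK Vale.Agent.P167.H816
open Vale.Agent.P145.FB (PStep)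
open Vale.Agent.P167.FKA (Cor)

variable {Q : ℝ} {D E P : Finset (ℤ × ℤ)} {η ζ ξ ω : Cfg}

/-! ### Edges and corners -/

theorem step_pab {F : Set (ℤ × ℤ)} {b : ℤ × ℤ} (h : b ∈ F) : PStep F (pa b) (pb b) := by
  obtain ⟨b1, b2⟩ := b
  unfold pa pb
  by_cases h' : Even (b1 + b2)
  · rw [if_pos h', if_pos h']
    refine ⟨Or.inl rfl, Or.inl rfl, ?_⟩
    convert h using 1
    ext <;> simp
  · rw [if_neg h', if_neg h']
    refine ⟨Or.inl rfl, Or.inr (by simp), ?_⟩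
    convert h using 1
    ext <;> simp

theorem step_dab {F : Set (ℤ × ℤ)} {b : ℤ × ℤ} (h : b ∈ F) : PStep F (da b) (db b) := by
  obtain ⟨b1, b2⟩ := b
  unfold da db
  by_cases h' : Even (b1 + b2)
  · rw [if_pos h', if_pos h']
    refine ⟨Or.inl rfl, Or.inr (by simp), ?_⟩
    convert h using 1
    ext <;> simp
  · rw [if_neg h', if_neg h']
    refine ⟨Or.inl rfl, Or.inl rfl, ?_⟩
    convert h using 1
    ext <;> simp

theorem PC_sq {b : ℤ × ℤ} (h : ω b = true) : PC ω (pa b) (pb b) :=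
  ReflTransGen.single (step_pab h)

theorem DC_sq {b : ℤ × ℤ} (h : ω b = false) : DC ω (da b) (db b) :=
  ReflTransGen.single (step_dab (by simp [op, h]))

theorem cor_even {b s : ℤ × ℤ} (hs : Even (s.1 + s.2)) : Cor b s ↔ s = pa b ∨ s = pb b := by
  obtain ⟨b1, b2⟩ := b
  obtain ⟨s1, s2⟩ := s
  simp only [Cor, pa, pb]
  simp only at hs
  rw [Int.even_iff] at hs
  by_cases h : Even (b1 + b2)
  · rw [if_pos h, if_pos h]
    rw [Int.even_iff] at h
    simp only [Prod.mk.injEq]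
    omega
  · rw [if_neg h, if_neg h]
    rw [Int.even_iff] at h
    simp only [Prod.mk.injEq]
    omega

theorem cor_odd {b s : ℤ × ℤ} (hs : Odd (s.1 + s.2)) : Cor b s ↔ s = da b ∨ s = db b := by
  obtain ⟨b1, b2⟩ := b
  obtain ⟨s1, s2⟩ := s
  simp only [Cor, da, db]
  simp only at hs
  rw [Int.odd_iff] at hs
  by_cases h : Even (b1 + b2)
  · rw [if_pos h, if_pos h]
    rw [Int.even_iff] at h
    simp only [Prod.mk.injEq]
    omega
  · rw [if_neg h, if_neg h]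
    rw [Int.even_iff] at h
    simp only [Prod.mk.injEq]
    omega

theorem mem_Ev {s : ℤ × ℤ} : s ∈ Ev D ↔ Even (s.1 + s.2) ∧ ∃ e ∈ D, Cor e s := by
  constructor
  · intro h
    have h1 := even_Ev h
    obtain ⟨e, he, h2⟩ := h
    exact ⟨h1, e, he, (cor_even h1).2 h2⟩
  · rintro ⟨h1, e, he, h2⟩
    exact ⟨e, he, (cor_even h1).1 h2⟩

theorem mem_Od {s : ℤ × ℤ} : s ∈ Od D ↔ Odd (s.1 + s.2) ∧ ∃ e ∈ D, Cor e s := by
  constructor
  · intro h
    have h1 := odd_Od h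
    obtain ⟨e, he, h2⟩ := h
    exact ⟨h1, e, he, (cor_odd h1).2 h2⟩
  · rintro ⟨h1, e, he, h2⟩
    exact ⟨e, he, (cor_odd h1).1 h2⟩

theorem cf_off {b : ℤ × ℤ} {S : Finset (ℤ × ℤ)} (h : b ∉ D) : cf D η S b = η b := by
  simp [cf, h]

theorem cf_emp_true {b : ℤ × ℤ} : cf D η ∅ b = true ↔ b ∉ D ∧ η b = true := by
  by_cases h : b ∈ D <;> simp [cf, h]

theorem cf_self_false {b : ℤ × ℤ} : cf D η D b = false ↔ b ∉ D ∧ η b = false := by
  by_cases h : b ∈ D <;> simp [cf, h]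

theorem PC_mono' {ω ω' : Cfg} {s t : ℤ × ℤ} (hst : PC ω s t)
    (h : ∀ v, ω v = true → ω' v = true) : PC ω' s t := PC_mono h hst

theorem DC_mono' {ω ω' : Cfg} {s t : ℤ × ℤ} (hst : DC ω s t)
    (h : ∀ v, ω v = false → ω' v = false) : DC ω' s t := DC_mono h hst

/-- A path to `u` uses only squares whose corners are joined to `u`. -/
theorem PC_restrict {ω ω' : Cfg} {s u : ℤ × ℤ} (hs : Even (s.1 + s.2)) (hst : PC ω s u)
    (h : ∀ b, ω b = true → PC ω (pa b) u → ω' b = true) : PC ω' s u := by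
  induction hst using ReflTransGen.head_induction_on with
  | refl => exact ReflTransGen.refl
  | @head a c h1 h2 ih =>
    have hc : Even (c.1 + c.2) := even_step h1 hs
    have h3 : ω (H816.sqr a c) = true := h1.2.2
    have h4 : PC ω (pa (H816.sqr a c)) u := by
      rcases step_even h1 hs with ⟨h5, -⟩ | ⟨-, h6⟩
      · rw [← h5]; exact ReflTransGen.head h1 h2
      · rw [← h6]; exact h2
    exact ReflTransGen.head ⟨h1.1, h1.2.1, h _ h3 h4⟩ (ih hc)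

theorem DC_restrict {ω ω' : Cfg} {s u : ℤ × ℤ} (hs : Odd (s.1 + s.2)) (hst : DC ω s u)
    (h : ∀ b, ω b = false → DC ω (da b) u → ω' b = false) : DC ω' s u := by
  induction hst using ReflTransGen.head_induction_on with
  | refl => exact ReflTransGen.refl
  | @head a c h1 h2 ih =>
    have hc : Odd (c.1 + c.2) := odd_step h1 hs
    have h3 : ω (H816.sqr a c) = false := by
      have := h1.2.2
      simpa [op, H816.sqr] using this
    have h4 : DC ω (da (H816.sqr a c)) u := by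
      rcases step_odd h1 hs with ⟨h5, -⟩ | ⟨-, h6⟩
      · rw [← h5]; exact ReflTransGen.head h1 h2
      · rw [← h6]; exact h2
    have h5 : ω' (H816.sqr a c) = false := h _ h3 h4
    refine ReflTransGen.head ⟨h1.1, h1.2.1, ?_⟩ (ih hc)
    show ¬ ω' (H816.sqr a c) = true
    rw [h5]
    simp

/-! ### Banks -/

/-- **BK with a bank.** -/
theorem bk_bank (hQ : 0 < Q) (hQ1 : Q ≤ 1) (hζ : Good ζ) (hη : Good η) (hEP : E ⊆ P)
    {u v : ℤ × ℤ} (hu : Even (u.1 + u.2)) (hv : Even (v.1 + v.2)) {U : Set (ℤ × ℤ)}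
    (huU : u ∈ U) (hvU : v ∉ U)
    (hU : ∀ b, b ∉ E → (b ∈ P ∨ ζ b = true ∨ η b = true) → (pa b ∈ U ↔ pb b ∈ U))
    (hc : ∀ b, b ∉ E → (b ∈ P ∨ ζ b = true ∨ η b = true) → ∀ s, (s = pa b ∨ s = pb b) →
      s ∈ Ev E → PC (cf E η ∅) s u ∨ PC (cf E η ∅) s v) :
    Pr Q P ζ {ω | PC ω u v} ≤ Pr Q E η {ω | PC ω u v} := by
  have hcl : ∀ b, cf E η ∅ b = true → (pa b ∈ U ↔ pb b ∈ U) := fun b hb =>
    hU b (cf_emp_true.1 hb).1 (Or.inr (Or.inr (cf_emp_true.1 hb).2))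
  refine bk hQ hQ1 hζ hη hEP hu hv
    (U := {s | s ∈ U ∧ (s = u ∨ ∃ b, b ∉ E ∧ (b ∈ P ∨ ζ b = true) ∧ (s = pa b ∨ s = pb b))})
    (V := {s | s ∉ U ∧ (s = v ∨ ∃ b, b ∉ E ∧ (b ∈ P ∨ ζ b = true) ∧ (s = pa b ∨ s = pb b))})
    ?_ ⟨huU, Or.inl rfl⟩ ⟨hvU, Or.inl rfl⟩ ?_ ?_ ?_ ?_
  · rw [Set.disjoint_left]
    rintro s ⟨h1, -⟩ ⟨h2, -⟩
    exact h2 h1
  · intro b hb hb'
    have h1 : pa b ∈ U ↔ pb b ∈ U := hU b hb (by tauto)
    have ha : ∃ b', b' ∉ E ∧ (b' ∈ P ∨ ζ b' = true) ∧ (pa b = pa b' ∨ pa b = pb b') :=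
      ⟨b, hb, hb', Or.inl rfl⟩
    have hb2 : ∃ b', b' ∉ E ∧ (b' ∈ P ∨ ζ b' = true) ∧ (pb b = pa b' ∨ pb b = pb b') :=
      ⟨b, hb, hb', Or.inr rfl⟩
    refine ⟨?_, ?_, ?_, ?_⟩
    · constructor
      · rintro ⟨h2, -⟩; exact ⟨h1.1 h2, Or.inr hb2⟩
      · rintro ⟨h2, -⟩; exact ⟨h1.2 h2, Or.inr ha⟩
    · constructor
      · rintro ⟨h2, -⟩; exact ⟨fun h3 => h2 (h1.2 h3), Or.inr hb2⟩
      · rintro ⟨h2, -⟩; exact ⟨fun h3 => h2 (h1.1 h3), Or.inr ha⟩
    · intro _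
      by_cases h2 : pa b ∈ U
      · exact Or.inl ⟨h2, Or.inr ha⟩
      · exact Or.inr ⟨h2, Or.inr ha⟩
    · intro _
      by_cases h2 : pb b ∈ U
      · exact Or.inl ⟨h2, Or.inr hb2⟩
      · exact Or.inr ⟨h2, Or.inr hb2⟩
  · rintro s ⟨hsU, h | ⟨b, hb, hb', hbs⟩⟩ hsE
    · rw [h]; exact ReflTransGen.refl
    · rcases hc b hb (by tauto) s hbs hsE with h1 | h1
      · exact h1
      · exact absurd (path_closed hcl (even_Ev hsE) h1 hsU) hvU
  · rintro s ⟨hsU, h | ⟨b, hb, hb', hbs⟩⟩ hsE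
    · rw [h]; exact ReflTransGen.refl
    · rcases hc b hb (by tauto) s hbs hsE with h1 | h1
      · exact absurd (path_closed hcl hu (H816.PC_symm h1) huU) hsU
      · exact h1
  · intro b hb hb' s hbs hsE
    exact hc b hb (Or.inr (Or.inr hb')) s hbs hsE

theorem Pr_eq_one (hQ : 0 < Q) {A : Set Cfg} (h : ∀ S ⊆ D, cf D η S ∈ A) : Pr Q D η A = 1 := by
  unfold Pr
  rw [← FKA.Ex_const (D := D) (η := η) hQ 1]
  refine FKA.Ex_congr fun S hS => ?_
  rw [Set.indicator_of_mem (h S hS)]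
  rfl

theorem Pr_eq_zero (hQ : 0 < Q) {A : Set Cfg} (h : ∀ S ⊆ D, cf D η S ∉ A) : Pr Q D η A = 0 := by
  unfold Pr
  rw [← FKA.Ex_const (D := D) (η := η) hQ 0]
  refine FKA.Ex_congr fun S hS => ?_
  rw [Set.indicator_of_notMem (h S hS)]

/-- **BK, monotone form.** -/
theorem bk_mono (hQ : 0 < Q) (hQ1 : Q ≤ 1) (hζ : Good ζ) (hη : Good η) (hEP : E ⊆ P)
    {u v : ℤ × ℤ} (hu : Even (u.1 + u.2)) (hv : Even (v.1 + v.2))
    (hm : ∀ b, b ∉ E → (b ∈ P ∨ ζ b = true) → η b = true)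
    (hc : ∀ b, b ∉ E → η b = true → ∀ s, (s = pa b ∨ s = pb b) →
      s ∈ Ev E → PC (cf E η ∅) s u ∨ PC (cf E η ∅) s v) :
    Pr Q P ζ {ω | PC ω u v} ≤ Pr Q E η {ω | PC ω u v} := by
  have hm' : ∀ b, b ∉ E → (b ∈ P ∨ ζ b = true ∨ η b = true) → η b = true := by
    rintro b hb (h | h | h)
    · exact hm b hb (Or.inl h)
    · exact hm b hb (Or.inr h)
    · exact h
  by_cases huv : PC (cf E η ∅) u v
  · rw [Pr_eq_one (D := E) (η := η) hQ fun S hS => PC_mono' huv fun b hb => by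
      obtain ⟨h1, h2⟩ := cf_emp_true.1 hb
      rwa [cf_off h1]]
    exact FKA.Pr_le_one hQ _
  · refine bk_bank hQ hQ1 hζ hη hEP hu hv (U := {s | PC (cf E η ∅) s u}) ReflTransGen.refl
      (fun h => huv (H816.PC_symm h)) (fun b hb hb' => ?_)
      (fun b hb hb' => hc b hb (hm' b hb hb'))
    have h1 : PC (cf E η ∅) (pa b) (pb b) := PC_sq (cf_emp_true.2 ⟨hb, hm' b hb hb'⟩)
    exact ⟨fun h => (H816.PC_symm h1).trans h, fun h => h1.trans h⟩

/-- **BK*, with a bank.** -/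
theorem bks_bank (hQ : 0 < Q) (hQ1 : Q ≤ 1) (hη : Good η) (hξ : Good ξ) (hED : E ⊆ D)
    {a : ℤ × ℤ} (haD : a ∉ D) (haη : η a = false) (haξ : ξ a = false) {Y : Set (ℤ × ℤ)}
    (hx : da a ∈ Y) (hy : db a ∉ Y)
    (hY : ∀ b, b ∉ E → b ≠ a → (b ∈ D ∨ η b = false ∨ ξ b = false) → (da b ∈ Y ↔ db b ∈ Y))
    (hc : ∀ b, b ∉ E → b ≠ a → (b ∈ D ∨ η b = false ∨ ξ b = false) →
      ∀ s, (s = da b ∨ s = db b) → s ∈ Od E →
      DC (cf E (Function.update ξ a true) E) s (da a) ∨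
        DC (cf E (Function.update ξ a true) E) s (db a)) :
    Pr Q E ξ {ω | PC ω (pa a) (pb a)} ≤ Pr Q D η {ω | PC ω (pa a) (pb a)} := by
  have hcl : ∀ b, cf E (Function.update ξ a true) E b = false → (da b ∈ Y ↔ db b ∈ Y) := by
    intro b hb
    obtain ⟨h1, h2⟩ := cf_self_false.1 hb
    have hba : b ≠ a := by rintro rfl; simp at h2
    rw [Function.update_of_ne hba] at h2
    exact hY b h1 hba (Or.inr (Or.inr h2))
  refine bk_star hQ hQ1 hη hξ hED haD haη haξ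
    (U := {s | s ∈ Y ∧ (s = da a ∨ ∃ b, b ∉ E ∧ b ≠ a ∧ (b ∈ D ∨ η b = false) ∧
      (s = da b ∨ s = db b))})
    (V := {s | s ∉ Y ∧ (s = db a ∨ ∃ b, b ∉ E ∧ b ≠ a ∧ (b ∈ D ∨ η b = false) ∧
      (s = da b ∨ s = db b))})
    ?_ ⟨hx, Or.inl rfl⟩ ⟨hy, Or.inl rfl⟩ ?_ ?_ ?_ ?_
  · rw [Set.disjoint_left]
    rintro s ⟨h1, -⟩ ⟨h2, -⟩
    exact h2 h1
  · intro b hb hba hb'
    have h1 : da b ∈ Y ↔ db b ∈ Y := hY b hb hba (by tauto)
    have ha : ∃ b', b' ∉ E ∧ b' ≠ a ∧ (b' ∈ D ∨ η b' = false) ∧ (da b = da b' ∨ da b = db b') :=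
      ⟨b, hb, hba, hb', Or.inl rfl⟩
    have hb2 : ∃ b', b' ∉ E ∧ b' ≠ a ∧ (b' ∈ D ∨ η b' = false) ∧ (db b = da b' ∨ db b = db b') :=
      ⟨b, hb, hba, hb', Or.inr rfl⟩
    refine ⟨?_, ?_, ?_, ?_⟩
    · constructor
      · rintro ⟨h2, -⟩; exact ⟨h1.1 h2, Or.inr hb2⟩
      · rintro ⟨h2, -⟩; exact ⟨h1.2 h2, Or.inr ha⟩
    · constructor
      · rintro ⟨h2, -⟩; exact ⟨fun h3 => h2 (h1.2 h3), Or.inr hb2⟩
      · rintro ⟨h2, -⟩; exact ⟨fun h3 => h2 (h1.1 h3), Or.inr ha⟩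
    · intro _
      by_cases h2 : da b ∈ Y
      · exact Or.inl ⟨h2, Or.inr ha⟩
      · exact Or.inr ⟨h2, Or.inr ha⟩
    · intro _
      by_cases h2 : db b ∈ Y
      · exact Or.inl ⟨h2, Or.inr hb2⟩
      · exact Or.inr ⟨h2, Or.inr hb2⟩
  · rintro s ⟨hsU, h | ⟨b, hb, hba, hb', hbs⟩⟩ hsE
    · rw [h]; exact ReflTransGen.refl
    · rcases hc b hb hba (by tauto) s hbs hsE with h1 | h1
      · exact h1
      · exact absurd (path_closed_dual hcl (odd_Od hsE) h1 hsU) hy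
  · rintro s ⟨hsU, h | ⟨b, hb, hba, hb', hbs⟩⟩ hsE
    · rw [h]; exact ReflTransGen.refl
    · rcases hc b hb hba (by tauto) s hbs hsE with h1 | h1
      · exact absurd (path_closed_dual hcl (odd_da a) (H816.DC_symm h1) hx) hsU
      · exact h1
  · intro b hb hba hb' s hbs hsE
    exact hc b hb hba (Or.inr (Or.inr hb')) s hbs hsE

/-- The root square splits the joined dual corners. -/
theorem not_PC_of_DC {a : ℤ × ℤ} (hξ : Good ω) (ha : ω a = false)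
    (h : DC (Function.update ω a true) (da a) (db a)) : ¬ PC ω (pa a) (pb a) := by
  have h1 := planar hξ a
  have h2 : Function.update ω a false = ω := by
    rw [Function.update_eq_iff]
    exact ⟨ha.symm, fun _ _ => rfl⟩
  rw [h2] at h1
  exact fun h3 => h1.1 h3 h

/-- **BK*, monotone form.** -/
theorem bks_mono (hQ : 0 < Q) (hQ1 : Q ≤ 1) (hη : Good η) (hξ : Good ξ) (hED : E ⊆ D)
    {a : ℤ × ℤ} (haD : a ∉ D) (haη : η a = false) (haξ : ξ a = false)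
    (hm : ∀ b, b ∉ E → b ≠ a → (b ∈ D ∨ η b = false) → ξ b = false)
    (hc : ∀ b, b ∉ E → b ≠ a → ξ b = false → ∀ s, (s = da b ∨ s = db b) → s ∈ Od E →
      DC (cf E (Function.update ξ a true) E) s (da a) ∨
        DC (cf E (Function.update ξ a true) E) s (db a)) :
    Pr Q E ξ {ω | PC ω (pa a) (pb a)} ≤ Pr Q D η {ω | PC ω (pa a) (pb a)} := by
  have haE : a ∉ E := fun h => haD (hED h)
  have hm' : ∀ b, b ∉ E → b ≠ a → (b ∈ D ∨ η b = false ∨ ξ b = false) → ξ b = false := by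
    rintro b hb hba (h | h | h)
    · exact hm b hb hba (Or.inl h)
    · exact hm b hb hba (Or.inr h)
    · exact h
  by_cases hxy : DC (cf E (Function.update ξ a true) E) (da a) (db a)
  · rw [Pr_eq_zero (D := E) (η := ξ) hQ fun S hS => ?_]
    · exact FKA.Pr_nonneg hQ _
    · refine not_PC_of_DC (good_cf E hξ S) (by rw [cf_off haE]; exact haξ) ?_
      refine DC_mono' hxy fun b hb => ?_
      obtain ⟨h1, h2⟩ := cf_self_false.1 hb
      have hba : b ≠ a := by rintro rfl; simp at h2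
      rw [Function.update_of_ne hba] at h2 ⊢
      rwa [cf_off h1]
  · refine bks_bank hQ hQ1 hη hξ hED haD haη haξ
      (Y := {s | DC (cf E (Function.update ξ a true) E) s (da a)}) ReflTransGen.refl
      (fun h => hxy (H816.DC_symm h)) (fun b hb hba hb' => ?_)
      (fun b hb hba hb' => hc b hb hba (hm' b hb hba hb'))
    have h1 : DC (cf E (Function.update ξ a true) E) (da b) (db b) := by
      refine DC_sq (cf_self_false.2 ⟨hb, ?_⟩)
      rw [Function.update_of_ne hba]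
      exact hm' b hb hba hb'
    exact ⟨fun h => (H816.DC_symm h1).trans h, fun h => h1.trans h⟩

end Vale.Agent.P167.H364
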