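import Vale.Agent.P167.H364.ErrD
import Vale.Agent.P167.H627.ErrC

/-!
# P167, `0 < q < 1`, [GEO]: mixing at `t` and the error terms

ROW GEO:MIX, proved in `H627/Err{A,B,C}`.
-/

set_option autoImplicit false

namespace Vale.Agent.P167.H364

open Finset Relation Vale.Agent.P167.FK
open Vale.Agent.P145.FB (PStep)
open Vale.Agent.P167.FKA (Cor)
open Vale.Agent.P167.H72.SD (NSup)

/-- **The error of the lower bound.** -/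
theorem kx_lo {Q : ℝ} (hQ : N.Kit Q) : ∃ L : ℤ, 1 ≤ L ∧ ∀ (D : Finset (ℤ × ℤ)) (η : Cfg)
    (t : ℤ × ℤ) (g r : ℤ) (Z : Finset (ℤ × ℤ)), FlZ D η t g r Z → 1 ≤ r → L * r ≤ g →
    ∀ (B Bx : Finset (ℤ × ℤ)) (Y : Set (ℤ × ℤ)), B ⊆ D \ Z → Bq t g ⊆ Bx →
      (∀ s ∈ Y, s ∈ BR.sites Bx) →
      Pr Q (D \ Z) (opn Z η)
          {ω | ¬ ∀ s, Kx false 1 (D \ Z) B (Fc (D \ Z) (opn Z η)) ω s → s ∉ Y} ≤
        8 * Pr Q D η (NSup D B Bx) := H627.kx_lo hQ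

/-- **The error of the upper bound.** -/
theorem kx_up {Q : ℝ} (hQ : N.Kit Q) : ∃ L : ℤ, 1 ≤ L ∧ ∀ (D : Finset (ℤ × ℤ)) (η : Cfg)
    (t : ℤ × ℤ) (g r : ℤ) (Z : Finset (ℤ × ℤ)), FlZ D η t g r Z → 1 ≤ r → L * r ≤ g →
    ∀ (B : Finset (ℤ × ℤ)) (U : Set (ℤ × ℤ)) (π : ℝ), B ⊆ D \ Z → Disjoint B (HBt t g) →
      (∀ s ∈ U, Even (s.1 + s.2) → (∃ x ∈ D \ Z, Cor x s) → s ∈ BR.sites Z) → ArmB Q t g Z π →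
      Pr Q (D \ Z) (opn Z η)
          {ω | ∃ s, Kx true 0 (D \ Z) B (Wc (D \ Z) (opn Z η)) ω s ∧ s ∈ U} ≤
        8 * π * Pr Q D η (NOut D B (HBt t g)) := H627.kx_up hQ

/-- The connection of `t` to a far site needs an arm. -/
theorem pc_arm {Q : ℝ} (hQ : 0 < Q) {D : Finset (ℤ × ℤ)} {η : Cfg} {t : ℤ × ℤ} {g r : ℤ}
    {Z : Finset (ℤ × ℤ)} (h : FlZ D η t g r Z) (hr : r + 4 ≤ g) {b : ℤ × ℤ}
    (hb : t.1 + g ≤ b.1) {π : ℝ} (hπ : ArmB Q t g Z π) :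
    Pr Q (D \ Z) (opn Z η) {ω | PC ω t b} ≤ π := H627.pc_arm hQ h hr hb hπ

/-- **Ratio mixing for the configuration on `Z`.** -/
theorem mix_Z {Q : ℝ} (hQ : N.Kit Q) {ε : ℝ} (hε : 0 < ε) : ∃ L : ℤ, 1 ≤ L ∧
    ∀ (D D' : Finset (ℤ × ℤ)) (η η' : Cfg) (t : ℤ × ℤ) (g r : ℤ) (Z : Finset (ℤ × ℤ)) (ζ : Cfg),
      FlZ D η t g r Z → FlZ D' η' t g r Z → 1 ≤ r → L * r ≤ g →
      |Pr Q D η {ω | ∀ v ∈ Z, ω v = ζ v} - Pr Q D' η' {ω | ∀ v ∈ Z, ω v = ζ v}| ≤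
        ε * Pr Q D' η' {ω | ∀ v ∈ Z, ω v = ζ v} := H627.mix_Z hQ hε

/-- **The expectation of a frozen pair.** -/
theorem fz_split {Q : ℝ} (hQ : 0 < Q) {D Dc : Finset (ℤ × ℤ)} {η ζ : Cfg} {t b : ℤ × ℤ} {g r : ℤ}
    {Z : Finset (ℤ × ℤ)} {W : Set (ℤ × ℤ)} (h : FlZ D η t g r Z) (hr : r + 4 ≤ g)
    (hA : AdmZ t 1 r Z ζ)
    (hJ : ∀ ω : Cfg, (∀ v, v ∉ D → ω v = η v) →
      (BR.Jn true (Dc \ Z) ω (↑(BR.sites Z)) W ↔ PC (opn Z ω) t b)) :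
    Ex Q D η (fzZ Dc Z ζ W) =
      Pr Q D η {ω | ∀ v ∈ Z, ω v = ζ v} * Pr Q (D \ Z) (opn Z η) {ω | PC ω t b} :=
  H627.fz_split hQ h hr hA hJ

/-- The set of an admissible pair. -/
theorem AdmZ.co {t : ℤ × ℤ} {r R : ℤ} {Z : Finset (ℤ × ℤ)} {ζ : Cfg} (h : AdmZ t r R Z ζ)
    (hr : 1 ≤ r) (ht : Even (t.1 + t.2)) : CoZ t Z := H627.admZ_co h hr ht

end Vale.Agent.P167.H364
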