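import Vale.Agent.P167.H364.LitT

/-!
# P167, `0 < q < 4`, [GEO]: the neighbourhood of the target

Structures: the scales and the squares near the target.
-/

set_option autoImplicit false

namespace Vale.Agent.P167.H364

open Filter Topology Set
open Vale.Agent.P153.M1 (Expl)
open Vale.Agent.P153.R2
open Vale.Agent.P167.QT
open Vale.Agent.P167.E6 (Medial pt region edges)
open Vale.Agent.P167.H411 (exn Set6)
open Vale.Agent.P167.H192 (ro)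
open Vale.Agent.P167.H718 (Dq)
open Vale.Agent.P167.H72.SD (dk om Wf)
open Vale.Agent.P167.H446.G
open Vale.Agent.P167.H918 (Loc)

/-- The scales. -/
structure NrN {n : ℕ} (C : Cst) (p : ZMod n → ℤ × ℤ) (k : ℕ) (S : Finset (ℤ × ℤ)) (δ s : ℝ) (κ K : ℤ) :
    Prop where
  loc : ∃ (M : ℕ) (R : ℤ), Loc p S k M R ∧ (mq C.Lc s δ : ℤ) + mb C.m δ + 16 ≤ R
  n16 : 16 ≤ H446.G.Nn s δ
  Kg : K * H446.G.Nn s δ ≤ mb C.m δ
  gl : 8 * mb C.m δ ≤ mq C.Ld s δ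
  lc : (mq C.Ld s δ : ℤ) + 8 * mb C.m δ ≤ mq C.Lc s δ
  cg : (mq C.Lc s δ : ℤ) ≤ κ * mb C.m δ
  mf : mb C.m δ + 1 ≤ (Ku C.m s : ℤ) * H446.G.Nn s δ
  kn : k < n

/-- The squares near the target are not read and not frozen; the interface has not met the flat side. -/
structure NrA {n : ℕ} (C : Cst) (p : ZMod n → ℤ × ℤ) (k : ℕ) (S : Finset (ℤ × ℤ)) (δ r s : ℝ) (A : Hst)
    (j : ℕ) : Prop where
  sub : A ⊆ edges S
  near : ∀ v : ℤ × ℤ, (ro (p k)).1 - mq C.Lc s δ - mb C.m δ ≤ v.1 → v.1 ≤ (ro (p k)).1 + mb C.m δ →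
    (ro (p k)).2 ≤ v.2 → v.2 ≤ (ro (p k)).2 + mq C.Lc s δ + mb C.m δ →
      v ∈ dk p k S A j ∧ ∀ c, v ∉ bad p k S δ r s A j c
  met : ∀ i ≤ j - 1, E2.fc (E2.run p k A i) ∉ S →
    H192.rf (E2.fc (E2.run p k A i)) ∈ Wf p S (k - mq C.Lc s δ - 1)

end Vale.Agent.P167.H364
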