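import Vale.Agent.P167.H446.G.Lit2
import Vale.Agent.P167.H446.G.Asm
import Vale.Agent.P167.H375.ShT
import Vale.Agent.P167.N.Kit

/-!
# P167, `0 < q < 4`, [GEO]: the literal inputs of `GeoT`

`t` = the mark `d` (at the distance `Ld` of the target), observable `obsH` at `C.X'`.
`ok` of `GeoT` is `OkT` = `Sh4.Ok 2`.
-/

set_option autoImplicit false

namespace Vale.Agent.P167.H364

open Filter Topology Set
open Vale.Agent.P153.M1 (Expl)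
open Vale.Agent.P153.R2
open Vale.Agent.P167.QT
open Vale.Agent.P167.SLE (bq)
open Vale.Agent.P167.E6 (Medial pt region)
open Vale.Agent.P167.H411 (exn Set6)
open Vale.Agent.P167.H192 (ro)
open Vale.Agent.P167.H718 (Dq)
open Vale.Agent.P167.H72.SD (dk om NSup NSlo Up Lo Wf Ff)
open Vale.Agent.P167.H446.G
open Vale.Agent.P167.H375 (Sh PT ft hT obsH GeoT GeoTAt)

/-- The shape in 375's format. -/
def toSh (P : Sh4) : Sh := ⟨P.m, P.q, P.S, P.k, P.j, P.l⟩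

/-- The predicate for `GeoT` and `RatT`. -/
def OkT (P : Sh) : Prop := (⟨P.m, P.q, P.S, P.k, P.j, P.l⟩ : Sh4).Ok 2

/-- The wired vertices (as sites). -/
def wT {n : ℕ} (p : ZMod n → ℤ × ℤ) (k : ℕ) : Set (ℤ × ℤ) :=
  {s | ∃ i : ℕ, k ≤ i ∧ i < n ∧ ro (p (i : ZMod n)) = s}

section

variable {n : ℕ} (μ : ℝ) (C : Cst) (p : ZMod n → ℤ × ℤ) (k : ℕ) (S : Finset (ℤ × ℤ)) (δ r s : ℝ)
  (A : Hst) (j : ℕ)

/-- The conditional probability that `t` is joined to the wired arc. -/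
noncomputable def fD (X : Expl Hst Medial) (w : Hst → ℝ) : ℝ :=
  QE.cexW X w (fun A' => ft (Dq S p k) (vd p k C.Ld s δ) (wT p k) (H375.cf p k A')) A j

/-- The box for the long clusters (colour `true`): it contains the flat side between `c` and `b`. -/
noncomputable def bxT : Finset (ℤ × ℤ) := FK.Bq (ro (p k)) (mq C.Lc s δ + mb C.m δ)

/-- The conditional probability of a long cluster of frozen squares. -/
noncomputable def prT (c : Bool) : ℝ :=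
  if c then FK.Pr (2 * Real.cos μ) (dk p k S A j) (om p k A)
    (NSup (dk p k S A j) (bad p k S δ r s A j true) (bxT C p k δ s))
  else FK.Pr (2 * Real.cos μ) (dk p k S A j) (om p k A)
    (NSlo (dk p k S A j) (om p k A) (bad p k S δ r s A j false)
      (Ff (ro (p k)) (mq C.Lc s δ + 1) ((vd p k C.Ld s δ).1 - mb C.m δ) ((vd p k C.Ld s δ).1 + mb C.m δ)
        ((vd p k C.Ld s δ).2 - mb C.m δ) ((vd p k C.Ld s δ).2 + mb C.m δ)))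

end

/-- The one sided comparison: `c = true` LOWER bound, `c = false` UPPER bound. -/
def IneqT (μ x : ℝ) (v₀ : ℤ × ℤ) (N : ℕ) (c : Bool) (ε' : ℝ) (P : Sh4) : Prop :=
  if c then (1 - ε') * PT μ N v₀ (toSh P) ≤ x else x ≤ (1 + ε') * PT μ N v₀ (toSh P)

/-- The closeness of the conformal quantities. -/
def ClQT (μ ε : ℝ) (X : Expl Hst Medial) (b : ℝ) (A : Hst) (j : ℕ) (P P₀ : Sh4) : Prop :=
  ∀ u v u₀ w₀ : ℝ, P.Pos u v → P₀.Pos u₀ w₀ →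
    |((v * (1 - u)) / (w₀ * (1 - u₀))) ^ hT μ - obsH (hT μ) (X.W A) b (X.c A j)| ≤ ε

section

variable (μ : ℝ) (C : Cst) (δ : ℕ → ℝ) (N k : ℕ → ℕ) (p : ∀ n, ZMod (N n) → ℤ × ℤ)
  (S : ℕ → Finset (ℤ × ℤ)) (ψn : ℕ → ℂ → ℂ)

/-- The conditional probability, for the member `n` of the sequence. -/
noncomputable def fn (s : ℝ) (n : ℕ) (A : Hst) (j : ℕ) : ℝ :=
  fD C (p n) (k n) (S n) (δ n) s A j (exn δ N k p S ψn n)
    (QE.wq ((2 * Real.cos μ) ^ 2) (N n) (p n) (k n) (S n))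

/-- **[ALL]** All histories are comparable. -/
def I_allT : Prop :=
  ∃ M : ℝ, 0 < M ∧ ∃ s₀ : ℝ, 0 < s₀ ∧ ∀ s : ℝ, 0 < s → s ≤ s₀ → ∀ᶠ n in atTop,
    ∀ (A : Hst) (j : ℕ) (A' : Hst) (j' : ℕ), Bef (exn δ N k p S ψn n) C.T C.R A j →
      Bef (exn δ N k p S ψn n) C.T C.R A' j' →
        fn μ C δ N k p S ψn s n A j ≤ M * fn μ C δ N k p S ψn s n A' j'

/-- **[BAD]** The weight of the bad histories. -/
def I_badT : Prop :=
  ∀ (r η : ℝ), 0 < r → 0 < η → ∀ ε' : ℝ, 0 < ε' → ∃ s₀ : ℝ, 0 < s₀ ∧ ∀ s : ℝ, 0 < s → s ≤ s₀ →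
    ∀ᶠ n in atTop, ∀ κ : Hst → ℕ, QE.BefIx (exn δ N k p S ψn n) C.T C.R κ →
      QE.ExW (exn δ N k p S ψn n).C
        (QE.wq ((2 * Real.cos μ) ^ 2) (N n) (p n) (k n) (S n))
        ({A | ¬ ∀ c, prT μ C (p n) (k n) (S n) (δ n) r s A (κ A) c ≤ η}.indicator 1) ≤ ε'

/-- **[CMP]** The comparison of the laws. -/
def I_cmpT : Prop :=
  ∀ ε' : ℝ, 0 < ε' → ∃ η : ℝ, 0 < η ∧ ∀ r : ℝ, 0 < r → ∃ s₀ : ℝ, 0 < s₀ ∧ ∀ s : ℝ, 0 < s → s ≤ s₀ →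
    ∀ᶠ n in atTop, ∀ (A : Hst) (j : ℕ),
      Bef (exn δ N k p S ψn n) C.T C.R A j → ∀ (c : Bool), ∀ P ∈ Fam C.Ld C.Lc C.m C.B s,
        Inp C (p n) (k n) (S n) (δ n) r s A j c P →
        prT μ C (p n) (k n) (S n) (δ n) r s A j c ≤ η →
          IneqT μ (fn μ C δ N k p S ψn s n A j) (vd (p n) (k n) C.Ld s (δ n)) (H446.G.Nn s (δ n)) c ε' P

/-- **[CL]** The closeness of the conformal quantities. -/
def I_clT (ε : ℝ) : Prop :=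
  ∃ h : ℝ, 0 < h ∧ ∃ s₀ : ℝ, 0 < s₀ ∧ ∀ s : ℝ, 0 < s → s ≤ s₀ → ∀ᶠ n in atTop,
    ∀ (A : Hst) (j : ℕ) (A' : Hst) (P P₀ : Sh4), Bef (exn δ N k p S ψn n) C.T C.R A j →
      Bef (exn δ N k p S ψn n) C.T C.R A' 0 → P ∈ Fam C.Ld C.Lc C.m C.B s →
        P₀ ∈ Fam C.Ld C.Lc C.m C.B s → ClS C δ N k p S ψn h s n A j P →
          ClS C δ N k p S ψn h s n A' 0 P₀ → ClQT μ ε (exn δ N k p S ψn n) C.X' A j P P₀

end

/-- [ALL] -/
def B_allT (μ : ℝ) : Prop := Blk fun _ _ δ N k p S ψn T R =>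
  ∃ ρ : ℝ, 0 < ρ ∧ ∀ C : Cst, C.T = T → C.R = R → C.Sm ρ → I_allT μ C δ N k p S ψn

/-- [BAD] -/
def B_badT (μ : ℝ) : Prop := Blk fun _ _ δ N k p S ψn T R =>
  ∃ ρ : ℝ, 0 < ρ ∧ ∀ C : Cst, C.T = T → C.R = R → C.Sm ρ → I_badT μ C δ N k p S ψn

/-- [CMP] -/
def B_cmpT (μ : ℝ) : Prop := Blk fun _ _ δ N k p S ψn T R =>
  ∃ ρ : ℝ, 0 < ρ ∧ ∀ C : Cst, C.T = T → C.R = R → C.Sm ρ → I_cmpT μ C δ N k p S ψn

/-- [CL] the mark `d = t` at the image of `X'`; `c` (the image of `X < X'`) is arbitrary. -/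
def B_clT (μ : ℝ) : Prop := Blk fun Φ ψ δ N k p S ψn T R =>
  ∃ b₂ : ℝ, ∀ X X' : ℝ, b₂ ≤ X → X < X' → ∀ ε : ℝ, 0 < ε → ∀ Y : ℝ, 0 < Y →
    8 * (R + 1) ≤ Y → 64 * (T + 1) ≤ Y ^ 2 → ∀ m B Rb : ℝ, 0 < m → 0 ≤ Rb →
      I_clT μ ⟨T, R, X, X', dist (ψ X) (bq Φ), dist (ψ X') (bq Φ), m, B, Y, Rb⟩ δ N k p S ψn ε

end Vale.Agent.P167.H364
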