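import Vale.Agent.P167.H364.Root

/-!
# P167, `0 < q < 4`, [GEO]: the boundary of a world

`Wd D ζ t l m Ar` : the domain `D` with the configuration `ζ` outside, `t` an even site of the flat
free side, `b = t + (l, 0)` the junction (wired to the right), `c = b - (m, 0)` the left end of the flat
side. The free contact sites are in `Ar` or on the line strictly between `c` and `b`; the sites of `Ar`
are joined outside of `D` to the left neighbour of `t`.
-/

set_option autoImplicit false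

namespace Vale.Agent.P167.H364

open Finset Relation Vale.Agent.P167.FK
open Vale.Agent.P167.FKA (Cor)

/-- The boundary of a world. -/
structure Wd (D : Finset (ℤ × ℤ)) (ζ : Cfg) (t : ℤ × ℤ) (l m : ℤ) (Ar : Set (ℤ × ℤ)) : Prop
    extends Win D ζ t l where
  good : Good ζ
  low : ∀ x : ℤ, t.1 + l - m - 1 ≤ x → x < t.1 + l →
    (x, t.2 - 1) ∉ D ∧ ζ (x, t.2 - 1) = false
  nu : ∀ s, (s.1 + s.2) % 2 = 0 → (∃ x ∈ D, Cor x s) → (∃ z, z ∉ D ∧ ζ z = true ∧ Cor z s) →
    OJ D ζ s (t.1 + l, t.2)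
  nd : ∀ s, (s.1 + s.2) % 2 = 1 → (∃ x ∈ D, Cor x s) → (∃ z, z ∉ D ∧ ζ z = false ∧ Cor z s) →
    s ∈ Ar ∨ (s.2 = t.2 ∧ t.1 + l - m < s.1 ∧ s.1 < t.1 + l)
  ar : ∀ s ∈ Ar, (s.1 + s.2) % 2 = 1 → CJ D ζ t l s (t.1 - 1, t.2)

end Vale.Agent.P167.H364
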