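import Vale.Agent.P167.H364.RootPS
import Vale.Agent.P167.H364.Wd
import Vale.Agent.P167.H364.LitT

/-!
# P167, `0 < q < 4`, [GEO]: the world of a shape
-/

set_option autoImplicit false

namespace Vale.Agent.P167.H364

open Finset Relation Vale.Agent.P167.FK
open Vale.Agent.P145.FB (PStep)
open Vale.Agent.P167.FKA (Cor)
open Vale.Agent.P167.QT (Sh4 dom arcc)
open Vale.Agent.P167.H446.G (Fam mq Ku)

/-- The world of a shape. -/
theorem wd_shape {P : Sh4} (h : P.Ok 2) {N : ℕ} (hN : 16 ≤ N) (h4 : 4 ∣ N) {v₀ : ℤ × ℤ}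
    (hv : Even (v₀.1 + v₀.2)) :
    Wd (dom N v₀ P) (QT.ext N v₀ P) v₀ (lP P N) (lP P N + ((P.l : ℤ) - P.j) * N)
      (arcc N v₀ P) where
  toWin := (bd_shape h hN h4 hv).toWin
  good := (bd_shape h hN h4 hv).good
  low := fun x h1 h2 => by
    refine low_shape h hN ?_ h2
    have e : (((P.j : ℤ) - P.l) - 1) * N = -(((P.l : ℤ) - P.j) * N) - N := by ring
    rw [e]
    have : (16 : ℤ) ≤ N := by exact_mod_cast hN
    linarith
  nu := (bd_shape h hN h4 hv).nu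
  nd := fun s h1 h2 h3 => by
    rcases nd_shape h hN h4 hv h1 h2 h3 with k | ⟨k1, k2, k3⟩
    · exact Or.inl k
    · refine Or.inr ⟨k1, ?_, k3⟩
      have e : ((P.j : ℤ) - P.l) * N = -(((P.l : ℤ) - P.j) * N) := by ring
      rw [e] at k2
      linarith
  ar := fun s h1 h2 => arcc_shape h hN h4 hv h1 h2

theorem fam_lP {Ld Lc m B s δ : ℝ} {P : Sh4} (hP : P ∈ Fam Ld Lc m B s) :
    lP P (H446.G.Nn s δ) = mq Ld s δ ∧
      lP P (H446.G.Nn s δ) + ((P.l : ℤ) - P.j) * H446.G.Nn s δ = mq Lc s δ := by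
  obtain ⟨-, h1, h2, -⟩ := hP
  have e1 : P.m - P.l = Ku Ld s := by omega
  have e2 : lP P (H446.G.Nn s δ) = mq Ld s δ := by
    unfold lP mq
    rw [e1]
  refine ⟨e2, ?_⟩
  rw [e2]
  have e3 : (P.l : ℤ) - P.j = (Ku Lc s : ℤ) - Ku Ld s := by
    have h1' : ((P.l + Ku Ld s : ℕ) : ℤ) = P.m := by exact_mod_cast h1
    have h2' : ((P.j + Ku Lc s : ℕ) : ℤ) = P.m := by exact_mod_cast h2
    push_cast at h1' h2'
    linarith
  rw [e3]
  unfold mq
  push_cast
  ring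

end Vale.Agent.P167.H364
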