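import Vale.Agent.P167.H364.Root
import Vale.Agent.P167.N.Kit

/-!
# P167, `0 < q < 4`, [GEO]: the one-arm probability at a flat free side and the wired side

`recT t l r` : the rectangle of height `r` above the segment from `t - r` to `b + r`, `b = t + (l, 0)`;
`xiT t l r` : wired at the bottom between `b` and `b + r`, everything else free.
-/

set_option autoImplicit false

namespace Vale.Agent.P167.H364

open Finset Relation Vale.Agent.P167.FK
open Vale.Agent.P145.FB (PStep)

/-- The rectangle. -/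
noncomputable def recT (t : ℤ × ℤ) (l r : ℤ) : Finset (ℤ × ℤ) :=
  Finset.Ico (t.1 - r) (t.1 + l + r) ×ˢ Finset.Ico t.2 (t.2 + r)

/-- Wired at the bottom to the right of `b`, free elsewhere. -/
noncomputable def xiT (t : ℤ × ℤ) (l r : ℤ) : Cfg :=
  fun v => decide (v.2 = t.2 - 1 ∧ t.1 + l ≤ v.1 ∧ v.1 < t.1 + l + r)

/-- The half box. -/
noncomputable def HBt (t : ℤ × ℤ) (r : ℤ) : Finset (ℤ × ℤ) :=
  Finset.Ico (t.1 - r) (t.1 + r) ×ˢ Finset.Ico t.2 (t.2 + r)

/-- `t` is joined to the outer boundary of the half box by open squares of the half box. -/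
def ArmT (t : ℤ × ℤ) (r : ℤ) : Set Cfg :=
  {ω | ∃ s : ℤ × ℤ, (s.1 = t.1 - r ∨ s.1 = t.1 + r ∨ s.2 = t.2 + r) ∧
    ReflTransGen (PStep {v | v ∈ HBt t r ∧ ω v = true}) t s}

end Vale.Agent.P167.H364
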