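import Vale.Agent.P167.H364.Sand
import Vale.Agent.P167.BR.Intf

/-!
# P167, `0 < Q ≤ 1`, [GEO]: painted sets

`opn B η` : the squares of `B` are open, the rest as in `η`; `cld B η` : the squares of `B` are closed.
`CoZ t Z` : the site `t` is joined by squares of `Z` to the even corners of `Z` which are corners of a
square above the line of `t` and outside of `Z`.
-/

set_option autoImplicit false

namespace Vale.Agent.P167.H364

open Finset Relation Vale.Agent.P167.FK Vale.Agent.P167.H816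
open Vale.Agent.P145.FB (PStep)
open Vale.Agent.P167.FKA (Cor)

/-- `B` open, the rest as `η`. -/
def opn (B : Finset (ℤ × ℤ)) (η : Cfg) : Cfg := fun v => if v ∈ B then true else η v

/-- `B` closed, the rest as `η`. -/
def cld (B : Finset (ℤ × ℤ)) (η : Cfg) : Cfg := fun v => if v ∈ B then false else η v

theorem good_opn {B : Finset (ℤ × ℤ)} {η : Cfg} (h : Good η) : Good (opn B η) := by
  have e : opn B η = cf B η B := by
    funext v
    by_cases hv : v ∈ B <;> simp [opn, cf, hv]
  rw [e]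
  exact good_cf B h B

theorem good_cld {B : Finset (ℤ × ℤ)} {η : Cfg} (h : Good η) : Good (cld B η) := by
  have e : cld B η = cf B η ∅ := by
    funext v
    by_cases hv : v ∈ B <;> simp [cld, cf, hv]
  rw [e]
  exact good_cf B h ∅

theorem opn_true {B : Finset (ℤ × ℤ)} {η : Cfg} {v : ℤ × ℤ} :
    opn B η v = true ↔ v ∈ B ∨ η v = true := by
  by_cases h : v ∈ B <;> simp [opn, h]

theorem opn_false {B : Finset (ℤ × ℤ)} {η : Cfg} {v : ℤ × ℤ} :
    opn B η v = false ↔ v ∉ B ∧ η v = false := by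
  by_cases h : v ∈ B <;> simp [opn, h]

theorem cld_true {B : Finset (ℤ × ℤ)} {η : Cfg} {v : ℤ × ℤ} :
    cld B η v = true ↔ v ∉ B ∧ η v = true := by
  by_cases h : v ∈ B <;> simp [cld, h]

theorem cld_false {B : Finset (ℤ × ℤ)} {η : Cfg} {v : ℤ × ℤ} :
    cld B η v = false ↔ v ∈ B ∨ η v = false := by
  by_cases h : v ∈ B <;> simp [cld, h]

/-- `t` is joined in `Z` to the even corners of `Z` which are visible from above the line. -/
def CoZ (t : ℤ × ℤ) (Z : Finset (ℤ × ℤ)) : Prop :=
  ∀ s : ℤ × ℤ, (s.1 + s.2) % 2 = 0 → (∃ v ∈ Z, Cor v s) →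
    (∃ w : ℤ × ℤ, w ∉ Z ∧ t.2 ≤ w.2 ∧ Cor w s) → ReflTransGen (PStep (↑Z : Set (ℤ × ℤ))) t s

end Vale.Agent.P167.H364
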