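import Vale.Agent.P167.H364.Wd
import Vale.Agent.P167.H364.LitT
import Vale.Agent.P167.H364.LbT
import Vale.Agent.P167.H364.Opn
import Vale.Agent.P167.H72.SD.Lat3
import Vale.Agent.P167.H72.SD.Wf
import Vale.Agent.P167.H943.WdA
import Vale.Agent.P167.H627.BdRec
import Vale.Agent.P167.H627.FtzD

/-!
# P167, `0 < q < 4`, [GEO]: the worlds of the explored domain and of the rectangle

ROW GEO:WD, proved in `H943/WdA`, `H627/{BdRec,FtzD}`.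
-/

set_option autoImplicit false

namespace Vale.Agent.P167.H364

open Finset Relation Vale.Agent.P167.FK
open Vale.Agent.P145.FB (PStep)
open Vale.Agent.P167.FKA (Cor)
open Vale.Agent.P167.E6 (IsPolygon Encloses edges wiredOpen face dir)
open Vale.Agent.P167.H718 (Dq)
open Vale.Agent.P167.H72.SD (dk om Wf WD TD Up Lo)
open Vale.Agent.P167.H918 (Loc)

variable {n : ℕ} {p : ZMod n → ℤ × ℤ} {S : Finset (ℤ × ℤ)} {k M : ℕ} {R : ℤ}
  {A : Finset (Sym2 (ℤ × ℤ))} {j : ℕ}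

/-- The explored domain. `lc` : the distance from `c` to `b`. -/
theorem wd_dk (H : Loc p S k M R) (hA : A ⊆ edges S) {t : ℤ × ℤ} {l lc : ℕ}
    (ht : t + ((l : ℤ), 0) = H192.ro (p k)) (hl : Even l) (hl4 : 4 ≤ l) (hlc : l + 8 ≤ lc)
    (hlc2 : Even lc) (hR : (lc : ℤ) + 8 ≤ R)
    (hbox : ∀ x y : ℤ, t.1 - 2 ≤ x → x ≤ t.1 + l + 2 → t.2 ≤ y → y < t.2 + 4 →
      (x, y) ∈ dk p k S A j)
    (hmet : ∀ i ≤ j - 1, E2.fc (E2.run p k A i) ∉ S →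
      H192.rf (E2.fc (E2.run p k A i)) ∈ Wf p S (k - lc - 1)) :
    Wd (dk p k S A j) (om p k A) t l lc (WD p k S A j (Wf p S (k - lc - 1))) :=
  H943.wd_dk H hA ht hl hl4 hlc hlc2 hR hbox hmet

/-- The event that `Z` is joined to the wired arc in the domain. -/
theorem ftz_D (H : Loc p S k M R) (hA : A ⊆ edges S) {t : ℤ × ℤ} {l : ℕ}
    (ht : t + ((l : ℤ), 0) = H192.ro (p k)) (hl : Even l) {Z : Finset (ℤ × ℤ)} {ρ : ℤ}
    (hZ : Z ⊆ BR.hbox t ρ) (hZ1 : BR.hbox t 1 ⊆ Z) (hρ : ρ + 8 ≤ l) (hR : (l : ℤ) + ρ + 8 ≤ R)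
    (hc : CoZ t Z) {ω : Cfg} (hω : ∀ v, v ∉ Dq S p k → ω v = om p k A v) :
    BR.Jn true (Dq S p k \ Z) ω (↑(BR.sites Z)) (wT p k) ↔ PC (opn Z ω) t (t.1 + l, t.2) :=
  H627.ftz_D H hA ht hl hZ hZ1 hρ hR hc hω

/-- The rectangle. -/
theorem bd_rec {t : ℤ × ℤ} {l r : ℤ} (ht : Even (t.1 + t.2)) (hl : Even l) (hl4 : 4 ≤ l)
    (hr : 4 ≤ r) : Bd (recT t l r) (xiT t l r) t l := H627.bd_rec ht hl hl4 hr

end Vale.Agent.P167.H364
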