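import Vale.Agent.P167.H364.WdU
import Vale.Agent.P167.H364.ShpW
import Vale.Agent.P167.H364.WdT
import Vale.Agent.P167.H364.NearD
import Vale.Agent.P167.H364.ErrT

/-!
# P167, `0 < Q ≤ 1`, [GEO]: the frame at the target
-/

set_option autoImplicit false

namespace Vale.Agent.P167.H364

open Finset Relation Vale.Agent.P167.FK Vale.Agent.P167.H816
open Vale.Agent.P145.FB (PStep)
open Vale.Agent.P167.FKA (Cor)
open Vale.Agent.P167.E6 (IsPolygon Encloses edges wiredOpen)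
open Vale.Agent.P167.H192 (ro)
open Vale.Agent.P167.H718 (Dq)
open Vale.Agent.P167.H72.SD (dk om WD TD Up Lo Ws omB Wr Inn Wf)
open Vale.Agent.P167.H918 (Loc)
open Vale.Agent.P167.BR (hbox)

/-- The frame at the target. -/
structure Tg {n : ℕ} (p : ZMod n → ℤ × ℤ) (k : ℕ) (S : Finset (ℤ × ℤ)) (A : Finset (Sym2 (ℤ × ℤ)))
    (j : ℕ) (t : ℤ × ℤ) (l lc : ℕ) (G : ℤ) (N : ℕ) : Prop where
  loc : ∃ (M : ℕ) (R : ℤ), Loc p S k M R ∧ (lc : ℤ) + G + 16 ≤ R
  hA : A ⊆ edges S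
  kn : k < n
  ht : t + ((l : ℤ), 0) = ro (p k)
  el : Even l
  elc : Even lc
  n16 : 16 ≤ N
  ng : (N : ℤ) ≤ G
  gl : 8 * G ≤ l
  llc : (l : ℤ) + 8 * G ≤ lc
  near : ∀ v : ℤ × ℤ, (ro (p k)).1 - lc - G ≤ v.1 → v.1 ≤ (ro (p k)).1 + G →
    (ro (p k)).2 ≤ v.2 → v.2 ≤ (ro (p k)).2 + lc + G → v ∈ dk p k S A j
  met : ∀ i ≤ j - 1, E2.fc (E2.run p k A i) ∉ S →
    H192.rf (E2.fc (E2.run p k A i)) ∈ Wf p S (k - lc - 1)

section

variable {n : ℕ} {p : ZMod n → ℤ × ℤ} {k : ℕ} {S : Finset (ℤ × ℤ)} {A : Finset (Sym2 (ℤ × ℤ))}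
  {j : ℕ} {t : ℤ × ℤ} {l lc : ℕ} {G : ℤ} {N : ℕ} {Z : Finset (ℤ × ℤ)} {ζ : Cfg} {Q : ℝ}

theorem Tg.hro (h : Tg p k S A j t l lc G N) : (ro (p k)).1 = t.1 + l ∧ (ro (p k)).2 = t.2 := by
  rw [← h.ht]
  exact ⟨rfl, by simp⟩

theorem Tg.even (h : Tg p k S A j t l lc G N) : Even (t.1 + t.2) := by
  obtain ⟨h1, h2⟩ := h.hro
  have h3 := H192.even_ro (p k)
  have h4 := h.el
  rw [Int.even_iff] at h3 ⊢
  rw [Nat.even_iff] at h4
  omega

theorem Tg.par (h : Tg p k S A j t l lc G N) : Par t l := by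
  have h1 := Int.even_iff.1 h.even
  have h2 := Nat.even_iff.1 h.el
  have h3 := h.gl
  have h4 := h.ng
  have h5 := h.n16
  exact ⟨h1, by omega, by omega⟩

theorem Tg.box (h : Tg p k S A j t l lc G N) : ∀ x y : ℤ, t.1 - 2 ≤ x → x ≤ t.1 + l + 2 →
    t.2 ≤ y → y < t.2 + 4 → (x, y) ∈ dk p k S A j := by
  intro x y h1 h2 h3 h4
  obtain ⟨e1, e2⟩ := h.hro
  have := h.gl
  have := h.ng
  have := h.n16
  have := h.llc
  exact h.near _ (by simp only; omega) (by simp only; omega) (by simp only; omega)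
    (by simp only; omega)

/-- The world of the explored domain. -/
theorem Tg.wd (h : Tg p k S A j t l lc G N) :
    Wd (dk p k S A j) (om p k A) t l lc (WD p k S A j (Wf p S (k - lc - 1))) := by
  obtain ⟨M, R, H, hR⟩ := h.loc
  have := h.gl
  have := h.ng
  have := h.n16
  have := h.llc
  exact wd_dk H h.hA h.ht h.el (by omega) (by omega) h.elc (by omega) h.box h.met

/-- The world with open squares. -/
theorem Tg.wdu (h : Tg p k S A j t l lc G N) {Bad E P : Finset (ℤ × ℤ)} {W arcP : Set (ℤ × ℤ)}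
    (hU : Up p k S A j Bad E P ζ W arcP) :
    Wd (dk p k S A j \ Bad) (opn Bad (om p k A)) t l lc (WD p k S A j (Wf p S (k - lc - 1))) := by
  obtain ⟨M, R, H, -⟩ := h.loc
  exact h.wd.up h.par H.poly h.kn h.hA hU

/-- The world with closed squares. -/
theorem Tg.wdl (h : Tg p k S A j t l lc G N) {Bad E P : Finset (ℤ × ℤ)} {WP arcP : Set (ℤ × ℤ)}
    (hU : Lo p k S A j Bad E P ζ (Wf p S (k - lc - 1)) WP arcP) :
    Wd (dk p k S A j \ Bad) (cld Bad (om p k A)) t l lc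
      (TD p k S A j Bad (Wf p S (k - lc - 1))) := by
  obtain ⟨M, R, H, hR⟩ := h.loc
  have := h.gl
  have := h.ng
  have := h.n16
  have := h.llc
  obtain ⟨e1, e2⟩ := h.hro
  refine h.wd.lo h.par H.poly H.enc h.hA (fun x y h1 h2 h3 h4 hD => ?_) hU
  rw [H.mem_Dq_iff] at hD
  · omega
  · rw [← le_sub_iff_add_le, abs_le]
    constructor <;> omega
  · rw [← le_sub_iff_add_le, abs_le]
    constructor <;> omega

/-- The explored domain is a half plane near `t`. -/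
theorem Tg.fl (h : Tg p k S A j t l lc G N) (hZ : AdmZ t 1 (N / 2 : ℕ) Z ζ) :
    FlZ (dk p k S A j) (om p k A) t (G - 2) (N / 2 : ℕ) Z where
  good := h.wd.good
  even := h.even
  dom := by
    rintro ⟨x, y⟩ hv
    rw [H166.mem_Bq] at hv
    simp only at hv
    obtain ⟨e1, e2⟩ := h.hro
    have := h.gl
    have := h.ng
    have := h.n16
    have := h.llc
    constructor
    · intro hD
      obtain ⟨M, R, H, hR⟩ := h.loc
      have hq := (H72.SD.mem_dk.1 hD).1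
      rw [H.mem_Dq_iff] at hq
      · simp only; omega
      · rw [← le_sub_iff_add_le, abs_le]
        constructor <;> omega
      · rw [← le_sub_iff_add_le, abs_le]
        constructor <;> omega
    · intro hy
      simp only at hy
      exact h.near _ (by simp only; omega) (by simp only; omega) (by simp only; omega)
        (by simp only; omega)
  cl := by
    rintro ⟨x, y⟩ hv hy
    rw [H166.mem_Bq] at hv
    simp only at hv hy
    obtain ⟨e1, e2⟩ := h.hro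
    obtain ⟨M, R, H, hR⟩ := h.loc
    have := h.gl
    have := h.ng
    have := h.n16
    have := h.llc
    rw [← Bool.not_eq_true]
    intro h3
    have h4 := (H.cfg_iff (x := x) (y := y) (by
      rw [← le_sub_iff_add_le, abs_le]
      constructor <;> omega) (by
      rw [← le_sub_iff_add_le, abs_le]
      constructor <;> omega) (by omega) h.hA).1 h3
    omega
  low := hZ.low
  sub := hZ.sub
  co := hZ.co le_rfl h.even

/-- The set `Z` is in the box. -/
theorem nz_of {E : Finset (ℤ × ℤ)} (hE : hbox t N ⊆ E) (hN : 16 ≤ N) (he : Even (t.1 + t.2))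
    (hZ : AdmZ t 1 (N / 2 : ℕ) Z ζ) : Nz E t Z where
  up := fun v hv => (BR.mem_hbox.1 (hZ.sub hv)).2.2.1
  co := hZ.co le_rfl he
  nb := by
    rintro ⟨x, y⟩ hy ⟨s, ⟨c1, c2⟩, z, hz, c3, c4⟩
    have h1 := BR.mem_hbox.1 (hZ.sub hz)
    simp only at c1 c2 hy
    refine hE (BR.mem_hbox.2 ⟨?_, ?_, ?_, ?_⟩) <;> simp only <;> omega

/-- The squares below. -/
theorem Rw.bl {D : Finset (ℤ × ℤ)} {η : Cfg} {l m : ℤ} {Ar : Set (ℤ × ℤ)} (h : Rw D η t l m Ar)
    (hZ : AdmZ t 1 (N / 2 : ℕ) Z ζ) (hl : (N : ℤ) + 2 ≤ l) (hm : l + N + 2 ≤ m) : Bl D η t Z := by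
  rintro ⟨x, y⟩ hy ⟨s, ⟨c1, c2⟩, z, hz, c3, c4⟩
  have h1 := BR.mem_hbox.1 (hZ.sub hz)
  simp only at c1 c2 hy
  have e : y = t.2 - 1 := by omega
  subst e
  exact h.low x (by omega) (by omega)

end

end Vale.Agent.P167.H364
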