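import Vale.Agent.P167.H364.CmpD

/-!
# P167, `0 < Q ≤ 1`, [GEO]: the comparison of the connection probabilities

`gZ` : the probability that `t` (with the painted set `Z`) is joined to `b`;
* `Tg.arm` : the arm in the half box is bounded by the connection probability;
* `Tg.lo`, `Tg.up` : the comparison with a shape.
-/

set_option autoImplicit false

namespace Vale.Agent.P167.H364

open Finset Relation Vale.Agent.P167.FK Vale.Agent.P167.H816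
open Vale.Agent.P145.FB (PStep)
open Vale.Agent.P167.FKA (Cor)
open Vale.Agent.P167.E6 (IsPolygon Encloses edges wiredOpen)
open Vale.Agent.P167.H192 (ro)
open Vale.Agent.P167.H718 (Dq)
open Vale.Agent.P167.H72.SD (dk om WD TD Up Lo Ws omB Wr Inn Wf NSup NSlo Ff)
open Vale.Agent.P167.H918 (Loc)
open Vale.Agent.P167.BR (hbox)

/-- The connection probability. -/
noncomputable def gZ (Q : ℝ) (D : Finset (ℤ × ℤ)) (η : Cfg) (t : ℤ × ℤ) (l : ℤ)
    (Z : Finset (ℤ × ℤ)) : ℝ :=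
  Pr Q (D \ Z) (opn Z η) {ω | PC ω t (t.1 + l, t.2)}

/-- The statement of `arm_lbZ` at constants. -/
def LbAt (Q : ℝ) (κ : ℤ) (c : ℝ) (L r₀ : ℤ) : Prop :=
  ∀ (t : ℤ × ℤ) (l r ρ : ℤ) (Z : Finset (ℤ × ℤ)), Even (t.1 + t.2) → Even l → r₀ ≤ r →
      8 * r ≤ l → l ≤ κ * r → Z ⊆ BR.hbox t ρ → L * ρ ≤ r → CoZ t Z →
      ∀ ξ : Cfg, Good ξ → (∀ x : ℤ, t.1 - r - 1 ≤ x → x ≤ t.1 + r → ξ (x, t.2 - 1) = false) →
        c * Pr Q (HBt t r \ Z) (opn Z ξ) (ArmT t r) ≤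
          Pr Q (recT t l r \ Z) (opn Z (xiT t l r)) {ω | PC ω t (t.1 + l, t.2)}

/-- The statement of `kx_lo` at a constant. -/
def LoAt (Q : ℝ) (L : ℤ) : Prop := ∀ (D : Finset (ℤ × ℤ)) (η : Cfg)
    (t : ℤ × ℤ) (g r : ℤ) (Z : Finset (ℤ × ℤ)), FlZ D η t g r Z → 1 ≤ r → L * r ≤ g →
    ∀ (B Bx : Finset (ℤ × ℤ)) (Y : Set (ℤ × ℤ)), B ⊆ D \ Z → Bq t g ⊆ Bx →
      (∀ s ∈ Y, s ∈ BR.sites Bx) →
      Pr Q (D \ Z) (opn Z η)
          {ω | ¬ ∀ s, Kx false 1 (D \ Z) B (Fc (D \ Z) (opn Z η)) ω s → s ∉ Y} ≤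
        8 * Pr Q D η (NSup D B Bx)

/-- The statement of `kx_up` at a constant. -/
def UpAt (Q : ℝ) (L : ℤ) : Prop := ∀ (D : Finset (ℤ × ℤ)) (η : Cfg)
    (t : ℤ × ℤ) (g r : ℤ) (Z : Finset (ℤ × ℤ)), FlZ D η t g r Z → 1 ≤ r → L * r ≤ g →
    ∀ (B : Finset (ℤ × ℤ)) (U : Set (ℤ × ℤ)) (π : ℝ), B ⊆ D \ Z → Disjoint B (HBt t g) →
      (∀ s ∈ U, Even (s.1 + s.2) → (∃ x ∈ D \ Z, Cor x s) → s ∈ BR.sites Z) → ArmB Q t g Z π →
      Pr Q (D \ Z) (opn Z η)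
          {ω | ∃ s, Kx true 0 (D \ Z) B (Wc (D \ Z) (opn Z η)) ω s ∧ s ∈ U} ≤
        8 * π * Pr Q D η (NOut D B (HBt t g))

section

variable {n : ℕ} {p : ZMod n → ℤ × ℤ} {k : ℕ} {S : Finset (ℤ × ℤ)} {A : Finset (Sym2 (ℤ × ℤ))}
  {j : ℕ} {t : ℤ × ℤ} {l lc : ℕ} {G : ℤ} {N : ℕ} {Z Bad E P : Finset (ℤ × ℤ)} {ζ ζP : Cfg}
  {Q c η₀ : ℝ} {κ L r₀ : ℤ} {W arcP WP : Set (ℤ × ℤ)}

theorem gZ_nonneg (hQ : 0 < Q) (D : Finset (ℤ × ℤ)) (η : Cfg) (t : ℤ × ℤ) (l : ℤ)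
    (Z : Finset (ℤ × ℤ)) : 0 ≤ gZ Q D η t l Z := FKA.Pr_nonneg hQ _

/-- **The arm.** -/
theorem Tg.arm (hQ : 0 < Q) (hQ1 : Q ≤ 1) (h : Tg p k S A j t l lc G N) (hc : 0 < c)
    (hlb : LbAt Q (2 * κ) c L r₀) (hcg : (lc : ℤ) ≤ κ * G) (hL : L * (N / 2 : ℕ) ≤ G - 2)
    (hr : r₀ ≤ G - 2) (hZ : AdmZ t 1 (N / 2 : ℕ) Z ζ) :
    ArmB Q t (G - 2) Z (gZ Q (dk p k S A j) (om p k A) t l Z / c) := by
  have g1 := h.gl
  have g2 := h.ng
  have g3 := h.n16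
  have g4 := h.llc
  have g5 := h.el
  have hκ : 0 ≤ κ := by
    by_contra k1
    push Not at k1
    have : κ * G ≤ 0 := mul_nonpos_of_nonpos_of_nonneg k1.le (by omega)
    omega
  intro ξ hξ hb
  rw [le_div_iff₀ hc, mul_comm]
  refine (hlb t l (G - 2) (N / 2 : ℕ) Z h.even (by exact_mod_cast g5) hr (by omega) ?_ hZ.sub hL
    (hZ.co le_rfl h.even) ξ hξ hb).trans ?_
  · have k1 : 0 ≤ κ * (G - 4) := mul_nonneg hκ (by omega)
    have k2 : 2 * κ * (G - 2) = κ * G + κ * (G - 4) := by ring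
    rw [k2]
    omega
  · obtain ⟨e1, e2⟩ := h.hro
    obtain ⟨M, R, H, hR⟩ := h.loc
    have hrec : Bd (recT t l (G - 2)) (xiT t l (G - 2)) t l :=
      bd_rec h.even (by exact_mod_cast g5) (by omega) (by omega)
    have hsub : recT t l (G - 2) ⊆ dk p k S A j := by
      rintro ⟨x, y⟩ hv
      unfold recT at hv
      rw [mem_product, mem_Ico, mem_Ico] at hv
      simp only at hv
      exact h.near _ (by simp only; omega) (by simp only; omega) (by simp only; omega)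
        (by simp only; omega)
    have hbx : hbox t N ⊆ recT t l (G - 2 + 2) := by
      rintro ⟨x, y⟩ hv
      rw [BR.mem_hbox] at hv
      unfold recT
      rw [mem_product, mem_Ico, mem_Ico]
      simp only at hv ⊢
      omega
    have hnz : Nz (recT t l (G - 2)) t Z := by
      have h1 := nz_of (E := hbox t N) le_rfl h.n16 h.even hZ
      refine ⟨h1.up, h1.co, ?_⟩
      rintro ⟨x, y⟩ hy ⟨s, ⟨c1, c2⟩, z, hz, c3, c4⟩
      have h2 := BR.mem_hbox.1 (hZ.sub hz)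
      unfold recT
      rw [mem_product, mem_Ico, mem_Ico]
      simp only at c1 c2 hy ⊢
      omega
    refine rec_le hQ hQ1 h.par h.wd.rw hrec hsub hnz ?_ ?_ ?_
    · rintro ⟨x, y⟩ hy ⟨s, ⟨c1, c2⟩, z, hz, c3, c4⟩
      have h2 := BR.mem_hbox.1 (hZ.sub hz)
      simp only at c1 c2 hy
      constructor
      · unfold recT
        rw [mem_product, mem_Ico, mem_Ico]
        simp only
        omega
      · unfold xiT
        rw [decide_eq_false_iff_not]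
        simp only
        omega
    · exact h.wd.rw.bl hZ (by omega) (by omega)
    · intro x hx hx'
      constructor
      · intro hD
        have hq := (H72.SD.mem_dk.1 hD).1
        rw [H.mem_Dq_iff] at hq
        · omega
        · rw [← le_sub_iff_add_le, abs_le]
          constructor <;> omega
        · rw [← le_sub_iff_add_le, abs_le]
          constructor <;> omega
      · exact (H.cfg_iff (x := x) (y := t.2 - 1) (by
          rw [← le_sub_iff_add_le, abs_le]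
          constructor <;> omega) (by
          rw [← le_sub_iff_add_le, abs_le]
          constructor <;> omega) (by omega) h.hA).2 (by omega)

theorem compl_ge (hQ : 0 < Q) {D : Finset (ℤ × ℤ)} {η : Cfg} {F : Cfg → Prop} {x : ℝ}
    (h : Pr Q D η {ω | ¬ F ω} ≤ x) : 1 - x ≤ Pr Q D η {ω | F ω} := by
  have h1 := Pr_union_le (D := D) (η := η) hQ {ω | F ω} {ω | ¬ F ω}
  have h2 : ({ω | F ω} ∪ {ω | ¬ F ω} : Set Cfg) = Set.univ := by
    ext ω
    simp only [Set.mem_union, Set.mem_ofPred_eq, Set.mem_univ, iff_true]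
    exact em _
  rw [h2, Pr_eq_one hQ fun S hS => Set.mem_univ _] at h1
  linarith

/-- **The lower bound.** -/
theorem Tg.lo (hQ : 0 < Q) (hQ1 : Q ≤ 1) (h : Tg p k S A j t l lc G N) (hpoly : IsPolygon p)
    (hU : Up p k S A j Bad E P ζP (Wf p S (k - lc - 1)) arcP) (hP : Wd P ζP t l lc arcP)
    (hE : hbox t N ⊆ E)
    (hrw : ∀ x : ℤ, t.1 - 1 ≤ x → x < t.1 + l → (x, t.2) ∈ dk p k S A j \ Bad ∧ (x, t.2) ∈ P)
    (hLo : LoAt Q L) (hL : L * (N / 2 : ℕ) ≤ G - 2) (hZ : AdmZ t 1 (N / 2 : ℕ) Z ζ)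
    (hη : 8 * η₀ ≤ 1)
    (hpr : Pr Q (dk p k S A j) (om p k A)
      (NSup (dk p k S A j) Bad (Bq (ro (p k)) (lc + G))) ≤ η₀) :
    gZ Q P ζP t l Z * (1 - 8 * η₀) ≤ gZ Q (dk p k S A j) (om p k A) t l Z := by
  have g1 := h.gl
  have g2 := h.ng
  have g3 := h.n16
  have g4 := h.llc
  obtain ⟨e1, e2⟩ := h.hro
  have hnz := nz_of hE h.n16 h.even hZ
  have hrow : ∀ x : ℤ, t.1 - 1 ≤ x → x < t.1 + l → (x, t.2) ∈ E := by
    refine row_of (D := dk p k S A j \ Bad) (P := P) (hE ?_) ?_ hrw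
    · rw [BR.mem_hbox]
      simp only
      omega
    · intro x hx y hy hyP s hs hxs hys
      exact hU.cl x hx y hy hyP s (Or.inl hs) hxs hys
  have hw2 := (h.wdu hU).rw
  have hb : ∀ {D : Finset (ℤ × ℤ)} {η : Cfg} {Ar : Set (ℤ × ℤ)}, Rw D η t l lc Ar → Bl D η t Z :=
    fun hr => hr.bl hZ (by omega) (by omega)
  have s1 := lo_sand hQ hQ1 h.par hpoly h.kn h.hA hU hP.rw hw2 hnz (hb hP.rw) (hb hw2) hrow
  have s2 := lo_frz hQ hQ1 h.par hpoly h.kn h.hA hU h.wd.rw hnz (hb h.wd.rw) hrow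
  have s3 := hLo _ _ _ _ _ _ (h.fl hZ) (by omega) hL Bad (Bq (ro (p k)) (lc + G)) (Y0 t l) ?_ ?_ ?_
  · have s4 := compl_ge hQ (s3.trans (mul_le_mul_of_nonneg_left hpr (by norm_num)))
    have s5 : 0 ≤ Pr Q ((dk p k S A j \ Bad) \ Z) (opn Z (opn Bad (om p k A)))
        {ω | PC ω t (t.1 + l, t.2)} := FKA.Pr_nonneg hQ _
    unfold gZ
    refine (mul_le_mul_of_nonneg_right s1 (by linarith)).trans ?_
    exact (mul_le_mul_of_nonneg_left s4 s5).trans s2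
  · intro v hv
    exact mem_sdiff.2 ⟨hU.bad hv, fun k1 => (mem_sdiff.1 (hU.sub (hnz.sub k1))).2 hv⟩
  · rintro ⟨x, y⟩ hv
    rw [H166.mem_Bq] at hv ⊢
    simp only at hv ⊢
    omega
  · rintro ⟨x, y⟩ ⟨k1, k2⟩
    rw [BR.mem_sites]
    refine ⟨(x - 1, y), ?_, Or.inr (by simp only; ring), Or.inl rfl⟩
    rw [H166.mem_Bq]
    simp only at k2 ⊢
    omega

theorem rtg_par {F : Set (ℤ × ℤ)} {s s' : ℤ × ℤ} (h : ReflTransGen (PStep F) s s') :
    (s'.1 + s'.2) % 2 = (s.1 + s.2) % 2 := by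
  induction h with
  | refl => rfl
  | tail _ h ih =>
    obtain ⟨h1, h2, -⟩ := h
    omega

/-- **The upper bound.** -/
theorem Tg.up (hQ : 0 < Q) (hQ1 : Q ≤ 1) (h : Tg p k S A j t l lc G N) (hpoly : IsPolygon p)
    (hS : Encloses p S) (hU : Lo p k S A j Bad E P ζP (Wf p S (k - lc - 1)) WP arcP)
    (hJ : ∀ s ∈ WP, ∀ t ∈ WP, ReflTransGen (PStep (op ζP ∩ (↑P : Set (ℤ × ℤ))ᶜ)) s t)
    (hP : Wd P ζP t l lc arcP) (hE : hbox t N ⊆ E)
    (hrw : ∀ x : ℤ, t.1 - 1 ≤ x → x < t.1 + l → (x, t.2) ∈ dk p k S A j \ Bad ∧ (x, t.2) ∈ P)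
    (hbad : Disjoint Bad (HBt t (G - 2)))
    (hUp : UpAt Q L) (hL : L * (N / 2 : ℕ) ≤ G - 2) (hZ : AdmZ t 1 (N / 2 : ℕ) Z ζ)
    (hc : 0 < c) (harm : ArmB Q t (G - 2) Z (gZ Q (dk p k S A j) (om p k A) t l Z / c))
    (hpr : Pr Q (dk p k S A j) (om p k A)
      (NSlo (dk p k S A j) (om p k A) Bad (Ff (ro (p k)) (lc + 1) (t.1 - G) (t.1 + G)
        (t.2 - G) (t.2 + G))) ≤ η₀) :
    gZ Q (dk p k S A j) (om p k A) t l Z * (1 - 8 * η₀ / c) ≤ gZ Q P ζP t l Z := by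
  have g1 := h.gl
  have g2 := h.ng
  have g3 := h.n16
  have g4 := h.llc
  obtain ⟨e1, e2⟩ := h.hro
  have hnz := nz_of hE h.n16 h.even hZ
  have hrow : ∀ x : ℤ, t.1 - 1 ≤ x → x < t.1 + l → (x, t.2) ∈ E := by
    refine row_of (D := dk p k S A j \ Bad) (P := P) (hE ?_) ?_ hrw
    · rw [BR.mem_hbox]
      simp only
      omega
    · intro x hx y hy hyP s hs hxs hys
      exact hU.cl x hx y hy hyP s (Or.inl hs) hxs hys
  have hw1 := (h.wdl hU).rw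
  have hb : ∀ {D : Finset (ℤ × ℤ)} {η : Cfg} {Ar : Set (ℤ × ℤ)}, Rw D η t l lc Ar → Bl D η t Z :=
    fun hr => hr.bl hZ (by omega) (by omega)
  have hBZ : Bad ⊆ dk p k S A j \ Z := by
    intro v hv
    exact mem_sdiff.2 ⟨hU.bad hv, fun k1 => (mem_sdiff.1 (hU.sub (hnz.sub k1))).2 hv⟩
  have s1 := up_sand hQ hQ1 h.par hpoly hS h.hA hU hJ hw1 hP.rw hnz (hb hw1) (hb hP.rw) hrow
  have s2 := up_frz hQ hQ1 h.par hpoly hS h.hA hU h.wd.rw hw1 hnz (hb h.wd.rw) hrow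
  have s3 := hUp _ _ _ _ _ _ (h.fl hZ) (by omega) hL Bad (UZ t l Z) _ hBZ hbad ?_ harm
  · have s4 : Pr Q (dk p k S A j) (om p k A) (NOut (dk p k S A j) Bad (HBt t (G - 2))) ≤ η₀ := by
      refine le_trans (FKA.Pr_mono hQ ?_) hpr
      rintro ω ⟨s, s', k1, k2, k3, k4⟩
      refine ⟨s, s', k1, k2, Or.inr ⟨?_, Or.inr ?_⟩, rtg_mono' ?_ k4⟩
      · rw [rtg_par k4]
        exact k2
      · rw [BR.mem_sites] at k3
        obtain ⟨v, hv, c1, c2⟩ := k3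
        unfold HBt at hv
        rw [mem_product, mem_Ico, mem_Ico] at hv
        refine ⟨?_, ?_, ?_, ?_⟩ <;> omega
      · rintro v ⟨k5, -, k6⟩
        exact ⟨k5, k6⟩
    have s5 : 0 ≤ gZ Q (dk p k S A j) (om p k A) t l Z := gZ_nonneg hQ _ _ _ _ _
    have s6 : 8 * (gZ Q (dk p k S A j) (om p k A) t l Z / c) *
        Pr Q (dk p k S A j) (om p k A) (NOut (dk p k S A j) Bad (HBt t (G - 2))) ≤
        8 * (gZ Q (dk p k S A j) (om p k A) t l Z / c) * η₀ :=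
      mul_le_mul_of_nonneg_left s4 (by positivity)
    have s7 : gZ Q (dk p k S A j) (om p k A) t l Z * (1 - 8 * η₀ / c) =
        gZ Q (dk p k S A j) (om p k A) t l Z -
          8 * (gZ Q (dk p k S A j) (om p k A) t l Z / c) * η₀ := by ring
    rw [s7]
    unfold gZ at *
    linarith
  · rintro s ⟨k1, k2⟩ - ⟨x, hx, hxs⟩
    rcases k2 with k2 | ⟨z, hz, k2⟩
    · rcases k2 with rfl | ⟨-, k2⟩
      · rw [BR.mem_sites]
        refine ⟨s, hZ.low ?_, Or.inl rfl, Or.inl rfl⟩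
        rw [BR.mem_hbox]
        omega
      · exfalso
        obtain ⟨x1, x2⟩ := x
        obtain ⟨c1, c2⟩ := hxs
        simp only at c1 c2
        exact h.wd.out x1 x2 (by omega) (by omega) (by omega) (by omega) (mem_sdiff.1 hx).1
    · rw [BR.mem_sites]
      exact ⟨z, hz, k2.1, k2.2⟩

end

end Vale.Agent.P167.H364
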