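import Vale.Agent.P167.H364.CmpE
import Vale.Agent.P167.H446.G.Flat2
import Vale.Agent.P167.H446.G.Asm
import Vale.Agent.P167.QG.Dmp

/-!
# P167, `0 < Q ≤ 1`, [GEO]: the laws of the frozen pairs

* `fnZ_eq`, `Tg.ex`, `shp_ex` : the expectations are products;
* `cmp_lo`, `cmp_up`, `cmp_all` : the comparisons.
-/

set_option autoImplicit false

namespace Vale.Agent.P167.H364

open Finset Relation Vale.Agent.P167.FK Vale.Agent.P167.H816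
open Vale.Agent.P145.FB (PStep)
open Vale.Agent.P167.QT (Sh4 dom arcc)
open Vale.Agent.P167.FKA (Cor)
open Vale.Agent.P167.E6 (IsPolygon Encloses edges wiredOpen)
open Vale.Agent.P167.H192 (ro)
open Vale.Agent.P167.H411 (exn Set6)
open Vale.Agent.P167.H718 (Dq)
open Vale.Agent.P167.H72.SD (dk om WD TD Up Lo Ws omB Wr Inn Wf NSup NSlo Ff)
open Vale.Agent.P167.H918 (Loc)
open Vale.Agent.P167.BR (hbox)

/-- The probability of the configuration on `Z`. -/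
noncomputable def pZ (Q : ℝ) (D : Finset (ℤ × ℤ)) (η : Cfg) (Z : Finset (ℤ × ℤ)) (ζ : Cfg) : ℝ :=
  Pr Q D η {ω | ∀ v ∈ Z, ω v = ζ v}

/-- The statement of `mix_Z` at constants. -/
def MixAt (Q ε : ℝ) (L : ℤ) : Prop :=
  ∀ (D D' : Finset (ℤ × ℤ)) (η η' : Cfg) (t : ℤ × ℤ) (g r : ℤ) (Z : Finset (ℤ × ℤ)) (ζ : Cfg),
      FlZ D η t g r Z → FlZ D' η' t g r Z → 1 ≤ r → L * r ≤ g →
      |Pr Q D η {ω | ∀ v ∈ Z, ω v = ζ v} - Pr Q D' η' {ω | ∀ v ∈ Z, ω v = ζ v}| ≤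
        ε * Pr Q D' η' {ω | ∀ v ∈ Z, ω v = ζ v}

theorem pZ_nonneg {Q : ℝ} (hQ : 0 < Q) (D : Finset (ℤ × ℤ)) (η : Cfg) (Z : Finset (ℤ × ℤ))
    (ζ : Cfg) : 0 ≤ pZ Q D η Z ζ := FKA.Pr_nonneg hQ _

/-- The conditional probability. -/
theorem fnZ_eq {μ : ℝ} (hμ : 0 < Real.cos μ) (δ : ℕ → ℝ) (N k : ℕ → ℕ)
    (p : ∀ n, ZMod (N n) → ℤ × ℤ) (S : ℕ → Finset (ℤ × ℤ)) (ψn : ℕ → ℂ → ℂ) (n : ℕ)
    (hp : IsPolygon (p n)) (hE : Encloses (p n) (S n)) {A : Finset (Sym2 (ℤ × ℤ))}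
    (hA : A ⊆ edges (S n)) (j : ℕ) (Z : Finset (ℤ × ℤ)) (ζ : Cfg) :
    fnZ μ δ N k p S ψn n A j Z ζ =
      Ex (2 * Real.cos μ) (dk (p n) (k n) (S n) A j) (om (p n) (k n) A)
        (fzZ (Dq (S n) (p n) (k n)) Z ζ (wT (p n) (k n))) := by
  have h := QG.cexW_exn (q := (2 * Real.cos μ) ^ 2) (by positivity) δ N k p S ψn n hp hE
    (fun ω => fzZ (Dq (S n) (p n) (k n)) Z ζ (wT (p n) (k n)) ω) hA j
  rw [Real.sqrt_sq (by positivity)] at h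
  exact h

section

variable {n : ℕ} {p : ZMod n → ℤ × ℤ} {k : ℕ} {S : Finset (ℤ × ℤ)} {A : Finset (Sym2 (ℤ × ℤ))}
  {j : ℕ} {t : ℤ × ℤ} {l lc : ℕ} {G : ℤ} {N : ℕ} {Z : Finset (ℤ × ℤ)} {ζ : Cfg}
  {Q : ℝ}

/-- The explored domain. -/
theorem Tg.ex (hQ : 0 < Q) (h : Tg p k S A j t l lc G N) (hZ : AdmZ t 1 (N / 2 : ℕ) Z ζ) :
    Ex Q (dk p k S A j) (om p k A) (fzZ (Dq S p k) Z ζ (wT p k)) =
      pZ Q (dk p k S A j) (om p k A) Z ζ * gZ Q (dk p k S A j) (om p k A) t l Z := by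
  have g1 := h.gl
  have g2 := h.ng
  have g3 := h.n16
  have g4 := h.llc
  obtain ⟨M, R, H, hR⟩ := h.loc
  refine fz_split hQ (h.fl hZ) (by omega) hZ fun ω hω => ?_
  refine ftz_D H h.hA h.ht h.el hZ.sub hZ.low (by omega) (by omega) (hZ.co le_rfl h.even) ?_
  intro v hv
  exact hω v fun hv' => hv (H72.SD.mem_dk.1 hv').1

/-- A shape is a half plane near the mark. -/
theorem fl_P {P : Sh4} {ρ : ℕ} (hP : P.Ok ρ) (hN : 0 < N) {v₀ : ℤ × ℤ}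
    (hv : Even (v₀.1 + v₀.2)) (hG : G + 1 ≤ (ρ : ℤ) * N) (hZ : AdmZ v₀ 1 (N / 2 : ℕ) Z ζ) :
    FlZ (dom N v₀ P) (QT.ext N v₀ P) v₀ (G - 2) (N / 2 : ℕ) Z := by
  have h := H446.G.fl_shape (v₀ := v₀) hP hN hG
  have e : G - 2 + 2 = G := by ring
  refine ⟨h.good, hv, ?_, ?_, hZ.low, hZ.sub, hZ.co le_rfl hv⟩
  · rw [e]
    exact h.dom
  · rw [e]
    intro v hv1 hv2
    refine h.out v hv1 fun hv3 => ?_
    have := (h.dom v hv1).1 hv3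
    omega

/-- The shape. -/
theorem shp_ex {μ : ℝ} (hQ : 0 < 2 * Real.cos μ) {P : Sh4} {ρ : ℕ} (hP : P.Ok ρ) (hρ : 2 ≤ ρ)
    (hN : 16 ≤ N) (h4 : 4 ∣ N) {v₀ : ℤ × ℤ} (hv : Even (v₀.1 + v₀.2))
    (hG : G + 1 ≤ (ρ : ℤ) * N) (hNG : (N : ℤ) ≤ G) (hZ : AdmZ v₀ 1 (N / 2 : ℕ) Z ζ) :
    PTZ μ N v₀ (toSh P) Z ζ =
      pZ (2 * Real.cos μ) (dom N v₀ P) (QT.ext N v₀ P) Z ζ *
        gZ (2 * Real.cos μ) (dom N v₀ P) (QT.ext N v₀ P) v₀ (lP P N) Z := by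
  have hP2 : P.Ok 2 := H446.G.ok_mono hP hρ
  have hfl := fl_P hP (by omega) hv hG hZ
  have hco := hfl.co
  have e : G - 2 + 2 = G := by ring
  have hdom := hfl.dom
  have hcl := hfl.cl
  rw [e] at hdom hcl
  have hbx : ∀ x y : ℤ, v₀.1 - N ≤ x → x < v₀.1 + N → v₀.2 - N ≤ y → y < v₀.2 + N →
      (x, y) ∈ Bq v₀ G := by
    intro x y h1 h2 h3 h4
    rw [H166.mem_Bq]
    simp only
    omega
  have key : Ex (2 * Real.cos μ) (dom N v₀ P) (QT.ext N v₀ P)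
      (fzZ (dom N v₀ P) Z ζ (H375.arcw N v₀ ⟨P.m, P.q, P.S, P.k, P.j, P.l⟩)) =
      pZ (2 * Real.cos μ) (dom N v₀ P) (QT.ext N v₀ P) Z ζ *
        gZ (2 * Real.cos μ) (dom N v₀ P) (QT.ext N v₀ P) v₀ (lP P N) Z := by
    refine fz_split hQ hfl (by omega) hZ fun ω hω => ?_
    refine ftz_shape hP2 hN h4 hv ?_ hω ?_ ?_ ?_
    · rintro ⟨x, y⟩ hv'
      have h1 := BR.mem_hbox.1 (hZ.sub hv')
      simp only at h1
      exact (hdom _ (hbx x y (by omega) (by omega) (by omega) (by omega))).2 h1.2.2.1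
    · intro s hs he hw
      obtain ⟨w, hw1, hw2, hw3⟩ := hw
      rw [BR.mem_sites] at hs
      obtain ⟨z, hz, c1, c2⟩ := hs
      refine hco s (Int.even_iff.1 he) ⟨z, hz, c1, c2⟩ ⟨w, hw2, ?_, hw3⟩
      have h1 := BR.mem_hbox.1 (hZ.sub hz)
      obtain ⟨w1, w2⟩ := w
      obtain ⟨c3, c4⟩ := hw3
      simp only at c3 c4
      exact (hdom _ (hbx w1 w2 (by omega) (by omega) (by omega) (by omega))).1 hw1
    · intro s hs z hz hzs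
      rw [BR.mem_sites] at hs
      obtain ⟨w, hw, c1, c2⟩ := hs
      have h1 := BR.mem_hbox.1 (hZ.sub hw)
      obtain ⟨z1, z2⟩ := z
      obtain ⟨c3, c4⟩ := hzs
      simp only at c3 c4
      have hb := hbx z1 z2 (by omega) (by omega) (by omega) (by omega)
      refine hcl _ hb ?_
      by_contra h2
      push Not at h2
      exact hz ((hdom _ hb).2 h2)
    · rw [BR.mem_sites]
      refine ⟨v₀, hZ.low ?_, Or.inl rfl, Or.inl rfl⟩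
      rw [BR.mem_hbox]
      omega
  exact key

end

/-! ### Arithmetic -/

theorem ar_lo {pD pP gD gP ε η e : ℝ} (hp : 0 ≤ pP) (hg : 0 ≤ gP) (hgD : 0 ≤ gD)
    (hm : |pD - pP| ≤ ε * pP) (h : gP * (1 - 8 * η) ≤ gD) (hε : 0 ≤ ε) (hη : 0 ≤ η)
    (h1 : ε + 8 * η ≤ e) (h2 : ε ≤ 1) : (1 - e) * (pP * gP) ≤ pD * gD := by
  have h3 : (1 - ε) * pP ≤ pD := by
    have := neg_abs_le (pD - pP)
    linarith
  have h4 : (1 - ε) * pP * (gP * (1 - 8 * η)) ≤ (1 - ε) * pP * gD :=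
    mul_le_mul_of_nonneg_left h (mul_nonneg (by linarith) hp)
  have h5 : (1 - ε) * pP * gD ≤ pD * gD := mul_le_mul_of_nonneg_right h3 hgD
  have h6 : 0 ≤ pP * gP := mul_nonneg hp hg
  have h7 : (1 - e) * (pP * gP) ≤ (1 - ε) * (1 - 8 * η) * (pP * gP) := by
    refine mul_le_mul_of_nonneg_right ?_ h6
    have : 0 ≤ ε * (8 * η) := by positivity
    nlinarith
  linarith

theorem ar_up {pD pP gD gP ε x e : ℝ} (hp : 0 ≤ pP) (hgD : 0 ≤ gD)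
    (hm : |pD - pP| ≤ ε * pP) (h : gD * (1 - x) ≤ gP) (hε : 0 ≤ ε)
    (hx1 : x ≤ 1 / 2) (h1 : 1 + ε ≤ (1 + e) * (1 - x)) : pD * gD ≤ (1 + e) * (pP * gP) := by
  have h3 : pD ≤ (1 + ε) * pP := by
    have := le_abs_self (pD - pP)
    linarith
  have h4 : pD * gD ≤ (1 + ε) * pP * gD := mul_le_mul_of_nonneg_right h3 hgD
  have h5 : (1 + ε) * (pP * gD) ≤ (1 + e) * (1 - x) * (pP * gD) :=
    mul_le_mul_of_nonneg_right h1 (mul_nonneg hp hgD)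
  have he : 0 ≤ 1 + e := by
    by_contra k1
    push Not at k1
    have : (1 + e) * (1 - x) ≤ 0 := mul_nonpos_of_nonpos_of_nonneg k1.le (by linarith)
    linarith
  have h6 : (1 + e) * (pP * (gD * (1 - x))) ≤ (1 + e) * (pP * gP) :=
    mul_le_mul_of_nonneg_left (mul_le_mul_of_nonneg_left h hp) he
  linarith

theorem ar_all {pD pP gD gP c : ℝ} (hp : 0 ≤ pP) (hgD : 0 ≤ gD)
    (hm : |pD - pP| ≤ 1 * pP) (h : gD ≤ gP / c) : pD * gD ≤ 2 / c * (pP * gP) := by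
  have h3 : pD ≤ 2 * pP := by
    have := le_abs_self (pD - pP)
    linarith
  have h4 : pD * gD ≤ 2 * pP * gD := mul_le_mul_of_nonneg_right h3 hgD
  have h5 : 2 * pP * gD ≤ 2 * pP * (gP / c) := mul_le_mul_of_nonneg_left h (by positivity)
  have h6 : 2 * pP * (gP / c) = 2 / c * (pP * gP) := by ring
  linarith

end Vale.Agent.P167.H364
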