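import Vale.Agent.P167.H922.Lb
import Vale.Agent.P167.N.Base.Vr
import Vale.Agent.P167.N.Base.ArmShp

/-!
# P167, `0 < q < 4`, [GEO]: the arm of a set `Z` near `t` at a flat free side and the wired side
-/

set_option autoImplicit false

namespace Vale.Agent.P167.H364

open Finset Relation Vale.Agent.P167.FK
open Vale.Agent.P145.FB (PStep)

/-- **[LB]** -/
theorem arm_lbZ {Q : ℝ} (hQ : N.Kit Q) (κ : ℤ) : ∃ c : ℝ, 0 < c ∧ ∃ L r₀ : ℤ, 1 ≤ L ∧ 1 ≤ r₀ ∧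
    ∀ (t : ℤ × ℤ) (l r ρ : ℤ) (Z : Finset (ℤ × ℤ)), Even (t.1 + t.2) → Even l → r₀ ≤ r →
      8 * r ≤ l → l ≤ κ * r → Z ⊆ BR.hbox t ρ → L * ρ ≤ r → CoZ t Z →
      ∀ ξ : Cfg, Good ξ → (∀ x : ℤ, t.1 - r - 1 ≤ x → x ≤ t.1 + r → ξ (x, t.2 - 1) = false) →
        c * Pr Q (HBt t r \ Z) (opn Z ξ) (ArmT t r) ≤
          Pr Q (recT t l r \ Z) (opn Z (xiT t l r)) {ω | PC ω t (t.1 + l, t.2)} :=
  H922.arm_lbZ_of hQ (N.NET.vrs_of hQ.pos hQ.le (N.vr hQ)) hQ.armShp κ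

end Vale.Agent.P167.H364
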