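import Vale.Agent.P167.H640.NearT

/-!
# P167, `0 < q < 4`, [GEO]: the neighbourhood of the target

Proof: H640/NearT.
-/

set_option autoImplicit false

namespace Vale.Agent.P167.H364

open Filter Topology Set
open Vale.Agent.P153.M1 (Expl)
open Vale.Agent.P153.R2
open Vale.Agent.P167.QT
open Vale.Agent.P167.E6 (Medial pt region edges)
open Vale.Agent.P167.H411 (exn Set6)
open Vale.Agent.P167.H192 (ro)
open Vale.Agent.P167.H718 (Dq)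
open Vale.Agent.P167.H72.SD (dk om Wf)
open Vale.Agent.P167.H446.G
open Vale.Agent.P167.H918 (Loc)

variable {Φ : (ℝ × ℝ) ≃ₜ (ℝ × ℝ)} {ψ : ℂ → ℂ} {δ : ℕ → ℝ} {N k : ℕ → ℕ}
  {p : ∀ n, ZMod (N n) → ℤ × ℤ} {S : ℕ → Finset (ℤ × ℤ)} {ψn : ℕ → ℂ → ℂ}

/-- **The neighbourhood of the target.** -/
theorem near_all (H : Set6 Φ ψ δ N k p S ψn) (hK : QE.Stair 3 Φ δ N k p S) {T R : ℝ}
    (hT : 0 ≤ T) (hR : 0 ≤ R) : ∃ ρ₀ : ℝ, 0 < ρ₀ ∧ ∀ C : Cst, C.T = T → C.R = R → C.Sm ρ₀ →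
      ∃ κ : ℤ, ∀ K : ℤ, ∀ r : ℝ, 0 < r → ∃ s₀ : ℝ, 0 < s₀ ∧ ∀ s : ℝ, 0 < s → s ≤ s₀ →
        ∀ᶠ n in atTop, NrN C (p n) (k n) (S n) (δ n) s κ K ∧
          ∀ (A : Hst) (j : ℕ), Bef (exn δ N k p S ψn n) C.T C.R A j →
            NrA C (p n) (k n) (S n) (δ n) r s A j :=
  H640.near_all H hK hT hR

end Vale.Agent.P167.H364
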