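import Vale.Agent.P167.H364.CmpF
import Vale.Agent.P167.H364.LbZ
import Vale.Agent.P167.H364.NearT

/-!
# P167, `0 < Q ≤ 1`, [GEO]: the blocks CMP and ALL

* `b_allZ`, `b_cmpZ`.
-/

set_option autoImplicit false

namespace Vale.Agent.P167.H364

open Filter Topology Set
open Vale.Agent.P167.FK
open Vale.Agent.P167.QT
open Vale.Agent.P167.E6 (IsPolygon Encloses edges)
open Vale.Agent.P167.H192 (ro)
open Vale.Agent.P167.H411 (exn Set6)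
open Vale.Agent.P167.H718 (Dq)
open Vale.Agent.P167.H72.SD (dk om Up Lo Wf NSup NSlo Ff)
open Vale.Agent.P167.H446.G
open Vale.Agent.P167.BR (hbox)

theorem mq_even (L s δ : ℝ) : Even (mq L s δ) := by
  unfold mq
  obtain ⟨a, ha⟩ := Nn_dvd s δ
  rw [ha]
  have e : 4 * a / 2 = 2 * a := by omega
  rw [e]
  exact ⟨Ku L s * (2 * a) + a, by ring⟩

theorem vd_ro {n : ℕ} (p : ZMod n → ℤ × ℤ) (k : ℕ) (L s δ : ℝ) :
    vd p k L s δ + ((mq L s δ : ℤ), 0) = ro (p k) := by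
  unfold vd mq
  exact sub_add_cancel _ _

section

variable {n : ℕ} {C : Cst} {p : ZMod n → ℤ × ℤ} {k : ℕ} {S : Finset (ℤ × ℤ)} {δ r s : ℝ}
  {κ K : ℤ} {A : Hst} {j : ℕ}

theorem tg_of (hN : NrN C p k S δ s κ K) (hA : NrA C p k S δ r s A j) (hK : 1 ≤ K) :
    Tg p k S A j (vd p k C.Ld s δ) (mq C.Ld s δ) (mq C.Lc s δ) (mb C.m δ) (H446.G.Nn s δ) where
  loc := hN.loc
  hA := hA.sub
  kn := hN.kn
  ht := vd_ro p k C.Ld s δ
  el := mq_even _ _ _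
  elc := mq_even _ _ _
  n16 := hN.n16
  ng := by
    have h1 := hN.Kg
    have h2 : (1 : ℤ) * H446.G.Nn s δ ≤ K * H446.G.Nn s δ :=
      mul_le_mul_of_nonneg_right hK (by positivity)
    linarith
  gl := hN.gl
  llc := hN.lc
  near := fun v h1 h2 h3 h4 => (hA.near v h1 h2 h3 h4).1
  met := hA.met

theorem NrN.scale (hN : NrN C p k S δ s κ K) {L : ℤ} (hL : 0 ≤ L) (hK : L + 2 ≤ K) :
    L * (H446.G.Nn s δ / 2 : ℕ) ≤ mb C.m δ - 2 ∧ L ≤ mb C.m δ - 2 := by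
  have h1 := hN.Kg
  have h2 := hN.n16
  have h3 : (L + 2) * (H446.G.Nn s δ : ℤ) ≤ K * H446.G.Nn s δ :=
    mul_le_mul_of_nonneg_right hK (by positivity)
  have h4 : L * (H446.G.Nn s δ / 2 : ℕ) ≤ L * (H446.G.Nn s δ : ℤ) :=
    mul_le_mul_of_nonneg_left (by omega) hL
  have h5 : L * 1 ≤ L * (H446.G.Nn s δ : ℤ) := mul_le_mul_of_nonneg_left (by omega) hL
  have h6 : (L + 2) * (H446.G.Nn s δ : ℤ) = L * (H446.G.Nn s δ : ℤ) + 2 * H446.G.Nn s δ := by ring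
  constructor <;> omega

theorem fam_ok {Ld Lc m B : ℝ} {P : Sh4} (hP : P ∈ Fam Ld Lc m B s) (hN : NrN C p k S δ s κ K)
    (hm : C.m = m) (hK : 2 ≤ K) : P.Ok (Ku m s) ∧ 2 ≤ Ku m s ∧
      mb C.m δ + 1 ≤ ((Ku m s : ℕ) : ℤ) * H446.G.Nn s δ := by
  refine ⟨hP.1, ?_, hm ▸ hN.mf⟩
  have h1 := hN.Kg
  have h2 := hN.mf
  have h3 := hN.n16
  rw [hm] at h1 h2
  by_contra h4
  push Not at h4
  have h5 : ((Ku m s : ℕ) : ℤ) ≤ K := by omega
  have h6 := mul_le_mul_of_nonneg_right h5 (show (0 : ℤ) ≤ (H446.G.Nn s δ : ℤ) by positivity)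
  omega

/-- The row is in the shape. -/
theorem row_in {P : Sh4} (hP : P.Ok 2) {N : ℕ} (hN : 16 ≤ N) {t : ℤ × ℤ} {l : ℕ}
    (hl : lP P N = l) {x : ℤ} (h1 : t.1 - 1 ≤ x) (h2 : x < t.1 + l) : (x, t.2) ∈ dom N t P := by
  have h3 := hP.j_lt
  have h4 := hP.l_lt
  refine row_shape hP hN ?_ ?_ le_rfl (by omega)
  · have e : (((P.j : ℤ) - P.l) - 1) * N = -(((P.l : ℤ) - P.j) * N) - N := by ring
    have h5 : 0 ≤ ((P.l : ℤ) - P.j) * N := mul_nonneg (by omega) (by positivity)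
    rw [e]
    omega
  · have e : ((P.m : ℤ) - P.l + 1) * N = ((P.m : ℤ) - P.l) * N + N := by ring
    have h5 : lP P N = ((P.m : ℤ) - P.l) * N + (N / 2 : ℕ) := by
      unfold lP
      rw [Nat.cast_add, Nat.cast_mul, Nat.cast_sub (by omega)]
    rw [e]
    omega

end

section

variable {Φ : (ℝ × ℝ) ≃ₜ (ℝ × ℝ)} {ψ : ℂ → ℂ} {δ : ℕ → ℝ} {N k : ℕ → ℕ}
  {p : ∀ n, ZMod (N n) → ℤ × ℤ} {S : ℕ → Finset (ℤ × ℤ)} {ψn : ℕ → ℂ → ℂ} {T R μ : ℝ}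

/-- **[ALL]** -/
theorem allZ (hQ : Vale.Agent.P167.N.Kit (2 * Real.cos μ)) (H : Set6 Φ ψ δ N k p S ψn)
    (hK : QE.Stair 3 Φ δ N k p S) (hT : 0 ≤ T) (hR : 0 < R) :
    ∃ ρ : ℝ, 0 < ρ ∧ ∀ C : Cst, C.T = T → C.R = R → C.Sm ρ → I_allZ μ C δ N k p S ψn := by
  obtain ⟨ρ₀, hρ₀, hnear⟩ := near_all H hK hT hR.le
  refine ⟨ρ₀, hρ₀, fun C hCT hCR hC => ?_⟩
  obtain ⟨κ, hnear⟩ := hnear C hCT hCR hC
  obtain ⟨c, hc, L₁, r₀, hL₁, hr₀, hlb⟩ := arm_lbZ hQ (2 * κ)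
  obtain ⟨L₂, hL₂, hmix⟩ := mix_Z hQ (ε := 1) one_pos
  have hcos : 0 < Real.cos μ := by linarith [hQ.pos]
  obtain ⟨s₀, hs₀, hnear⟩ := hnear (L₁ + L₂ + r₀ + 2) 1 one_pos
  refine ⟨2 / c, by positivity, s₀, hs₀, fun s hs hs' => ?_⟩
  filter_upwards [hnear s hs hs'] with n hn
  obtain ⟨hN, hn⟩ := hn
  intro A j A' j' hB hB' Z ζ hZ
  have T1 := tg_of hN (hn A j hB) (by omega)
  have T2 := tg_of hN (hn A' j' hB') (by omega)
  obtain ⟨hδ, hk0, hkN, hpoly, henc⟩ := H.appr.1 n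
  rw [fnZ_eq hcos δ N k p S ψn n hpoly henc T1.hA j, fnZ_eq hcos δ N k p S ψn n hpoly henc T2.hA j',
    T1.ex hQ.pos hZ, T2.ex hQ.pos hZ]
  have hr1 : (1 : ℤ) ≤ (H446.G.Nn s (δ n) / 2 : ℕ) := by
    have := hN.n16
    omega
  have g1 := T1.gl
  have g2 := T1.ng
  have g3 := T1.n16
  refine ar_all (pZ_nonneg hQ.pos _ _ _ _) (gZ_nonneg hQ.pos _ _ _ _ _) ?_ ?_
  · exact hmix _ _ _ _ _ _ _ _ _ (T1.fl hZ) (T2.fl hZ) hr1 (hN.scale (by omega) (by omega)).1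
  · refine pc_arm hQ.pos (T1.fl hZ) (by omega) (by simp only; omega) ?_
    exact T2.arm hQ.pos hQ.le hc hlb hN.cg (hN.scale (by omega) (by omega)).1
      (hN.scale (L := r₀) (by omega) (by omega)).2 hZ

/-- **[CMP]** -/
theorem cmpZ (hQ : Vale.Agent.P167.N.Kit (2 * Real.cos μ)) (H : Set6 Φ ψ δ N k p S ψn)
    (hK : QE.Stair 3 Φ δ N k p S) (hT : 0 ≤ T) (hR : 0 < R) :
    ∃ ρ : ℝ, 0 < ρ ∧ ∀ C : Cst, C.T = T → C.R = R → C.Sm ρ → I_cmpZ μ C δ N k p S ψn := by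
  obtain ⟨ρ₀, hρ₀, hnear⟩ := near_all H hK hT hR.le
  refine ⟨ρ₀, hρ₀, fun C hCT hCR hC ε' hε' => ?_⟩
  obtain ⟨κ, hnear⟩ := hnear C hCT hCR hC
  obtain ⟨c, hc, L₁, r₀, hL₁, hr₀, hlb⟩ := arm_lbZ hQ (2 * κ)
  set e : ℝ := min ε' 1 with he
  have he0 : 0 < e := lt_min hε' one_pos
  have he1 : e ≤ 1 := min_le_right _ _
  have hee : e ≤ ε' := min_le_left _ _
  obtain ⟨L₂, hL₂, hmix⟩ := mix_Z hQ (ε := e / 4) (by positivity)
  obtain ⟨L₃, hL₃, hlo⟩ := kx_lo hQ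
  obtain ⟨L₄, hL₄, hup⟩ := kx_up hQ
  have hcos : 0 < Real.cos μ := by linarith [hQ.pos]
  set η₀ : ℝ := min 1 c * e / 32 with hη₀
  have hc1 : 0 < min 1 c := lt_min one_pos hc
  have hη0 : 0 < η₀ := by positivity
  have hη1 : 8 * η₀ ≤ e / 4 := by
    have : min 1 c * e ≤ 1 * e := mul_le_mul_of_nonneg_right (min_le_left _ _) he0.le
    rw [hη₀]
    linarith
  have hη2 : 8 * η₀ / c ≤ e / 4 := by
    rw [div_le_iff₀ hc]
    have : min 1 c * e ≤ c * e := mul_le_mul_of_nonneg_right (min_le_right _ _) he0.le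
    rw [hη₀]
    linarith
  refine ⟨η₀, hη0, fun r hr => ?_⟩
  obtain ⟨s₀, hs₀, hnear⟩ := hnear (L₁ + L₂ + L₃ + L₄ + r₀ + 2) r hr
  refine ⟨s₀, hs₀, fun s hs hs' => ?_⟩
  filter_upwards [hnear s hs hs'] with n hn
  obtain ⟨hN, hn⟩ := hn
  intro A j hB c' P hP hInp hpr Z ζ hZ
  have hAA := hn A j hB
  have T1 := tg_of hN hAA (by omega)
  obtain ⟨hδ, hk0, hkN, hpoly, henc⟩ := H.appr.1 n
  obtain ⟨hPk, hPk2, hPm⟩ := fam_ok hP hN rfl (by omega)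
  have hP2 : P.Ok 2 := ok_mono hPk hPk2
  obtain ⟨lP1, lP2⟩ := fam_lP (δ := δ n) hP
  have h4 : 4 ∣ H446.G.Nn s (δ n) := Nn_dvd _ _
  have hv := T1.even
  have hr1 : (1 : ℤ) ≤ (H446.G.Nn s (δ n) / 2 : ℕ) := by
    have := hN.n16
    omega
  have g1 := T1.gl
  have g2 := T1.ng
  have g3 := T1.n16
  have g4 := T1.llc
  have hflP := fl_P hPk (by omega) hv hPm hZ
  have hm := hmix _ _ _ _ _ _ _ _ ζ (T1.fl hZ) hflP hr1 (hN.scale (by omega) (by omega)).1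
  have hwP : Wd (dom (H446.G.Nn s (δ n)) (vd (p n) (k n) C.Ld s (δ n)) P)
      (ext (H446.G.Nn s (δ n)) (vd (p n) (k n) C.Ld s (δ n)) P)
      (vd (p n) (k n) C.Ld s (δ n)) (mq C.Ld s (δ n)) (mq C.Lc s (δ n))
      (arcc (H446.G.Nn s (δ n)) (vd (p n) (k n) C.Ld s (δ n)) P) := by
    have h := wd_shape hP2 hN.n16 h4 hv
    rw [lP2, lP1] at h
    exact h
  have eW : H446.G.wf C (p n) (k n) (S n) (δ n) s = Wf (p n) (S n) (k n - mq C.Lc s (δ n) - 1) := by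
    unfold H446.G.wf
    rw [Nat.sub_sub]
  have hrow : ∀ c'' : Bool, ∀ x : ℤ, (vd (p n) (k n) C.Ld s (δ n)).1 - 1 ≤ x →
      x < (vd (p n) (k n) C.Ld s (δ n)).1 + mq C.Ld s (δ n) →
      (x, (vd (p n) (k n) C.Ld s (δ n)).2) ∈
        dk (p n) (k n) (S n) A j \ bad (p n) (k n) (S n) (δ n) r s A j c'' ∧
      (x, (vd (p n) (k n) C.Ld s (δ n)).2) ∈
        dom (H446.G.Nn s (δ n)) (vd (p n) (k n) C.Ld s (δ n)) P := by
    intro c'' x h1 h2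
    obtain ⟨e1, e2⟩ := T1.hro
    obtain ⟨h5, h6⟩ := hAA.near (x, (vd (p n) (k n) C.Ld s (δ n)).2) (by simp only; omega)
      (by simp only; omega) (by simp only; omega) (by simp only; omega)
    exact ⟨Finset.mem_sdiff.2 ⟨h5, h6 c''⟩, row_in hP2 hN.n16 lP1 h1 h2⟩
  unfold IneqZ
  rw [shp_ex hQ.pos hPk hPk2 hN.n16 h4 hv hPm g2 hZ, fnZ_eq hcos δ N k p S ψn n hpoly henc T1.hA j,
    T1.ex hQ.pos hZ, lP1]
  obtain ⟨E, hE, hInp⟩ := hInp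
  have hcases : c' = true ∨ c' = false := by cases c' <;> simp
  rcases hcases with rfl | rfl
  · -- the lower bound
    rw [if_pos rfl] at hInp
    rw [if_pos rfl]
    unfold prT at hpr
    rw [if_pos rfl] at hpr
    rw [eW] at hInp
    refine ar_lo (pZ_nonneg hQ.pos _ _ _ _) (gZ_nonneg hQ.pos _ _ _ _ _)
      (gZ_nonneg hQ.pos _ _ _ _ _) hm (η := η₀) ?_ (by positivity) hη0.le (by linarith)
      (by linarith)
    exact T1.lo hQ.pos hQ.le hpoly hInp hwP hE (hrow true) hlo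
      (hN.scale (by omega) (by omega)).1 hZ (by linarith) hpr
  · -- the upper bound
    rw [if_neg (by simp)] at hInp
    rw [if_neg (by simp)]
    unfold prT at hpr
    rw [if_neg (by simp)] at hpr
    obtain ⟨WP, hJ, hInp⟩ := hInp
    rw [eW] at hInp
    have harm := T1.arm hQ.pos hQ.le hc hlb hN.cg (hN.scale (by omega) (by omega)).1
      (hN.scale (L := r₀) (by omega) (by omega)).2 hZ
    refine ar_up (pZ_nonneg hQ.pos _ _ _ _) (gZ_nonneg hQ.pos _ _ _ _ _) hm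
      (T1.up hQ.pos hQ.le hpoly henc hInp hJ hwP hE (hrow false) ?_ hup
        (hN.scale (by omega) (by omega)).1 hZ hc harm hpr) (by positivity) (by linarith) ?_
    · rw [Finset.disjoint_left]
      rintro ⟨x, y⟩ hv1 hv2
      unfold HBt at hv2
      rw [Finset.mem_product, Finset.mem_Ico, Finset.mem_Ico] at hv2
      simp only at hv2
      obtain ⟨e1, e2⟩ := T1.hro
      exact (hAA.near (x, y) (by simp only; omega) (by simp only; omega) (by simp only; omega)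
        (by simp only; omega)).2 false hv1
    · have h5 : (1 + e) * (1 - 8 * η₀ / c) ≤ (1 + ε') * (1 - 8 * η₀ / c) :=
        mul_le_mul_of_nonneg_right (by linarith) (by linarith)
      refine le_trans ?_ h5
      have h6 : 0 ≤ 8 * η₀ / c := by positivity
      nlinarith

end

/-- **[ALL]** -/
theorem b_allZ {μ : ℝ} (hQ : Vale.Agent.P167.N.Kit (2 * Real.cos μ)) : B_allZ μ :=
  fun _ _ _ _ _ _ _ _ H hK _ _ hT hR => allZ hQ H hK hT hR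

/-- **[CMP]** -/
theorem b_cmpZ {μ : ℝ} (hQ : Vale.Agent.P167.N.Kit (2 * Real.cos μ)) : B_cmpZ μ :=
  fun _ _ _ _ _ _ _ _ H hK _ _ hT hR => cmpZ hQ H hK hT hR

end Vale.Agent.P167.H364
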