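import Vale.Agent.P167.H364.World2
import Vale.Agent.P167.H72.SD.Lat3

/-!
# P167, `0 < Q ≤ 1`, [GEO]: the sandwich and the frozen squares for the explored domain

* `lo_sand`, `lo_frz` : `Bad` open; `up_sand`, `up_frz` : `Bad` closed.
-/

set_option autoImplicit false

namespace Vale.Agent.P167.H364

open Finset Relation Vale.Agent.P167.FK Vale.Agent.P167.H816
open Vale.Agent.P145.FB (PStep)
open Vale.Agent.P167.FKA (Cor)
open Vale.Agent.P167.E6 (IsPolygon Encloses edges wiredOpen)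
open Vale.Agent.P167.H718 (Dq)
open Vale.Agent.P167.H72.SD (dk om WD TD Up Lo Ws omB Wr Inn)

variable {n : ℕ} {p : ZMod n → ℤ × ℤ} {S : Finset (ℤ × ℤ)} {k : ℕ} {A : Finset (Sym2 (ℤ × ℤ))}
  {j : ℕ} {Q : ℝ} {Bad E P Z : Finset (ℤ × ℤ)} {ζ : Cfg} {W WP arcP Ar : Set (ℤ × ℤ)}
  {t : ℤ × ℤ} {l m m' : ℤ}

/-- The row above the line. -/
theorem row_of {D : Finset (ℤ × ℤ)} (h0 : (t.1 - 1, t.2) ∈ E)
    (hcl : ∀ x ∈ E, ∀ y ∈ D, y ∈ P → ∀ s, (s.1 + s.2) % 2 = 0 → Cor x s → Cor y s → y ∈ E)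
    (hD : ∀ x : ℤ, t.1 - 1 ≤ x → x < t.1 + l → (x, t.2) ∈ D ∧ (x, t.2) ∈ P) :
    ∀ x : ℤ, t.1 - 1 ≤ x → x < t.1 + l → (x, t.2) ∈ E := by
  intro x hx
  induction x, hx using Int.leInduction with
  | base => exact fun _ => h0
  | succ x hx ih =>
    intro hx2
    obtain ⟨k1, k2⟩ := hD (x + 1) (by omega) hx2
    by_cases hpar : (x + 1 + t.2) % 2 = 0
    · exact hcl _ (ih (by omega)) _ k1 k2 (x + 1, t.2) hpar ⟨Or.inr rfl, Or.inl rfl⟩
        ⟨Or.inl rfl, Or.inl rfl⟩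
    · exact hcl _ (ih (by omega)) _ k1 k2 (x + 1, t.2 + 1) (by simp only; omega)
        ⟨Or.inr rfl, Or.inr rfl⟩ ⟨Or.inl rfl, Or.inr rfl⟩

theorem omB_opn : omB p k A Bad false = opn Bad (om p k A) := by
  funext v
  by_cases h : v ∈ Bad
  · rw [omB, H192.Q.kill_in h]
    simp [opn, h]
  · rw [omB, H192.Q.kill_out h]
    simp [opn, h]

theorem omB_cld : omB p k A Bad true = cld Bad (om p k A) := by
  funext v
  by_cases h : v ∈ Bad
  · rw [omB, H192.Q.kill_in h]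
    simp [cld, h]
  · rw [omB, H192.Q.kill_out h]
    simp [cld, h]

theorem rtg_oj {D : Finset (ℤ × ℤ)} {ζ : Cfg} {s s' : ℤ × ℤ}
    (h : ReflTransGen (PStep (op ζ ∩ (↑D : Set (ℤ × ℤ))ᶜ)) s s') : OJ D ζ s s' := by
  refine rtg_mono' ?_ h
  rintro v ⟨k1, k2⟩
  exact ⟨fun k3 => k2 (mem_coe.2 k3), k1⟩

/-- **The sandwich, `Bad` open.** -/
theorem lo_sand (hQ : 0 < Q) (hQ1 : Q ≤ 1) (hp : Par t l) (hpoly : IsPolygon p) (hk : k < n)
    (hA : A ⊆ edges S) (h : Up p k S A j Bad E P ζ W arcP) (h1 : Rw P ζ t l m arcP)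
    (h2 : Rw (dk p k S A j \ Bad) (opn Bad (om p k A)) t l m (WD p k S A j W))
    (hZ : Nz E t Z) (hb1 : Bl P ζ t Z) (hb2 : Bl (dk p k S A j \ Bad) (opn Bad (om p k A)) t Z)
    (hrow : ∀ x : ℤ, t.1 - 1 ≤ x → x < t.1 + l → (x, t.2) ∈ E) :
    Pr Q (P \ Z) (opn Z ζ) {ω | PC ω t (t.1 + l, t.2)} ≤
      Pr Q ((dk p k S A j \ Bad) \ Z) (opn Z (opn Bad (om p k A)))
        {ω | PC ω t (t.1 + l, t.2)} := by
  have g1 := hp.et
  have g2 := hp.el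
  have g3 := hp.l4
  have hoc := h.oc hA
  refine sandZ hQ hQ1 hp h1 h2 h.subP h.sub hZ hb1 hb2 hrow ?_ ?_
  · intro s z hs hx hz hz' hzs
    left
    have hjo := h.jo hpoly hk hA
    rw [omB_opn] at hjo
    refine rtg_oj (hjo s _ ⟨hs, hx, z, hz, hzs, hz'⟩ ⟨?_, ⟨(t.1 + l - 1, t.2), hrow _ ?_ ?_, ?_⟩,
      (t.1 + l, t.2 - 1), ?_, ?_, Or.inr ?_⟩)
    · simp only; omega
    · omega
    · omega
    · exact ⟨Or.inr (by simp only; ring), Or.inl rfl⟩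
    · intro k1
      exact h2.out _ _ (by omega) (by omega) (by omega) (by omega) (h.sub k1)
    · exact ⟨Or.inl rfl, Or.inr (by simp only; ring)⟩
    · exact (h1.cfg _ _ (by omega) (by omega) (by omega) (by omega)).2 ⟨rfl, le_rfl⟩
  · intro s z hs hx hz hz' hzs
    by_cases hzD : z ∈ dk p k S A j \ Bad
    · exact Or.inl (hoc.off s hs hx z hzD hz hzs)
    · have hz2 : opn Bad (om p k A) z = false := hz'.resolve_left hzD
      obtain ⟨x, hxE, hxs⟩ := hx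
      rcases h2.nd s hs ⟨x, h.sub hxE, hxs⟩ ⟨z, hzD, hz2, hzs⟩ with k1 | k1
      · exact Or.inl (hoc.arc s k1 hs ⟨x, hxE, hxs⟩)
      · exact Or.inr k1

/-- **The frozen squares, `Bad` open.** -/
theorem lo_frz (hQ : 0 < Q) (hQ1 : Q ≤ 1) (hp : Par t l) (hpoly : IsPolygon p) (hk : k < n)
    (hA : A ⊆ edges S) (h : Up p k S A j Bad E P ζ W arcP)
    (h0 : Rw (dk p k S A j) (om p k A) t l m' Ar)
    (hZ : Nz E t Z) (hbl : Bl (dk p k S A j) (om p k A) t Z)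
    (hrow : ∀ x : ℤ, t.1 - 1 ≤ x → x < t.1 + l → (x, t.2) ∈ E) :
    Pr Q ((dk p k S A j \ Bad) \ Z) (opn Z (opn Bad (om p k A))) {ω | PC ω t (t.1 + l, t.2)} *
        Pr Q (dk p k S A j \ Z) (opn Z (om p k A))
          {ω | ∀ s, Kx false 1 (dk p k S A j \ Z) Bad
            (Fc (dk p k S A j \ Z) (opn Z (om p k A))) ω s → s ∉ Y0 t l} ≤
      Pr Q (dk p k S A j \ Z) (opn Z (om p k A)) {ω | PC ω t (t.1 + l, t.2)} := by
  have g1 := hp.et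
  have g2 := hp.el
  have g3 := hp.l4
  have hsub : E ⊆ dk p k S A j := fun v hv => (mem_sdiff.1 (h.sub hv)).1
  refine frzZ_lo hQ hQ1 hp h0 (hZ.mono hsub) hbl (fun x hx hx' => hsub (hrow x hx hx')) ?_ ?_
  · intro v hv
    exact mem_sdiff.2 ⟨h.bad hv, fun k1 => (mem_sdiff.1 (h.sub (hZ.sub k1))).2 hv⟩
  · intro v hv s hs hvs
    left
    have hb : Ws p k S A j Bad (t.1 + l, t.2) := by
      refine Or.inl ⟨even_mod.2 (by simp only; omega), (t.1 + l, t.2 - 1), ?_, ?_, ?_⟩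
      · exact h0.out _ _ (by omega) (by omega) (by omega) (by omega)
      · exact (h0.cfg _ _ (by omega) (by omega) (by omega) (by omega)).2 ⟨rfl, le_rfl⟩
      · exact ⟨Or.inl rfl, Or.inr (by simp only; ring)⟩
    have hj := h.joined hpoly hk hA (s := s) (t := (t.1 + l, t.2)) (Or.inr ⟨hs, v, hv, hvs⟩) hb
    rw [omB_opn] at hj
    exact rtg_oj hj

/-- **The sandwich, `Bad` closed.** -/
theorem up_sand (hQ : 0 < Q) (hQ1 : Q ≤ 1) (hp : Par t l) (hpoly : IsPolygon p)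
    (hS : Encloses p S) (hA : A ⊆ edges S) (h : Lo p k S A j Bad E P ζ W WP arcP)
    (hJ : ∀ s ∈ WP, ∀ t ∈ WP, ReflTransGen (PStep (op ζ ∩ (↑P : Set (ℤ × ℤ))ᶜ)) s t)
    (h1 : Rw (dk p k S A j \ Bad) (cld Bad (om p k A)) t l m (TD p k S A j Bad W))
    (h2 : Rw P ζ t l m arcP) (hZ : Nz E t Z)
    (hb1 : Bl (dk p k S A j \ Bad) (cld Bad (om p k A)) t Z) (hb2 : Bl P ζ t Z)
    (hrow : ∀ x : ℤ, t.1 - 1 ≤ x → x < t.1 + l → (x, t.2) ∈ E) :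
    Pr Q ((dk p k S A j \ Bad) \ Z) (opn Z (cld Bad (om p k A))) {ω | PC ω t (t.1 + l, t.2)} ≤
      Pr Q (P \ Z) (opn Z ζ) {ω | PC ω t (t.1 + l, t.2)} := by
  have g1 := hp.et
  have g2 := hp.el
  have g3 := hp.l4
  have hoc := h.oc hpoly hS hA
  refine sandZ hQ hQ1 hp h1 h2 h.sub h.subP hZ hb1 hb2 hrow ?_ ?_
  · intro s z hs hx hz hz' hzs
    left
    have hjo := h.jo hA hJ
    rw [omB_cld] at hjo
    refine rtg_oj (hjo s _ ⟨hs, hx, z, hz, hzs, hz'⟩ ⟨?_, ⟨(t.1 + l - 1, t.2), hrow _ ?_ ?_, ?_⟩,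
      (t.1 + l, t.2 - 1), ?_, ?_, Or.inr ?_⟩)
    · simp only; omega
    · omega
    · omega
    · exact ⟨Or.inr (by simp only; ring), Or.inl rfl⟩
    · intro k1
      exact h1.out _ _ (by omega) (by omega) (by omega) (by omega) (h.sub k1)
    · exact ⟨Or.inl rfl, Or.inr (by simp only; ring)⟩
    · exact (h1.cfg _ _ (by omega) (by omega) (by omega) (by omega)).2 ⟨rfl, le_rfl⟩
  · intro s z hs hx hz hz' hzs
    by_cases hzP : z ∈ P
    · exact Or.inl (hoc.off s hs hx z hzP hz hzs)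
    · have hz2 : ζ z = false := hz'.resolve_left hzP
      obtain ⟨x, hxE, hxs⟩ := hx
      rcases h2.nd s hs ⟨x, h.subP hxE, hxs⟩ ⟨z, hzP, hz2, hzs⟩ with k1 | k1
      · exact Or.inl (hoc.arc s k1 hs ⟨x, hxE, hxs⟩)
      · exact Or.inr k1

/-- **The frozen squares, `Bad` closed.** -/
theorem up_frz (hQ : 0 < Q) (hQ1 : Q ≤ 1) (hp : Par t l) (hpoly : IsPolygon p)
    (hS : Encloses p S) (hA : A ⊆ edges S) (h : Lo p k S A j Bad E P ζ W WP arcP)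
    (h0 : Rw (dk p k S A j) (om p k A) t l m' Ar)
    (h1 : Rw (dk p k S A j \ Bad) (cld Bad (om p k A)) t l m (TD p k S A j Bad W))
    (hZ : Nz E t Z) (hbl : Bl (dk p k S A j) (om p k A) t Z)
    (hrow : ∀ x : ℤ, t.1 - 1 ≤ x → x < t.1 + l → (x, t.2) ∈ E) :
    Pr Q (dk p k S A j \ Z) (opn Z (om p k A)) {ω | PC ω t (t.1 + l, t.2)} ≤
      Pr Q ((dk p k S A j \ Bad) \ Z) (opn Z (cld Bad (om p k A)))
          {ω | PC ω t (t.1 + l, t.2)} +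
        Pr Q (dk p k S A j \ Z) (opn Z (om p k A))
          {ω | ∃ s, Kx true 0 (dk p k S A j \ Z) Bad
            (Wc (dk p k S A j \ Z) (opn Z (om p k A))) ω s ∧ s ∈ UZ t l Z} := by
  have hsub : E ⊆ dk p k S A j := fun v hv => (mem_sdiff.1 (h.sub hv)).1
  refine frzZ_up hQ hQ1 hp h0 (hZ.mono hsub) hbl (fun x hx hx' => hsub (hrow x hx hx')) ?_ ?_
  · intro v hv
    exact mem_sdiff.2 ⟨h.bad hv, fun k1 => (mem_sdiff.1 (h.sub (hZ.sub k1))).2 hv⟩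
  · intro v hv s hs hvs
    obtain ⟨t', ht', k1⟩ := h.badj v hv s hs hvs
    obtain ⟨t'', ht'', k2⟩ := h.fr hpoly hS hA ht'
    exact h1.ar s ⟨t'', ht'', k1.trans k2⟩ hs

end Vale.Agent.P167.H364
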