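import Vale.Agent.P167.H364.LitT
import Vale.Agent.P167.H364.Opn

/-!
# P167, `0 < q < 4`, [GEO]: the literal inputs with frozen pairs

`AdmZ`, `fzZ`, `PTZ`, `GeoZAt`, `GeoZ` : as `N.BT.AdmT` (without `sld`), `fzT`, `PTz`, `GeoTAt'`, `GeoT'`.
`I_allZ`, `I_cmpZ`, `B_allZ`, `B_cmpZ` : the inputs of the combination.
-/

set_option autoImplicit false

namespace Vale.Agent.P167.H364

open Filter Topology Set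
open Relation (ReflTransGen)
open Vale.Agent.P153.M1 (Expl)
open Vale.Agent.P153.R2
open Vale.Agent.P145.FB (PStep)
open Vale.Agent.P167.QT
open Vale.Agent.P167.SLE (bq)
open Vale.Agent.P167.BR (hbox sites Jn)
open Vale.Agent.P167.E6 (Medial pt region)
open Vale.Agent.P167.H411 (exn Set6)
open Vale.Agent.P167.H192 (ro)
open Vale.Agent.P167.H718 (Dq)
open Vale.Agent.P167.H446.G
open Vale.Agent.P167.H375 (Sh domT extT arcw hT obsH)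

/-- Admissible pairs. -/
structure AdmZ (v₀ : ℤ × ℤ) (r R : ℤ) (Z : Finset (ℤ × ℤ)) (ζ : Cfg) : Prop where
  low : hbox v₀ r ⊆ Z
  sub : Z ⊆ hbox v₀ R
  conn : ∀ s ∈ sites Z, ∀ t ∈ sites Z, Even (s.1 + s.2) → Even (t.1 + t.2) →
    (∃ w : ℤ × ℤ, w ∉ Z ∧ v₀.2 ≤ w.2 ∧ s ∈ sites {w}) →
    (∃ w : ℤ × ℤ, w ∉ Z ∧ v₀.2 ≤ w.2 ∧ t ∈ sites {w}) →
    ReflTransGen (PStep (H632.cs true ζ ∩ (↑Z : Set (ℤ × ℤ)))) s t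

open Classical in
/-- The indicator of the event that `ω = ζ` on `Z` and that `Z` is joined to `W` by a primal path of
`D \ Z`. -/
noncomputable def fzZ (D Z : Finset (ℤ × ℤ)) (ζ : Cfg) (W : Set (ℤ × ℤ)) (ω : Cfg) : ℝ :=
  if (∀ v ∈ Z, ω v = ζ v) ∧ Jn true (D \ Z) ω (sites Z) W then 1 else 0

/-- Its probability in the enlarged shape. -/
noncomputable def PTZ (μ : ℝ) (N : ℕ) (v₀ : ℤ × ℤ) (P : Sh) (Z : Finset (ℤ × ℤ)) (ζ : Cfg) : ℝ :=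
  FK.Ex (2 * Real.cos μ) (domT N v₀ P) (extT N v₀ P) (fzZ (domT N v₀ P) Z ζ (arcw N v₀ P))

/-- The comparison for one lattice domain. -/
def GeoZAt {n : ℕ} (μ : ℝ) (X : Expl (Finset (Sym2 (ℤ × ℤ))) Medial)
    (w : Finset (Sym2 (ℤ × ℤ)) → ℝ) (p : ZMod n → ℤ × ℤ) (k : ℕ) (T R b M ε ε' r₀ r₁ : ℝ)
    (Shs : Set Sh) (P₀ : Sh) (N : ℕ) : Prop :=
  ∃ (v₀ : ℤ × ℤ) (Dc : Finset (ℤ × ℤ)) (W : Set (ℤ × ℤ)), Even (v₀.1 + v₀.2) ∧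
    ∀ κ : Finset (Sym2 (ℤ × ℤ)) → ℕ, QE.BefIx X T R κ →
      (∀ A ∈ X.C, ∀ (Z : Finset (ℤ × ℤ)) (ζ : Cfg), AdmZ v₀ ⌊r₀ * N⌋ ⌊r₁ * N⌋ Z ζ →
        QE.cexW X w (fun A' => fzZ Dc Z ζ W (H375.cf p k A')) A (κ A) ≤ M * PTZ μ N v₀ P₀ Z ζ) ∧
      QE.ExW X.C w ({A | ¬ ∃ P ∈ Shs, ∃ P' ∈ Shs,
        (∀ (Z : Finset (ℤ × ℤ)) (ζ : Cfg), AdmZ v₀ ⌊r₀ * N⌋ ⌊r₁ * N⌋ Z ζ →
          (1 - ε') * PTZ μ N v₀ P Z ζ ≤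
              QE.cexW X w (fun A' => fzZ Dc Z ζ W (H375.cf p k A')) A (κ A) ∧
            QE.cexW X w (fun A' => fzZ Dc Z ζ W (H375.cf p k A')) A (κ A) ≤
              (1 + ε') * PTZ μ N v₀ P' Z ζ) ∧
        ∀ Q : Sh, (Q = P ∨ Q = P') → ∀ u v u₀ w₀ : ℝ, Q.Pos u v → P₀.Pos u₀ w₀ →
          |((v * (1 - u)) / (w₀ * (1 - u₀))) ^ hT μ - obsH (hT μ) (X.W A) b (X.c A (κ A))| ≤
            ε}.indicator 1) ≤ ε'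

/-- **[GEOZ]** -/
def GeoZ (μ : ℝ) (ok : Sh → Prop) (K : QE.Cls) : Prop := ∀ (Φ : (ℝ × ℝ) ≃ₜ (ℝ × ℝ)) (ψ : ℂ → ℂ)
  (δ : ℕ → ℝ) (N k : ℕ → ℕ) (p : ∀ n, ZMod (N n) → ℤ × ℤ) (S : ℕ → Finset (ℤ × ℤ))
  (ψn : ℕ → ℂ → ℂ), Set6 Φ ψ δ N k p S ψn → K Φ δ N k p S → ∀ T R : ℝ, 0 ≤ T → 0 < R →
    ∃ b₁ : ℝ, ∀ b : ℝ, b₁ ≤ b → ∀ ε : ℝ, 0 < ε → ∃ M : ℝ, 0 < M ∧ ∀ ε' : ℝ, 0 < ε' →
      ∃ (Shs : Set Sh) (P₀ : ℕ → Sh) (r₁ : ℝ) (N' : ℕ → ℕ), Shs.Finite ∧ (∀ n, P₀ n ∈ Shs) ∧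
        (∀ P ∈ Shs, ok P ∧ ∃ u v, P.Pos u v) ∧ 0 < r₁ ∧ r₁ ≤ 1 ∧ Tendsto N' atTop atTop ∧
        (∀ n, 4 ∣ N' n) ∧ ∀ r₀ : ℝ, 0 < r₀ → ∀ᶠ n in atTop,
          GeoZAt μ (exn δ N k p S ψn n) (QE.wq ((2 * Real.cos μ) ^ 2) (N n) (p n) (k n) (S n)) (p n)
            (k n) T R b M ε ε' r₀ r₁ Shs (P₀ n) (N' n)

/-! ### The inputs -/

/-- The one sided comparison: `c = true` LOWER bound, `c = false` UPPER bound. -/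
def IneqZ (μ x : ℝ) (v₀ : ℤ × ℤ) (N : ℕ) (c : Bool) (ε' : ℝ) (P : Sh4) (Z : Finset (ℤ × ℤ))
    (ζ : Cfg) : Prop :=
  if c then (1 - ε') * PTZ μ N v₀ (toSh P) Z ζ ≤ x else x ≤ (1 + ε') * PTZ μ N v₀ (toSh P) Z ζ

section

variable (μ : ℝ) (C : Cst) (δ : ℕ → ℝ) (N k : ℕ → ℕ) (p : ∀ n, ZMod (N n) → ℤ × ℤ)
  (S : ℕ → Finset (ℤ × ℤ)) (ψn : ℕ → ℂ → ℂ)

/-- The conditional probability of a frozen pair, for the member `n` of the sequence. -/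
noncomputable def fnZ (n : ℕ) (A : Hst) (j : ℕ) (Z : Finset (ℤ × ℤ)) (ζ : Cfg) : ℝ :=
  QE.cexW (exn δ N k p S ψn n) (QE.wq ((2 * Real.cos μ) ^ 2) (N n) (p n) (k n) (S n))
    (fun A' => fzZ (Dq (S n) (p n) (k n)) Z ζ (wT (p n) (k n)) (H375.cf (p n) (k n) A')) A j

/-- **[ALL]** All histories are comparable. -/
def I_allZ : Prop :=
  ∃ M : ℝ, 0 < M ∧ ∃ s₀ : ℝ, 0 < s₀ ∧ ∀ s : ℝ, 0 < s → s ≤ s₀ → ∀ᶠ n in atTop,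
    ∀ (A : Hst) (j : ℕ) (A' : Hst) (j' : ℕ), Bef (exn δ N k p S ψn n) C.T C.R A j →
      Bef (exn δ N k p S ψn n) C.T C.R A' j' → ∀ (Z : Finset (ℤ × ℤ)) (ζ : Cfg),
        AdmZ (vd (p n) (k n) C.Ld s (δ n)) 1 (H446.G.Nn s (δ n) / 2 : ℕ) Z ζ →
          fnZ μ δ N k p S ψn n A j Z ζ ≤ M * fnZ μ δ N k p S ψn n A' j' Z ζ

/-- **[CMP]** The comparison of the laws. -/
def I_cmpZ : Prop :=
  ∀ ε' : ℝ, 0 < ε' → ∃ η : ℝ, 0 < η ∧ ∀ r : ℝ, 0 < r → ∃ s₀ : ℝ, 0 < s₀ ∧ ∀ s : ℝ, 0 < s → s ≤ s₀ →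
    ∀ᶠ n in atTop, ∀ (A : Hst) (j : ℕ),
      Bef (exn δ N k p S ψn n) C.T C.R A j → ∀ (c : Bool), ∀ P ∈ Fam C.Ld C.Lc C.m C.B s,
        Inp C (p n) (k n) (S n) (δ n) r s A j c P →
        prT μ C (p n) (k n) (S n) (δ n) r s A j c ≤ η → ∀ (Z : Finset (ℤ × ℤ)) (ζ : Cfg),
          AdmZ (vd (p n) (k n) C.Ld s (δ n)) 1 (H446.G.Nn s (δ n) / 2 : ℕ) Z ζ →
            IneqZ μ (fnZ μ δ N k p S ψn n A j Z ζ) (vd (p n) (k n) C.Ld s (δ n))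
              (H446.G.Nn s (δ n)) c ε' P Z ζ

end

/-- [ALL] -/
def B_allZ (μ : ℝ) : Prop := Blk fun _ _ δ N k p S ψn T R =>
  ∃ ρ : ℝ, 0 < ρ ∧ ∀ C : Cst, C.T = T → C.R = R → C.Sm ρ → I_allZ μ C δ N k p S ψn

/-- [CMP] -/
def B_cmpZ (μ : ℝ) : Prop := Blk fun _ _ δ N k p S ψn T R =>
  ∃ ρ : ℝ, 0 < ρ ∧ ∀ C : Cst, C.T = T → C.R = R → C.Sm ρ → I_cmpZ μ C δ N k p S ψn

/-- ROW GEO:COMB. `GeoZ` from the blocks. -/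
def GeoZOf (μ : ℝ) : Prop :=
  B_allZ μ → B_badT μ → B_cmpZ μ → B_shp → B_clT μ → GeoZ μ OkT (QE.Stair 3)

end Vale.Agent.P167.H364
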