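import Vale.Agent.P167.H364.Frz
import Vale.Agent.P167.H364.LbT
import Vale.Agent.P167.H364.LitZ
import Vale.Agent.P167.H72.SD.NS

/-!
# P167, `0 < q < 1`, [GEO]: mixing at `t` and the error terms, definitions
-/

set_option autoImplicit false

namespace Vale.Agent.P167.H364

open Finset Relation Vale.Agent.P167.FK
open Vale.Agent.P145.FB (PStep)
open Vale.Agent.P167.FKA (Cor)
open Vale.Agent.P167.H72.SD (NSup)

/-- The domain is a half plane in the box of radius `g + 2` of `t`, everything is closed below the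
line, `Z` is a small set at `t`. -/
structure FlZ (D : Finset (ℤ × ℤ)) (η : Cfg) (t : ℤ × ℤ) (g r : ℤ) (Z : Finset (ℤ × ℤ)) : Prop where
  good : Good η
  even : Even (t.1 + t.2)
  dom : ∀ v ∈ Bq t (g + 2), (v ∈ D ↔ t.2 ≤ v.2)
  cl : ∀ v ∈ Bq t (g + 2), v.2 < t.2 → η v = false
  low : BR.hbox t 1 ⊆ Z
  sub : Z ⊆ BR.hbox t r
  co : CoZ t Z

/-- A path of open squares of `D` off `H` from an even corner of `B` to a site of `H`. -/
def NOut (D B H : Finset (ℤ × ℤ)) : Set Cfg :=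
  {ω | ∃ s s' : ℤ × ℤ, (∃ v ∈ B, Cor v s) ∧ (s.1 + s.2) % 2 = 0 ∧ s' ∈ BR.sites H ∧
    ReflTransGen (PStep {v | v ∈ D ∧ v ∉ H ∧ ω v = true}) s s'}

/-- `π` is a bound of the arm of `Z` in the half box, for all conditions outside. -/
def ArmB (Q : ℝ) (t : ℤ × ℤ) (g : ℤ) (Z : Finset (ℤ × ℤ)) (π : ℝ) : Prop :=
  ∀ ξ : Cfg, Good ξ → (∀ x : ℤ, t.1 - g - 1 ≤ x → x ≤ t.1 + g → ξ (x, t.2 - 1) = false) →
    Pr Q (HBt t g \ Z) (opn Z ξ) (ArmT t g) ≤ π

end Vale.Agent.P167.H364
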