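import Vale.Agent.P167.H364.CmpG
import Vale.Agent.P167.H364.BadT
import Vale.Agent.P167.H712.ClT
import Vale.Agent.P167.H712.GeoP
import Vale.Agent.P167.H872.Asm.Shp

/-!
# P167, `0 < q < 1`, [GEO]: the geometric input `GeoT'`
-/

set_option autoImplicit false

namespace Vale.Agent.P167.H364

open Vale.Agent.P167.N.BT (GeoT')

/-- **[GEO]** -/
theorem geoT' {μ : ℝ} (h0 : 0 < μ) (h1 : μ < Real.pi / 2)
    (hQ : Vale.Agent.P167.N.Kit (2 * Real.cos μ)) : GeoT' μ OkT (QE.Stair 3) :=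
  H712.geoT'_of_blocks (by linarith [hQ.pos]) (b_allZ hQ) (b_badT h0 h1 hQ) (b_cmpZ hQ)
    H872.Asm.b_shp (H712.b_clT h0 h1)

end Vale.Agent.P167.H364
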