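import Vale.Agent.P167.H364.Opn

/-!
# P167, `0 < Q ≤ 1`, [GEO]: frozen squares

`B ⊆ D` frozen squares, `a` the root square outside of `D`.
* `frz_lo` : the squares of `B` are frozen open; the closed clusters of the odd corners of `B` are
  explored; if they miss the bank `Y` then the conditional probability is at least that of the frozen
  domain;
* `frz_up` : the squares of `B` are frozen closed; the open clusters of the even corners of `B` are
  explored.
-/

set_option autoImplicit false

namespace Vale.Agent.P167.H364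

open Finset Relation Vale.Agent.P167.FK Vale.Agent.P167.H816
open Vale.Agent.P145.FB (PStep)
open Vale.Agent.P167.FKA (Cor)

/-- The free contact sites of `D`. -/
def Fc (D : Finset (ℤ × ℤ)) (η : Cfg) : Set (ℤ × ℤ) :=
  {s | Odd (s.1 + s.2) ∧ (∃ x ∈ D, Cor x s) ∧ ∃ z, z ∉ D ∧ η z = false ∧ Cor z s}

/-- The wired contact sites of `D`. -/
def Wc (D : Finset (ℤ × ℤ)) (η : Cfg) : Set (ℤ × ℤ) :=
  {s | Even (s.1 + s.2) ∧ (∃ x ∈ D, Cor x s) ∧ ∃ z, z ∉ D ∧ η z = true ∧ Cor z s}

/-- The explored sites (colour `c` of the squares): paths of squares of `D` of the colour `c` from the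
corners of `B` of the parity `par`, not through the sites of `F`. -/
inductive Kx (c : Bool) (par : ℤ) (D B : Finset (ℤ × ℤ)) (F : Set (ℤ × ℤ)) (ω : Cfg) :
    ℤ × ℤ → Prop
  | base {s v : ℤ × ℤ} : v ∈ B → Cor v s → (s.1 + s.2) % 2 = par → Kx c par D B F ω s
  | step {s s' v : ℤ × ℤ} : Kx c par D B F ω s → s ∉ F → v ∈ D → ω v = c → Cor v s → Cor v s' →
      (s'.1 + s'.2) % 2 = par → Kx c par D B F ω s'

section

variable {c : Bool} {par : ℤ} {D B : Finset (ℤ × ℤ)} {F : Set (ℤ × ℤ)} {ω ω' : Cfg}

theorem Kx.mod {s : ℤ × ℤ} (h : Kx c par D B F ω s) : (s.1 + s.2) % 2 = par := by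
  cases h with
  | base _ _ h => exact h
  | step _ _ _ _ _ _ h => exact h

theorem Kx.dom (hB : B ⊆ D) {s : ℤ × ℤ} (h : Kx c par D B F ω s) : ∃ x ∈ D, Cor x s := by
  cases h with
  | base h1 h2 _ => exact ⟨_, hB h1, h2⟩
  | step _ _ h1 _ _ h2 _ => exact ⟨_, h1, h2⟩

open Classical in
/-- The explored squares. -/
noncomputable def Ux (c : Bool) (par : ℤ) (D B : Finset (ℤ × ℤ)) (F : Set (ℤ × ℤ)) (ω : Cfg) :
    Finset (ℤ × ℤ) :=
  D.filter fun v => v ∈ B ∨ ∃ s, Kx c par D B F ω s ∧ s ∉ F ∧ Cor v s

theorem mem_Ux {v : ℤ × ℤ} : v ∈ Ux c par D B F ω ↔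
    v ∈ D ∧ (v ∈ B ∨ ∃ s, Kx c par D B F ω s ∧ s ∉ F ∧ Cor v s) := by
  classical
  unfold Ux
  rw [mem_filter]

theorem Kx.congr (h : ∀ v, v ∉ D \ Ux c par D B F ω → ω v = ω' v) {s : ℤ × ℤ} :
    Kx c par D B F ω s ↔ Kx c par D B F ω' s := by
  constructor
  · intro h1
    induction h1 with
    | base h1 h2 h3 => exact Kx.base h1 h2 h3
    | @step s s' v h1 h2 h3 h4 h5 h6 h7 ih =>
      refine Kx.step ih h2 h3 ?_ h5 h6 h7
      rw [← h v fun h8 => (mem_sdiff.1 h8).2 (mem_Ux.2 ⟨h3, Or.inr ⟨s, h1, h2, h5⟩⟩)]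
      exact h4
  · intro h1
    induction h1 with
    | base h1 h2 h3 => exact Kx.base h1 h2 h3
    | @step s s' v h1 h2 h3 h4 h5 h6 h7 ih =>
      refine Kx.step ih h2 h3 ?_ h5 h6 h7
      rw [h v fun h8 => (mem_sdiff.1 h8).2 (mem_Ux.2 ⟨h3, Or.inr ⟨s, ih, h2, h5⟩⟩)]
      exact h4

theorem Ux_congr (h : ∀ v, v ∉ D \ Ux c par D B F ω → ω v = ω' v) :
    Ux c par D B F ω' = Ux c par D B F ω := by
  ext v
  rw [mem_Ux, mem_Ux]
  simp only [Kx.congr h]

end

variable {Q : ℝ} {D B : Finset (ℤ × ℤ)} {η : Cfg} {a : ℤ × ℤ}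

theorem Pr_union_le (hQ : 0 < Q) (A B : Set Cfg) :
    Pr Q D η (A ∪ B) ≤ Pr Q D η A + Pr Q D η B := by
  unfold Pr
  rw [← FKA.Ex_add]
  refine FKA.Ex_mono hQ fun S _ => ?_
  by_cases h : cf D η S ∈ A
  · have h2 : cf D η S ∈ A ∪ B := Or.inl h
    rw [Set.indicator_of_mem h, Set.indicator_of_mem h2]
    have := FKA.ind_nonneg B (cf D η S)
    linarith
  · by_cases h' : cf D η S ∈ B
    · have h2 : cf D η S ∈ A ∪ B := Or.inr h'
      rw [Set.indicator_of_mem h', Set.indicator_of_mem h2]
      have := FKA.ind_nonneg A (cf D η S)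
      linarith
    · have h2 : cf D η S ∉ A ∪ B := fun h2 => h2.elim h h'
      rw [Set.indicator_of_notMem h2]
      have := FKA.ind_nonneg A (cf D η S)
      have := FKA.ind_nonneg B (cf D η S)
      linarith

/-- **Frozen open squares, lower bound.** -/
theorem frz_lo (hQ : 0 < Q) (hQ1 : Q ≤ 1) (hη : Good η) (hB : B ⊆ D) (haD : a ∉ D)
    (haη : η a = false)
    (Nu : ∀ s z, Even (s.1 + s.2) → (∃ x ∈ D, Cor x s) → z ∉ D → η z = true → Cor z s →
      PU a (cf D η ∅) s)
    (Nd : ∀ s z, Odd (s.1 + s.2) → (∃ x ∈ D, Cor x s) → z ∉ D → η z = false →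
      Cor z s → DX a (cf D (Function.update η a true) D) s)
    (Bj : ∀ v ∈ B, ∀ s, Even (s.1 + s.2) → Cor v s → PU a (cf (D \ B) (opn B η) ∅) s)
    {Y : Set (ℤ × ℤ)} (hx : da a ∈ Y) (hy : db a ∉ Y)
    (hY : ∀ b, b ∉ D → b ≠ a → η b = false → (da b ∈ Y ↔ db b ∈ Y)) :
    Pr Q (D \ B) (opn B η) {ω | PC ω (pa a) (pb a)} *
        Pr Q D η {ω | ∀ s, Kx false 1 D B (Fc D η) ω s → s ∉ Y} ≤
      Pr Q D η {ω | PC ω (pa a) (pb a)} := by
  classical
  set F := Fc D η with hF
  refine (stop_le (E := fun ω => D \ Ux false 1 D B F ω)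
    (A := {ω | ∀ s, Kx false 1 D B F ω s → s ∉ Y}) (F := {ω | PC ω (pa a) (pb a)}) hQ hη
    (fun ω => sdiff_subset) (fun ω ω' h => ?_) (fun ω ω' h => ?_)
    (fun S hS hA => ?_)).trans (FKA.Pr_mono hQ Set.inter_subset_right)
  · rw [Ux_congr h]
  · show (∀ s, _ → _) ↔ (∀ s, _ → _)
    simp only [Kx.congr h]
  · set ω := cf D η S with hω
    have hωg : Good ω := good_cf D hη S
    have hωo : ∀ v, v ∉ D → ω v = η v := fun v hv => cf_off hv
    set V := Ux false 1 D B F ω with hV
    have hVD : V ⊆ D := filter_subset _ _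
    have hBV : B ⊆ V := fun v hv => mem_Ux.2 ⟨hB hv, Or.inl hv⟩
    set E := D \ V with hE
    have hE' : ∀ b, b ∉ E ↔ b ∈ V ∨ b ∉ D := by
      intro b
      rw [hE, mem_sdiff]
      constructor
      · intro h
        by_cases h1 : b ∈ D
        · left
          by_contra h2
          exact h ⟨h1, h2⟩
        · exact Or.inr h1
      · rintro (h | h) ⟨h1, h2⟩
        · exact h2 h
        · exact h h1
    have hED : E ⊆ D := sdiff_subset
    have haE : a ∉ E := fun h => haD (hED h)
    have haV : a ∉ V := fun h => haD (hVD h)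
    -- the painted configuration
    set ωV : Cfg := opn V η with hωV
    have hωVg : Good ωV := good_opn hη
    have vt : ∀ b, ωV b = true ↔ b ∈ V ∨ η b = true := by
      intro b
      by_cases h : b ∈ V <;> simp [hωV, opn, h]
    have vf : ∀ b, ωV b = false ↔ b ∉ V ∧ η b = false := by
      intro b
      by_cases h : b ∈ V <;> simp [hωV, opn, h]
    -- the transfers
    have TU : ∀ s, PU a (cf D η ∅) s → PU a (cf E ωV ∅) s := fun s h => h.mono fun b hb => by
      obtain ⟨h1, h2⟩ := cf_emp_true.1 hb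
      exact cf_emp_true.2 ⟨fun h3 => h1 (hED h3), (vt b).2 (Or.inr h2)⟩
    have TD : ∀ s, DX a (cf D (Function.update η a true) D) s →
        DX a (cf E (Function.update ωV a true) E) s := fun s h => h.mono fun b hb => by
      obtain ⟨h1, h2⟩ := cf_self_false.1 hb
      have hba : b ≠ a := by rintro rfl; simp at h2
      rw [Function.update_of_ne hba] at h2
      refine cf_self_false.2 ⟨fun h5 => h1 (hED h5), ?_⟩
      rw [Function.update_of_ne hba]
      exact (vf b).2 ⟨fun h3 => h1 (hVD h3), h2⟩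
    -- the closed explored squares
    have hK : ∀ b ∈ V, ω b = false → ∀ s, Odd (s.1 + s.2) → Cor b s → Kx false 1 D B F ω s := by
      intro b hb hb' s hs hbs
      obtain ⟨h1, h2 | ⟨s1, h2, h3, h4⟩⟩ := mem_Ux.1 hb
      · exact Kx.base h2 hbs (odd_mod.1 hs)
      · exact Kx.step h2 h3 h1 hb' h4 hbs (odd_mod.1 hs)
    have hKF : ∀ s, Kx false 1 D B F ω s → (∃ x ∈ E, Cor x s) → s ∈ F := by
      rintro s hs ⟨x, hx, hxs⟩
      by_contra h
      exact (mem_sdiff.1 hx).2 (mem_Ux.2 ⟨hED hx, Or.inr ⟨s, hs, h, hxs⟩⟩)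
    -- (i) the same dual partition
    have i1 : Pr Q E ωV {ω | PC ω (pa a) (pb a)} ≤ Pr Q E ω {ω | PC ω (pa a) (pb a)} := by
      refine bks_bank hQ hQ1 hωg hωVg (subset_refl E) haE ?_ ?_ hx hy ?_ ?_
      · rw [hωo a haD]; exact haη
      · exact (vf a).2 ⟨haV, haη⟩
      · intro b hb hba hb'
        have h0 : ω b = false := by
          rcases hb' with h | h | h
          · exact absurd h hb
          · exact h
          · obtain ⟨h1, h2⟩ := (vf b).1 h
            rcases (hE' b).1 hb with h3 | h3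
            · exact absurd h3 h1
            · rw [hωo b h3]; exact h2
        rcases (hE' b).1 hb with h1 | h1
        · exact iff_of_false (hA _ (hK b h1 h0 _ (odd_da b) (cor_da b)))
            (hA _ (hK b h1 h0 _ (odd_db b) (cor_db b)))
        · refine hY b h1 hba ?_
          rw [← hωo b h1]; exact h0
      · intro b hb hba hb' s hbs hsE
        have hso := odd_Od hsE
        have hbs' : Cor b s := (cor_odd hso).2 hbs
        have hsE' := (mem_Od.1 hsE).2
        have hsD : ∃ x ∈ D, Cor x s := hsE'.imp fun x hx => ⟨hED hx.1, hx.2⟩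
        have h0 : ω b = false := by
          rcases hb' with h | h | h
          · exact absurd h hb
          · exact h
          · obtain ⟨h1, h2⟩ := (vf b).1 h
            rcases (hE' b).1 hb with h3 | h3
            · exact absurd h3 h1
            · rw [hωo b h3]; exact h2
        rcases (hE' b).1 hb with h1 | h1
        · obtain ⟨-, -, z, hz1, hz2, hz3⟩ := hKF s (hK b h1 h0 s hso hbs') hsE'
          exact TD s (Nd s z hso hsD hz1 hz2 hz3)
        · refine TD s (Nd s b hso hsD h1 ?_ hbs')
          rw [← hωo b h1]; exact h0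
    -- (ii) open squares attached to the boundary
    have hKU : ∀ s, Kx false 1 D B F ω s → s ∉ F → ∀ w o, Cor w s → Even (o.1 + o.2) → Cor w o →
        PU a (cf E ωV ∅) o := by
      have hop : ∀ s, Kx false 1 D B F ω s → s ∉ F → ∀ w, Cor w s → cf E ωV ∅ w = true := by
        intro s hs hsF w hw
        have hso : Odd (s.1 + s.2) := odd_mod.2 hs.mod
        by_cases h1 : w ∈ D
        · have h2 : w ∈ V := mem_Ux.2 ⟨h1, Or.inr ⟨s, hs, hsF, hw⟩⟩
          exact cf_emp_true.2 ⟨fun h3 => (mem_sdiff.1 h3).2 h2, (vt w).2 (Or.inl h2)⟩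
        · refine cf_emp_true.2 ⟨fun h3 => h1 (hED h3), (vt w).2 (Or.inr ?_)⟩
          by_contra h2
          exact hsF ⟨hso, hs.dom hB, w, h1, by simpa using h2, hw⟩
      have hB' : ∀ v ∈ B, ∀ o, Even (o.1 + o.2) → Cor v o → PU a (cf E ωV ∅) o := by
        intro v hv o ho hvo
        refine (Bj v hv o ho hvo).mono fun b hb => ?_
        obtain ⟨h1, h2⟩ := cf_emp_true.1 hb
        refine cf_emp_true.2 ⟨fun h3 => h1 (mem_sdiff.2 ⟨hED h3, fun h4 =>
          (mem_sdiff.1 h3).2 (hBV h4)⟩), (vt b).2 ?_⟩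
        by_cases h3 : b ∈ B
        · exact Or.inl (hBV h3)
        · right
          simpa [opn, h3] using h2
      intro s hs
      induction hs with
      | @base s v h1 h2 h3 =>
        intro hsF w o hw ho hwo
        have hso : Odd (s.1 + s.2) := odd_mod.2 h3
        have hs' : Kx false 1 D B F ω s := Kx.base h1 h2 h3
        exact (hB' v h1 (pa v) (even_pa v) (cor_pa v)).trans
          (PC_around hso (hop s hs' hsF) hw h2 ho (even_pa v) hwo (cor_pa v))
      | @step s s' v h1 h2 h3 h4 h5 h6 h7 ih =>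
        intro hsF w o hw ho hwo
        have hso : Odd (s'.1 + s'.2) := odd_mod.2 h7
        have hs' : Kx false 1 D B F ω s' := Kx.step h1 h2 h3 h4 h5 h6 h7
        exact (ih h2 v (pa v) h5 (even_pa v) (cor_pa v)).trans
          (PC_around hso (hop s' hs' hsF) hw h6 ho (even_pa v) hwo (cor_pa v))
    have i2 : Pr Q (D \ B) (opn B η) {ω | PC ω (pa a) (pb a)} ≤
        Pr Q E ωV {ω | PC ω (pa a) (pb a)} := by
      refine bk_mono hQ hQ1 (good_opn hη) hωVg ?_ (even_pa a) (even_pb a) ?_ ?_
      · intro b hb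
        exact mem_sdiff.2 ⟨hED hb, fun h => (mem_sdiff.1 hb).2 (hBV h)⟩
      · intro b hb hb'
        rw [vt]
        rcases (hE' b).1 hb with h1 | h1
        · exact Or.inl h1
        · right
          rcases hb' with h2 | h2
          · exact absurd (mem_sdiff.1 h2).1 h1
          · have h3 : b ∉ B := fun h => h1 (hB h)
            simpa [opn, h3] using h2
      · intro b hb hb' s hbs hsE
        have hse := even_Ev hsE
        have hbs' : Cor b s := (cor_even hse).2 hbs
        have hsD : ∃ x ∈ D, Cor x s := (mem_Ev.1 hsE).2.imp fun x hx => ⟨hED hx.1, hx.2⟩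
        by_cases h1 : b ∈ V
        · obtain ⟨h2, h3 | ⟨s1, h3, h4, h5⟩⟩ := mem_Ux.1 h1
          · refine (Bj b h3 s hse hbs').mono fun b hb => ?_
            obtain ⟨h1, h2⟩ := cf_emp_true.1 hb
            refine cf_emp_true.2 ⟨fun h3 => h1 (mem_sdiff.2 ⟨hED h3, fun h4 =>
              (mem_sdiff.1 h3).2 (hBV h4)⟩), (vt b).2 ?_⟩
            by_cases h3 : b ∈ B
            · exact Or.inl (hBV h3)
            · right
              simpa [opn, h3] using h2
          · exact hKU s1 h3 h4 b s h5 hse hbs'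
        · have h2 : b ∉ D := ((hE' b).1 hb).resolve_left h1
          have h3 : η b = true := ((vt b).1 hb').resolve_left h1
          exact TU s (Nu s b hse hsD h2 h3 hbs')
    exact i2.trans i1

/-- **Frozen closed squares, upper bound.** -/
theorem frz_up (hQ : 0 < Q) (hQ1 : Q ≤ 1) (hη : Good η) (hB : B ⊆ D) (haD : a ∉ D)
    (haη : η a = false) (hac : ∀ x ∈ D, ∀ s, Even (s.1 + s.2) → Cor x s → ¬ Cor a s)
    (Nu : ∀ s z, Even (s.1 + s.2) → (∃ x ∈ D, Cor x s) → z ∉ D → η z = true → Cor z s →
      PU a (cf D η ∅) s)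
    (Nd : ∀ s z, Odd (s.1 + s.2) → (∃ x ∈ D, Cor x s) → z ∉ D → η z = false →
      Cor z s → DX a (cf D (Function.update η a true) D) s)
    (Bj : ∀ v ∈ B, ∀ s, Odd (s.1 + s.2) → Cor v s →
      DX a (cf (D \ B) (Function.update (cld B η) a true) (D \ B)) s)
    {U : Set (ℤ × ℤ)} (hu : pa a ∈ U) (hv : pb a ∉ U)
    (hU : ∀ b, b ∉ D → η b = true → (pa b ∈ U ↔ pb b ∈ U)) :
    Pr Q D η {ω | PC ω (pa a) (pb a)} ≤
      Pr Q (D \ B) (cld B η) {ω | PC ω (pa a) (pb a)} +
        Pr Q D η {ω | ∃ s, Kx true 0 D B (Wc D η) ω s ∧ s ∈ U} := by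
  classical
  set F := Wc D η with hF
  set J : Set Cfg := {ω | PC ω (pa a) (pb a)} with hJ
  set A : Set Cfg := {ω | ∀ s, Kx true 0 D B F ω s → s ∉ U} with hA
  set f := Pr Q (D \ B) (cld B η) J with hf
  have hBa : a ∉ B := fun h => haD (hB h)
  have key : (1 - f) * Pr Q D η A ≤ Pr Q D η (A ∩ Jᶜ) := by
    refine stop_le (E := fun ω => D \ Ux true 0 D B F ω) hQ hη
      (fun ω => sdiff_subset) (fun ω ω' h => ?_) (fun ω ω' h => ?_)
      (fun S hS hA => ?_)
    · rw [Ux_congr h]
    · show (∀ s, _ → _) ↔ (∀ s, _ → _)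
      simp only [Kx.congr h]
    · set ω := cf D η S with hω
      have hωg : Good ω := good_cf D hη S
      have hωo : ∀ v, v ∉ D → ω v = η v := fun v hv => cf_off hv
      set V := Ux true 0 D B F ω with hV
      have hVD : V ⊆ D := filter_subset _ _
      have hBV : B ⊆ V := fun v hv => mem_Ux.2 ⟨hB hv, Or.inl hv⟩
      set E := D \ V with hE
      have hE' : ∀ b, b ∉ E ↔ b ∈ V ∨ b ∉ D := by
        intro b
        rw [hE, mem_sdiff]
        constructor
        · intro h
          by_cases h1 : b ∈ D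
          · left
            by_contra h2
            exact h ⟨h1, h2⟩
          · exact Or.inr h1
        · rintro (h | h) ⟨h1, h2⟩
          · exact h2 h
          · exact h h1
      have hED : E ⊆ D := sdiff_subset
      have haE : a ∉ E := fun h => haD (hED h)
      have haV : a ∉ V := fun h => haD (hVD h)
      -- the painted configuration
      set ωV : Cfg := cld V η with hωV
      have hωVg : Good ωV := good_cld hη
      have vt : ∀ b, ωV b = true ↔ b ∉ V ∧ η b = true := by
        intro b
        by_cases h : b ∈ V <;> simp [hωV, cld, h]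
      have vf : ∀ b, ωV b = false ↔ b ∈ V ∨ η b = false := by
        intro b
        by_cases h : b ∈ V <;> simp [hωV, cld, h]
      -- the transfers
      have TU : ∀ s, PU a (cf D η ∅) s → PU a (cf E ωV ∅) s := fun s h => h.mono fun b hb => by
        obtain ⟨h1, h2⟩ := cf_emp_true.1 hb
        exact cf_emp_true.2 ⟨fun h3 => h1 (hED h3), (vt b).2 ⟨fun h3 => h1 (hVD h3), h2⟩⟩
      have TD : ∀ s, DX a (cf D (Function.update η a true) D) s →
          DX a (cf E (Function.update ωV a true) E) s := fun s h => h.mono fun b hb => by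
        obtain ⟨h1, h2⟩ := cf_self_false.1 hb
        have hba : b ≠ a := by rintro rfl; simp at h2
        rw [Function.update_of_ne hba] at h2
        refine cf_self_false.2 ⟨fun h5 => h1 (hED h5), ?_⟩
        rw [Function.update_of_ne hba]
        exact (vf b).2 (Or.inr h2)
      -- the open explored squares
      have hK : ∀ b ∈ V, ω b = true → ∀ s, Even (s.1 + s.2) → Cor b s → Kx true 0 D B F ω s := by
        intro b hb hb' s hs hbs
        obtain ⟨h1, h2 | ⟨s1, h2, h3, h4⟩⟩ := mem_Ux.1 hb
        · exact Kx.base h2 hbs (even_mod.1 hs)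
        · exact Kx.step h2 h3 h1 hb' h4 hbs (even_mod.1 hs)
      have hKF : ∀ s, Kx true 0 D B F ω s → (∃ x ∈ E, Cor x s) → s ∈ F := by
        rintro s hs ⟨x, hx, hxs⟩
        by_contra h
        exact (mem_sdiff.1 hx).2 (mem_Ux.2 ⟨hED hx, Or.inr ⟨s, hs, h, hxs⟩⟩)
      -- (i) the same primal partition
      have i1 : Pr Q E ω J ≤ Pr Q E ωV J := by
        refine bk_bank hQ hQ1 hωg hωVg (subset_refl E) (even_pa a) (even_pb a) hu hv ?_ ?_
        · intro b hb hb'
          have h0 : ω b = true := by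
            rcases hb' with h | h | h
            · exact absurd h hb
            · exact h
            · obtain ⟨h1, h2⟩ := (vt b).1 h
              rcases (hE' b).1 hb with h3 | h3
              · exact absurd h3 h1
              · rw [hωo b h3]; exact h2
          rcases (hE' b).1 hb with h1 | h1
          · exact iff_of_false (hA _ (hK b h1 h0 _ (even_pa b) (cor_pa b)))
              (hA _ (hK b h1 h0 _ (even_pb b) (cor_pb b)))
          · refine hU b h1 ?_
            rw [← hωo b h1]; exact h0
        · intro b hb hb' s hbs hsE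
          have hse := even_Ev hsE
          have hbs' : Cor b s := (cor_even hse).2 hbs
          have hsE' := (mem_Ev.1 hsE).2
          have hsD : ∃ x ∈ D, Cor x s := hsE'.imp fun x hx => ⟨hED hx.1, hx.2⟩
          have h0 : ω b = true := by
            rcases hb' with h | h | h
            · exact absurd h hb
            · exact h
            · obtain ⟨h1, h2⟩ := (vt b).1 h
              rcases (hE' b).1 hb with h3 | h3
              · exact absurd h3 h1
              · rw [hωo b h3]; exact h2
          rcases (hE' b).1 hb with h1 | h1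
          · obtain ⟨-, -, z, hz1, hz2, hz3⟩ := hKF s (hK b h1 h0 s hse hbs') hsE'
            exact TU s (Nu s z hse hsD hz1 hz2 hz3)
          · refine TU s (Nu s b hse hsD h1 ?_ hbs')
            rw [← hωo b h1]; exact h0
      -- (ii) closed squares attached to the free boundary
      have hBD : ∀ v ∈ B, ∀ o, Odd (o.1 + o.2) → Cor v o →
          DX a (cf E (Function.update ωV a true) E) o := by
        intro v hv o ho hvo
        refine (Bj v hv o ho hvo).mono fun b hb => ?_
        obtain ⟨h1, h2⟩ := cf_self_false.1 hb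
        have hba : b ≠ a := by rintro rfl; simp at h2
        rw [Function.update_of_ne hba] at h2
        refine cf_self_false.2 ⟨fun h3 => h1 (mem_sdiff.2 ⟨hED h3, fun h4 =>
          (mem_sdiff.1 h3).2 (hBV h4)⟩), ?_⟩
        rw [Function.update_of_ne hba, vf]
        by_cases h3 : b ∈ B
        · exact Or.inl (hBV h3)
        · right
          simpa [cld, h3] using h2
      have hKU : ∀ s, Kx true 0 D B F ω s → s ∉ F → ∀ w o, Cor w s → Odd (o.1 + o.2) → Cor w o →
          DX a (cf E (Function.update ωV a true) E) o := by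
        have hop : ∀ s, Kx true 0 D B F ω s → s ∉ F → ∀ w, Cor w s → w ≠ a →
            cf E (Function.update ωV a true) E w = false := by
          intro s hs hsF w hw hwa
          have hso : Even (s.1 + s.2) := even_mod.2 hs.mod
          by_cases h1 : w ∈ D
          · have h2 : w ∈ V := mem_Ux.2 ⟨h1, Or.inr ⟨s, hs, hsF, hw⟩⟩
            refine cf_self_false.2 ⟨fun h3 => (mem_sdiff.1 h3).2 h2, ?_⟩
            rw [Function.update_of_ne hwa]
            exact (vf w).2 (Or.inl h2)
          · refine cf_self_false.2 ⟨fun h3 => h1 (hED h3), ?_⟩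
            rw [Function.update_of_ne hwa]
            refine (vf w).2 (Or.inr ?_)
            by_contra h2
            exact hsF ⟨hso, hs.dom hB, w, h1, by simpa using h2, hw⟩
        -- the four squares around a site of the exploration are not the root square
        have har : ∀ s, Kx true 0 D B F ω s → s ∉ F → ∀ w w' o o', Cor w s → Cor w' s →
            Odd (o.1 + o.2) → Odd (o'.1 + o'.2) → Cor w o → Cor w' o' →
            DX a (cf E (Function.update ωV a true) E) o' →
            DX a (cf E (Function.update ωV a true) E) o := by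
          intro s hs hsF w w' o o' hw hw' ho ho' hwo hwo' hd
          have hso : Even (s.1 + s.2) := even_mod.2 hs.mod
          obtain ⟨x, hx, hxs⟩ := hs.dom hB
          refine hd.trans (DC_around hso (fun w hw => hop s hs hsF w hw ?_) hw hw' ho ho' hwo hwo')
          rintro rfl
          exact hac x hx s hso hxs hw
        intro s hs
        induction hs with
        | @base s v h1 h2 h3 =>
          intro hsF w o hw ho hwo
          exact har s (Kx.base h1 h2 h3) hsF w v o (da v) hw h2 ho (odd_da v) hwo (cor_da v)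
            (hBD v h1 (da v) (odd_da v) (cor_da v))
        | @step s s' v h1 h2 h3 h4 h5 h6 h7 ih =>
          intro hsF w o hw ho hwo
          exact har s' (Kx.step h1 h2 h3 h4 h5 h6 h7) hsF w v o (da v) hw h6 ho (odd_da v) hwo
            (cor_da v) (ih h2 v (da v) h5 (odd_da v) (cor_da v))
      have i2 : Pr Q E ωV J ≤ f := by
        refine bks_mono hQ hQ1 (good_cld hη) hωVg ?_ ?_ ?_ ?_ ?_ ?_
        · intro b hb
          exact mem_sdiff.2 ⟨hED hb, fun h => (mem_sdiff.1 hb).2 (hBV h)⟩
        · exact fun h => haD (mem_sdiff.1 h).1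
        · simp [cld, hBa, haη]
        · exact (vf a).2 (Or.inr haη)
        · intro b hb hba hb'
          rw [vf]
          rcases (hE' b).1 hb with h1 | h1
          · exact Or.inl h1
          · right
            rcases hb' with h2 | h2
            · exact absurd (mem_sdiff.1 h2).1 h1
            · have h3 : b ∉ B := fun h => h1 (hB h)
              simpa [cld, h3] using h2
        · intro b hb hba hb' s hbs hsE
          have hso := odd_Od hsE
          have hbs' : Cor b s := (cor_odd hso).2 hbs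
          have hsD : ∃ x ∈ D, Cor x s := (mem_Od.1 hsE).2.imp fun x hx => ⟨hED hx.1, hx.2⟩
          by_cases h1 : b ∈ V
          · obtain ⟨h2, h3 | ⟨s1, h3, h4, h5⟩⟩ := mem_Ux.1 h1
            · exact hBD b h3 s hso hbs'
            · exact hKU s1 h3 h4 b s h5 hso hbs'
          · have h2 : b ∉ D := ((hE' b).1 hb).resolve_left h1
            have h3 : η b = false := ((vf b).1 hb').resolve_left h1
            exact TD s (Nd s b hso hsD h2 h3 hbs')
      rw [FKA.Pr_compl hQ]
      have := i1.trans i2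
      linarith
  have f0 : 0 ≤ f := FKA.Pr_nonneg hQ _
  have hA1 : Pr Q D η A ≤ 1 := FKA.Pr_le_one hQ _
  have e1 : Pr Q D η (A ∩ Jᶜ) + Pr Q D η (A ∩ J) ≤ Pr Q D η A := by
    unfold Pr
    rw [← FKA.Ex_add]
    refine FKA.Ex_mono hQ fun S _ => ?_
    rw [FKA.ind_inter, FKA.ind_inter, FKA.ind_compl]
    have := FKA.ind_nonneg A (cf D η S)
    nlinarith
  have e2 : Pr Q D η J ≤ Pr Q D η (A ∩ J) + Pr Q D η {ω | ∃ s, Kx true 0 D B F ω s ∧ s ∈ U} := by
    refine (FKA.Pr_mono hQ (fun ω hω => ?_)).trans (Pr_union_le hQ _ _)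
    by_cases h : ω ∈ A
    · exact Or.inl ⟨h, hω⟩
    · right
      simp only [hA, Set.mem_ofPred_eq] at h
      push Not at h
      exact h
  nlinarith

end Vale.Agent.P167.H364
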