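import Vale.Agent.P167.H364.Wd
import Vale.Agent.P167.H364.Frz
import Vale.Agent.P167.H167.Q.Mix

/-!
# P167, `0 < Q ≤ 1`, [GEO]: the root path

`hat t l ζ` : the path `rT t l` is open. The law of the squares of `D` does not change, `t` is joined
to the corner `pa` of the root square.
-/

set_option autoImplicit false

namespace Vale.Agent.P167.H364

open Finset Relation Vale.Agent.P167.FK Vale.Agent.P167.H816
open Vale.Agent.P145.FB (PStep)
open Vale.Agent.P167.FKA (Cor)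

/-- The root path is open. -/
noncomputable def hat (t : ℤ × ℤ) (l : ℤ) (ζ : Cfg) : Cfg := opn (rT t l) ζ

variable {D : Finset (ℤ × ℤ)} {ζ ω : Cfg} {t : ℤ × ℤ} {l : ℤ}

theorem mem_rT {v : ℤ × ℤ} : v ∈ rT t l ↔
    (v.1 = t.1 ∧ v.2 = t.2 - 1) ∨ (v.2 = t.2 - 2 ∧ t.1 < v.1 ∧ v.1 < t.1 + l) := by
  obtain ⟨v1, v2⟩ := v
  simp only [rT, mem_insert, mem_image, mem_Ioo, Prod.mk.injEq]
  constructor
  · rintro (h | ⟨x, ⟨h1, h2⟩, h3, h4⟩)
    · exact Or.inl h
    · exact Or.inr ⟨h4.symm, by omega, by omega⟩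
  · rintro (h | ⟨h1, h2, h3⟩)
    · exact Or.inl h
    · exact Or.inr ⟨v1, ⟨h2, h3⟩, rfl, h1.symm⟩

/-! ### Rows -/

/-- The site of the parity `p` of the row `y` in the column `x`. -/
def zz (p y x : ℤ) : ℤ × ℤ := (x, if (x + y) % 2 = p then y else y + 1)

theorem row_step {F : Set (ℤ × ℤ)} {p y x : ℤ} (hp : p = 0 ∨ p = 1) (h : (x, y) ∈ F) :
    PStep F (zz p y x) (zz p y (x + 1)) := by
  unfold zz
  by_cases h1 : (x + y) % 2 = p
  · have h2 : ¬ (x + 1 + y) % 2 = p := by omega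
    rw [if_pos h1, if_neg h2]
    refine ⟨Or.inl rfl, Or.inl rfl, ?_⟩
    convert h using 1
    ext <;> simp
  · have h2 : (x + 1 + y) % 2 = p := by omega
    rw [if_neg h1, if_pos h2]
    refine ⟨Or.inl rfl, Or.inr (by simp), ?_⟩
    convert h using 1
    ext <;> simp

/-- The sites of a row of squares of `F` are joined. -/
theorem row_rtg {F : Set (ℤ × ℤ)} {p y a b : ℤ} (hp : p = 0 ∨ p = 1) (hab : a ≤ b)
    (h : ∀ x, a ≤ x → x < b → (x, y) ∈ F) :
    ReflTransGen (PStep F) (zz p y a) (zz p y b) := by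
  obtain ⟨m, hm⟩ : ∃ m : ℕ, b = a + m := ⟨(b - a).toNat, by omega⟩
  subst hm
  induction m with
  | zero => rw [Nat.cast_zero, add_zero]
  | succ m ih =>
    have h1 := ih (by omega) fun x h1 h2 => h x h1 (by push_cast; omega)
    have h2 : PStep F (zz p y (a + m)) (zz p y (a + m + 1)) :=
      row_step hp (h _ (by omega) (by push_cast; omega))
    refine h1.tail ?_
    rw [show a + ((m + 1 : ℕ) : ℤ) = a + m + 1 by push_cast; ring]
    exact h2

theorem pstep_symm {F : Set (ℤ × ℤ)} {u v : ℤ × ℤ} (h : PStep F u v) : PStep F v u := by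
  obtain ⟨h1, h2, h3⟩ := h
  refine ⟨by omega, by omega, ?_⟩
  rw [min_comm v.1, min_comm v.2]
  exact h3

theorem rtg_symm' {F : Set (ℤ × ℤ)} {u v : ℤ × ℤ} (h : ReflTransGen (PStep F) u v) :
    ReflTransGen (PStep F) v u := FKA.rtg_symm h

theorem rtg_mono' {F F' : Set (ℤ × ℤ)} (h : F ⊆ F') {s t : ℤ × ℤ}
    (h1 : ReflTransGen (PStep F) s t) : ReflTransGen (PStep F') s t :=
  ReflTransGen.mono (fun _ _ hab => ⟨hab.1, hab.2.1, h hab.2.2⟩) _ _ h1

/-! ### The root square -/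

/-- The parities. -/
structure Par (t : ℤ × ℤ) (l : ℤ) : Prop where
  et : (t.1 + t.2) % 2 = 0
  el : l % 2 = 0
  l4 : 4 ≤ l

theorem Par.ev (h : Par t l) : Even ((ra t l).1 + (ra t l).2) := by
  obtain ⟨h1, h2, h3⟩ := h
  rw [Int.even_iff]
  simp only [ra]
  omega

theorem Par.pa (h : Par t l) : pa (ra t l) = (t.1 + l, t.2 - 2) := by
  unfold FK.pa
  rw [if_pos h.ev]
  rfl

theorem Par.pb (h : Par t l) : pb (ra t l) = (t.1 + l + 1, t.2 - 1) := by
  unfold FK.pb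
  rw [if_pos h.ev]
  simp only [ra, Prod.mk.injEq, true_and]
  ring

theorem Par.da (h : Par t l) : da (ra t l) = (t.1 + l, t.2 - 1) := by
  unfold FK.da
  rw [if_pos h.ev]
  simp only [ra, Prod.mk.injEq, true_and]
  ring

theorem Par.db (h : Par t l) : db (ra t l) = (t.1 + l + 1, t.2 - 2) := by
  unfold FK.db
  rw [if_pos h.ev]
  rfl

theorem ra_nmem : ra t l ∉ rT t l := by
  rw [mem_rT]
  simp only [ra]
  omega

/-! ### The root bank -/

/-- `t` and the sites of the root path. -/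
def U0 (t : ℤ × ℤ) (l : ℤ) : Set (ℤ × ℤ) :=
  {s | s = t ∨ ((s.1 + s.2) % 2 = 0 ∧ ((s.2 = t.2 - 1 ∧ t.1 < s.1 ∧ s.1 < t.1 + l) ∨
    (s.2 = t.2 - 2 ∧ t.1 < s.1 ∧ s.1 ≤ t.1 + l)))}

/-- The dual bank between `t` and `b`. -/
def Y0 (t : ℤ × ℤ) (l : ℤ) : Set (ℤ × ℤ) :=
  {s | (s.1 + s.2) % 2 = 1 ∧ ((s.2 = t.2 ∧ t.1 < s.1 ∧ s.1 < t.1 + l) ∨
    (s.2 = t.2 - 1 ∧ t.1 < s.1 ∧ s.1 ≤ t.1 + l))}

theorem hat_true {v : ℤ × ℤ} : hat t l ζ v = true ↔ v ∈ rT t l ∨ ζ v = true := opn_true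

theorem hat_false {v : ℤ × ℤ} : hat t l ζ v = false ↔ v ∉ rT t l ∧ ζ v = false := opn_false

theorem Win.rT_out (h : Win D ζ t l) (hp : Par t l) {v : ℤ × ℤ} (hv : v ∈ rT t l) :
    v ∉ D ∧ ζ v = false := by
  obtain ⟨h1, h2, h3⟩ := hp
  rw [mem_rT] at hv
  obtain ⟨v1, v2⟩ := v
  simp only at hv
  have a1 := h.out v1 v2 (by omega) (by omega) (by omega) (by omega)
  refine ⟨a1, ?_⟩
  rw [← Bool.not_eq_true, h.cfg v1 v2 (by omega) (by omega) (by omega) (by omega)]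
  omega

theorem Win.ra_out (h : Win D ζ t l) (hp : Par t l) : ra t l ∉ D ∧ ζ (ra t l) = false := by
  obtain ⟨h1, h2, h3⟩ := hp
  unfold ra
  have a1 := h.out (t.1 + l) (t.2 - 2) (by omega) (by omega) (by omega) (by omega)
  refine ⟨a1, ?_⟩
  rw [← Bool.not_eq_true, h.cfg _ _ (by omega) (by omega) (by omega) (by omega)]
  omega

theorem Win.hat_ra (h : Win D ζ t l) (hp : Par t l) : hat t l ζ (ra t l) = false :=
  hat_false.2 ⟨ra_nmem, (h.ra_out hp).2⟩

/-- The squares which are open off `D` for the hat. -/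
theorem cfe_hat {v : ℤ × ℤ} : cf D (hat t l ζ) ∅ v = true ↔ v ∉ D ∧ (v ∈ rT t l ∨ ζ v = true) := by
  rw [cf_emp_true, hat_true]

theorem cfs_hat {v : ℤ × ℤ} : cf D (Function.update (hat t l ζ) (ra t l) true) D v = false ↔
    v ∉ D ∧ ζ v = false ∧ v ∉ rT t l ∧ v ≠ ra t l := by
  rw [cf_self_false]
  constructor
  · rintro ⟨h1, h2⟩
    have hva : v ≠ ra t l := by rintro rfl; simp at h2
    rw [Function.update_of_ne hva, hat_false] at h2
    exact ⟨h1, h2.2, h2.1, hva⟩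
  · rintro ⟨h1, h2, h3, h4⟩
    refine ⟨h1, ?_⟩
    rw [Function.update_of_ne h4, hat_false]
    exact ⟨h3, h2⟩

theorem DC_hat {s s' : ℤ × ℤ} :
    DC (cf D (Function.update (hat t l ζ) (ra t l) true) D) s s' ↔ CJ D ζ t l s s' := by
  have e : ((op (cf D (Function.update (hat t l ζ) (ra t l) true) D))ᶜ : Set (ℤ × ℤ)) =
      {v | v ∉ D ∧ ζ v = false ∧ v ∉ rT t l ∧ v ≠ ra t l} := by
    ext v
    simp only [op, Set.mem_compl_iff, Set.mem_ofPred_eq, Bool.not_eq_true]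
    exact cfs_hat
  unfold DC CJ
  rw [e]

/-- The path from `t` to the root square. -/
theorem Win.path (h : Win D ζ t l) (hp : Par t l) : PC (cf D (hat t l ζ) ∅) t (pa (ra t l)) := by
  have hp' := hp
  obtain ⟨h1, h2, h3⟩ := hp'
  rw [hp.pa]
  have hm : ∀ v ∈ rT t l, v ∈ op (cf D (hat t l ζ) ∅) := fun v hv =>
    cfe_hat.2 ⟨(h.rT_out hp hv).1, Or.inl hv⟩
  have e1 : zz 0 (t.2 - 2) (t.1 + 1) = (t.1 + 1, t.2 - 1) := by
    unfold zz
    rw [if_neg (by omega)]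
    simp only [Prod.mk.injEq, true_and]
    ring
  have e2 : zz 0 (t.2 - 2) (t.1 + l) = (t.1 + l, t.2 - 2) := by
    unfold zz
    rw [if_pos (by omega)]
  have s1 : PStep (op (cf D (hat t l ζ) ∅)) t (t.1 + 1, t.2 - 1) := by
    refine ⟨Or.inl rfl, Or.inr rfl, hm _ (mem_rT.2 (Or.inl ⟨?_, ?_⟩))⟩ <;> simp
  have s2 : ReflTransGen (PStep (op (cf D (hat t l ζ) ∅))) (zz 0 (t.2 - 2) (t.1 + 1))
      (zz 0 (t.2 - 2) (t.1 + l)) :=
    row_rtg (Or.inl rfl) (by omega) fun x hx hx' => hm _ (mem_rT.2 (Or.inr ⟨rfl, by omega, hx'⟩))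
  rw [e1, e2] at s2
  exact ReflTransGen.head s1 s2

/-- `b` is joined to the root square. -/
theorem Win.bpath (h : Win D ζ t l) (hp : Par t l) :
    PC (cf D (hat t l ζ) ∅) (t.1 + l, t.2) (pb (ra t l)) := by
  have hp' := hp
  obtain ⟨h1, h2, h3⟩ := hp'
  rw [hp.pb]
  refine ReflTransGen.single ⟨Or.inl rfl, Or.inr rfl, ?_⟩
  have e : (min (t.1 + l) (t.1 + l + 1), min t.2 (t.2 - 1)) = (t.1 + l, t.2 - 1) := by
    ext <;> simp
  rw [e]
  exact cfe_hat.2 ⟨h.out _ _ (by omega) (by omega) (by omega) (by omega),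
    Or.inr ((h.cfg _ _ (by omega) (by omega) (by omega) (by omega)).2 ⟨rfl, le_rfl⟩)⟩

theorem OJ.pc {s s' : ℤ × ℤ} (h : OJ D ζ s s') : PC (cf D (hat t l ζ) ∅) s s' :=
  rtg_mono' (fun v hv => cfe_hat.2 ⟨hv.1, Or.inr hv.2⟩) h

theorem OJ.symm {s s' : ℤ × ℤ} (h : OJ D ζ s s') : OJ D ζ s' s := rtg_symm' h

theorem CJ.symm {s s' : ℤ × ℤ} (h : CJ D ζ t l s s') : CJ D ζ t l s' s := rtg_symm' h

theorem OJ.trans {s s' s'' : ℤ × ℤ} (h : OJ D ζ s s') (h' : OJ D ζ s' s'') : OJ D ζ s s'' :=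
  ReflTransGen.trans h h'

theorem CJ.trans {s s' s'' : ℤ × ℤ} (h : CJ D ζ t l s s') (h' : CJ D ζ t l s' s'') :
    CJ D ζ t l s s'' := ReflTransGen.trans h h'

theorem Win.pu_b (h : Win D ζ t l) (hp : Par t l) {s : ℤ × ℤ} (hs : OJ D ζ s (t.1 + l, t.2)) :
    PU (ra t l) (cf D (hat t l ζ) ∅) s := Or.inr (hs.pc.trans (h.bpath hp))

theorem Win.pu_t (h : Win D ζ t l) (hp : Par t l) {s : ℤ × ℤ} (hs : OJ D ζ s t) :
    PU (ra t l) (cf D (hat t l ζ) ∅) s := Or.inl (hs.pc.trans (h.path hp))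

/-- The left neighbour of `t` is joined to `db`. -/
theorem Win.left (h : Win D ζ t l) (hp : Par t l) :
    CJ D ζ t l (t.1 - 1, t.2) (db (ra t l)) := by
  have hp' := hp
  obtain ⟨h1, h2, h3⟩ := hp'
  rw [hp.db]
  have hm : ∀ x y : ℤ, t.1 - 2 ≤ x → x ≤ t.1 + l + 2 → t.2 - 4 ≤ y → y < t.2 → x < t.1 + l →
      ¬ (x = t.1 ∧ y = t.2 - 1) → ¬ (y = t.2 - 2 ∧ t.1 < x) →
      (x, y) ∈ {v : ℤ × ℤ | v ∉ D ∧ ζ v = false ∧ v ∉ rT t l ∧ v ≠ ra t l} := by
    intro x y a1 a2 a3 a4 a5 a6 a7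
    refine ⟨h.out _ _ a1 a2 a3 a4, ?_, ?_, ?_⟩
    · rw [← Bool.not_eq_true, h.cfg _ _ a1 a2 a3 a4]
      omega
    · rw [mem_rT]
      simp only
      omega
    · intro e
      unfold ra at e
      rw [Prod.mk.injEq] at e
      omega
  have hm2 : (t.1 + l, t.2 - 3) ∈ {v : ℤ × ℤ | v ∉ D ∧ ζ v = false ∧ v ∉ rT t l ∧ v ≠ ra t l} := by
    refine ⟨h.out _ _ (by omega) (by omega) (by omega) (by omega), ?_, ?_, ?_⟩
    · rw [← Bool.not_eq_true, h.cfg _ _ (by omega) (by omega) (by omega) (by omega)]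
      omega
    · rw [mem_rT]
      simp only
      omega
    · intro e
      unfold ra at e
      rw [Prod.mk.injEq] at e
      omega
  have s1 : PStep {v : ℤ × ℤ | v ∉ D ∧ ζ v = false ∧ v ∉ rT t l ∧ v ≠ ra t l} (t.1 - 1, t.2)
      (t.1, t.2 - 1) := by
    refine ⟨Or.inl (by simp), Or.inr rfl, ?_⟩
    have e : (min (t.1 - 1) t.1, min t.2 (t.2 - 1)) = (t.1 - 1, t.2 - 1) := by
      ext <;> simp
    rw [e]
    exact hm _ _ (by omega) (by omega) (by omega) (by omega) (by omega) (by omega) (by omega)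
  have s2 : PStep {v : ℤ × ℤ | v ∉ D ∧ ζ v = false ∧ v ∉ rT t l ∧ v ≠ ra t l} (t.1, t.2 - 1)
      (t.1 + 1, t.2 - 2) := by
    refine ⟨Or.inl rfl, Or.inr (by ring), ?_⟩
    have e : (min t.1 (t.1 + 1), min (t.2 - 1) (t.2 - 2)) = (t.1, t.2 - 2) := by
      ext <;> simp
    rw [e]
    exact hm _ _ (by omega) (by omega) (by omega) (by omega) (by omega) (by omega) (by omega)
  have e1 : zz 1 (t.2 - 3) (t.1 + 1) = (t.1 + 1, t.2 - 2) := by
    unfold zz
    rw [if_neg (by omega)]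
    simp only [Prod.mk.injEq, true_and]
    ring
  have e2 : zz 1 (t.2 - 3) (t.1 + l + 1) = (t.1 + l + 1, t.2 - 2) := by
    unfold zz
    rw [if_neg (by omega)]
    simp only [Prod.mk.injEq, true_and]
    ring
  have s3 : ReflTransGen (PStep {v : ℤ × ℤ | v ∉ D ∧ ζ v = false ∧ v ∉ rT t l ∧ v ≠ ra t l})
      (zz 1 (t.2 - 3) (t.1 + 1)) (zz 1 (t.2 - 3) (t.1 + l + 1)) := by
    refine row_rtg (Or.inr rfl) (by omega) fun x hx hx' => ?_
    by_cases e : x = t.1 + l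
    · rw [e]; exact hm2
    · exact hm _ _ (by omega) (by omega) (by omega) (by omega) (by omega) (by omega) (by omega)
  rw [e1, e2] at s3
  exact ReflTransGen.head s1 (ReflTransGen.head s2 s3)

/-- The sites of the line between `t` and `b` are joined to `da`. -/
theorem Win.mid (h : Win D ζ t l) (hp : Par t l) {s : ℤ × ℤ} (hs : (s.1 + s.2) % 2 = 1)
    (h1 : s.2 = t.2) (h2 : t.1 < s.1) (h3 : s.1 < t.1 + l) : CJ D ζ t l s (da (ra t l)) := by
  have hp' := hp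
  obtain ⟨g1, g2, g3⟩ := hp'
  rw [hp.da]
  have e1 : zz 1 (t.2 - 1) s.1 = s := by
    unfold zz
    rw [if_neg (by omega)]
    ext
    · rfl
    · simp only
      omega
  have e2 : zz 1 (t.2 - 1) (t.1 + l) = (t.1 + l, t.2 - 1) := by
    unfold zz
    rw [if_pos (by omega)]
  have s3 : ReflTransGen (PStep {v : ℤ × ℤ | v ∉ D ∧ ζ v = false ∧ v ∉ rT t l ∧ v ≠ ra t l})
      (zz 1 (t.2 - 1) s.1) (zz 1 (t.2 - 1) (t.1 + l)) := by
    refine row_rtg (Or.inr rfl) (by omega) fun x hx hx' => ?_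
    refine ⟨h.out _ _ (by omega) (by omega) (by omega) (by omega), ?_, ?_, ?_⟩
    · rw [← Bool.not_eq_true, h.cfg _ _ (by omega) (by omega) (by omega) (by omega)]
      omega
    · rw [mem_rT]
      simp only
      omega
    · intro e
      unfold ra at e
      rw [Prod.mk.injEq] at e
      omega
  rw [e1, e2] at s3
  exact s3

theorem Win.dx_left (h : Win D ζ t l) (hp : Par t l) {s : ℤ × ℤ}
    (hs : CJ D ζ t l s (t.1 - 1, t.2)) :
    DX (ra t l) (cf D (Function.update (hat t l ζ) (ra t l) true) D) s :=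
  Or.inr (DC_hat.2 (hs.trans (h.left hp)))

theorem Win.dx_mid (h : Win D ζ t l) (hp : Par t l) {s : ℤ × ℤ} (hs : (s.1 + s.2) % 2 = 1)
    (h1 : s.2 = t.2) (h2 : t.1 < s.1) (h3 : s.1 < t.1 + l) :
    DX (ra t l) (cf D (Function.update (hat t l ζ) (ra t l) true) D) s :=
  Or.inl (DC_hat.2 (h.mid hp hs h1 h2 h3))

/-- The sites of the line to the left of `t`. -/
theorem low_left (hp : Par t l) {a : ℤ}
    (hl : ∀ x : ℤ, a ≤ x → x < t.1 → (x, t.2 - 1) ∉ D ∧ ζ (x, t.2 - 1) = false)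
    {s : ℤ × ℤ} (hs : (s.1 + s.2) % 2 = 1) (h1 : s.2 = t.2) (h2 : a ≤ s.1) (h3 : s.1 < t.1) :
    CJ D ζ t l s (t.1 - 1, t.2) := by
  have hp' := hp
  obtain ⟨g1, g2, g3⟩ := hp'
  have e1 : zz 1 (t.2 - 1) s.1 = s := by
    unfold zz
    rw [if_neg (by omega)]
    ext
    · rfl
    · simp only
      omega
  have e2 : zz 1 (t.2 - 1) (t.1 - 1) = (t.1 - 1, t.2) := by
    unfold zz
    rw [if_neg (by omega)]
    simp only [Prod.mk.injEq, true_and]
    ring
  have s3 : ReflTransGen (PStep {v : ℤ × ℤ | v ∉ D ∧ ζ v = false ∧ v ∉ rT t l ∧ v ≠ ra t l})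
      (zz 1 (t.2 - 1) s.1) (zz 1 (t.2 - 1) (t.1 - 1)) := by
    refine row_rtg (Or.inr rfl) (by omega) fun x hx hx' => ?_
    obtain ⟨k1, k2⟩ := hl x (by omega) (by omega)
    refine ⟨k1, k2, ?_, ?_⟩
    · rw [mem_rT]
      simp only
      omega
    · intro e
      unfold ra at e
      rw [Prod.mk.injEq] at e
      omega
  rw [e1, e2] at s3
  exact s3

/-! ### The law -/

/-- Open squares at the sites of the root path are in the root path. -/
theorem Win.root_sq (h : Win D ζ t l) (hp : Par t l) {S : Finset (ℤ × ℤ)} {v s : ℤ × ℤ}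
    (hv : cf D ζ S v = true) (hs : s ∈ U0 t l) (hst : s ≠ t) (hvs : Cor v s) : False := by
  obtain ⟨g1, g2, g3⟩ := hp
  rcases hs with hs | ⟨hs1, hs2⟩
  · exact hst hs
  obtain ⟨v1, v2⟩ := v
  obtain ⟨c1, c2⟩ := hvs
  simp only at c1 c2
  have a1 := h.out v1 v2 (by omega) (by omega) (by omega) (by omega)
  have a2 := h.cfg v1 v2 (by omega) (by omega) (by omega) (by omega)
  rw [cf_off a1] at hv
  rw [a2] at hv
  omega

open Classical in
/-- The root path is contracted to `t`. -/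
noncomputable def ctr (t : ℤ × ℤ) (l : ℤ) (s : ℤ × ℤ) : ℤ × ℤ := if s ∈ U0 t l then t else s

theorem cf_hat_true {S : Finset (ℤ × ℤ)} {v : ℤ × ℤ} (h : cf D (hat t l ζ) S v = true) :
    v ∈ rT t l ∨ cf D ζ S v = true := by
  by_cases hv : v ∈ D
  · right
    simpa [cf, hv] using h
  · rw [cf_off hv] at h ⊢
    exact hat_true.1 h

theorem step_cor {F : Set (ℤ × ℤ)} {u v : ℤ × ℤ} (h : PStep F u v) :
    Cor (H816.sqr u v) u ∧ Cor (H816.sqr u v) v := by
  obtain ⟨h1, h2, -⟩ := h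
  unfold H816.sqr Cor
  simp only
  omega

theorem rT_U0 (hp : Par t l) {v s : ℤ × ℤ} (hv : v ∈ rT t l) (hs : (s.1 + s.2) % 2 = 0)
    (hvs : Cor v s) : s ∈ U0 t l := by
  obtain ⟨g1, g2, g3⟩ := hp
  rw [mem_rT] at hv
  obtain ⟨c1, c2⟩ := hvs
  by_cases hst : s = t
  · exact Or.inl hst
  right
  refine ⟨hs, ?_⟩
  have : ¬ (s.1 = t.1 ∧ s.2 = t.2) := fun h => hst (Prod.ext h.1 h.2)
  omega

theorem Win.ctr_path (h : Win D ζ t l) (hp : Par t l) {S : Finset (ℤ × ℤ)} {s s' : ℤ × ℤ}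
    (hs : (s.1 + s.2) % 2 = 0) (h1 : PC (cf D (hat t l ζ) S) s s') :
    PC (cf D ζ S) (ctr t l s) (ctr t l s') := by
  induction h1 using ReflTransGen.head_induction_on with
  | refl => exact ReflTransGen.refl
  | @head a c h1 h2 ih =>
    have hc : (c.1 + c.2) % 2 = 0 := by
      have := even_step h1 (even_mod.2 hs)
      exact even_mod.1 this
    refine ReflTransGen.trans ?_ (ih hc)
    have h3 : cf D (hat t l ζ) S (H816.sqr a c) = true := h1.2.2
    obtain ⟨c1, c2⟩ := step_cor h1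
    rcases cf_hat_true h3 with h4 | h4
    · have e1 := rT_U0 hp h4 hs c1
      have e2 := rT_U0 hp h4 hc c2
      unfold ctr
      rw [if_pos e1, if_pos e2]
    · have e1 : ctr t l a = a := by
        unfold ctr
        split_ifs with h5
        · by_contra h6
          exact h.root_sq hp h4 h5 (fun h7 => h6 h7.symm) c1
        · rfl
      have e2 : ctr t l c = c := by
        unfold ctr
        split_ifs with h5
        · by_contra h6
          exact h.root_sq hp h4 h5 (fun h7 => h6 h7.symm) c2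
        · rfl
      rw [e1, e2]
      exact ReflTransGen.single ⟨h1.1, h1.2.1, h4⟩

theorem cf_le_hat {S : Finset (ℤ × ℤ)} {v : ℤ × ℤ} (h : cf D ζ S v = true) :
    cf D (hat t l ζ) S v = true := by
  by_cases hv : v ∈ D
  · simpa [cf, hv] using h
  · rw [cf_off hv] at h ⊢
    exact hat_true.2 (Or.inr h)

theorem Win.ctr_of (h : Win D ζ t l) {s : ℤ × ℤ} (hs : ∃ x ∈ D, Cor x s) (hp : Par t l) :
    ctr t l s = s := by
  obtain ⟨g1, g2, g3⟩ := hp
  unfold ctr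
  split_ifs with h5
  · obtain ⟨x, hx, hxs⟩ := hs
    rcases h5 with h5 | ⟨h5, h6⟩
    · exact h5.symm
    · exfalso
      obtain ⟨x1, x2⟩ := x
      obtain ⟨c1, c2⟩ := hxs
      simp only at c1 c2
      exact h.out x1 x2 (by omega) (by omega) (by omega) (by omega) hx
  · rfl

theorem ctr_t : ctr t l t = t := by
  unfold ctr
  split_ifs <;> rfl

theorem ctr_b (hp : Par t l) : ctr t l (t.1 + l, t.2) = (t.1 + l, t.2) := by
  obtain ⟨g1, g2, g3⟩ := hp
  unfold ctr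
  rw [if_neg]
  rintro (h | ⟨-, h⟩)
  · have := congrArg Prod.fst h
    simp only at this
    omega
  · simp only at h
    omega

/-- **The law on `D` does not see the root path.** -/
theorem Win.ex_hat {Q : ℝ} (hQ : 0 < Q) (h : Win D ζ t l) (hp : Par t l) (hζ : Good ζ)
    {F : Cfg → ℝ} (hF : FKA.Loc D F) : Ex Q D (hat t l ζ) F = Ex Q D ζ F := by
  refine H167.Q.Ex_eq_of_PC hQ (good_opn hζ) hζ (fun S hS a ha _ => ?_) hF
  constructor
  · intro h1
    have h2 := h.ctr_path hp (even_mod.1 (even_pa a)) h1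
    rwa [h.ctr_of ⟨a, ha, cor_pa a⟩ hp, h.ctr_of ⟨a, ha, cor_pb a⟩ hp] at h2
  · exact fun h1 => PC_mono' h1 fun v hv => cf_le_hat hv

theorem Win.pc_hat (h : Win D ζ t l) (hp : Par t l) {S : Finset (ℤ × ℤ)} :
    PC (cf D (hat t l ζ) S) (pa (ra t l)) (pb (ra t l)) ↔ PC (cf D ζ S) t (t.1 + l, t.2) := by
  have hm : ∀ v, cf D (hat t l ζ) ∅ v = true → cf D (hat t l ζ) S v = true := by
    intro v hv
    obtain ⟨h1, h2⟩ := cf_emp_true.1 hv
    rwa [cf_off h1]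
  have a1 := PC_mono' (h.path hp) hm
  have a2 := PC_mono' (h.bpath hp) hm
  constructor
  · intro h1
    have h2 : PC (cf D (hat t l ζ) S) t (t.1 + l, t.2) :=
      (a1.trans h1).trans (H816.PC_symm a2)
    have h3 := h.ctr_path hp hp.et h2
    rwa [ctr_t, ctr_b hp] at h3
  · intro h1
    have h2 : PC (cf D (hat t l ζ) S) t (t.1 + l, t.2) := PC_mono' h1 fun v hv => cf_le_hat hv
    exact ((H816.PC_symm a1).trans h2).trans a2

/-- **The root path does not change the probability.** -/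
theorem Win.pr_hat {Q : ℝ} (hQ : 0 < Q) (h : Win D ζ t l) (hp : Par t l) (hζ : Good ζ) :
    Pr Q D (hat t l ζ) {ω | PC ω (pa (ra t l)) (pb (ra t l))} =
      Pr Q D ζ {ω | PC ω t (t.1 + l, t.2)} := by
  classical
  have hF : FKA.Loc D (fun ω : Cfg => ({ω | PC ω t (t.1 + l, t.2)} : Set Cfg).indicator (1 : Cfg → ℝ)
      (fun v => if v ∈ D then ω v else ζ v)) := by
    intro ω ω' hω
    have e : (fun v => if v ∈ D then ω v else ζ v) = fun v => if v ∈ D then ω' v else ζ v := by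
      funext v
      by_cases hv : v ∈ D
      · simp only [hv, if_true]
        exact hω v hv
      · simp only [hv, if_false]
    show Set.indicator _ _ (fun v => if v ∈ D then ω v else ζ v) =
      Set.indicator _ _ (fun v => if v ∈ D then ω' v else ζ v)
    rw [e]
  have e1 : ∀ (η : Cfg) (S : Finset (ℤ × ℤ)), (fun v => if v ∈ D then cf D η S v else ζ v) =
      cf D ζ S := by
    intro η S
    funext v
    by_cases hv : v ∈ D <;> simp [cf, hv]
  have k1 : Pr Q D (hat t l ζ) {ω | PC ω (pa (ra t l)) (pb (ra t l))} =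
      Ex Q D (hat t l ζ) (fun ω : Cfg =>
        ({ω | PC ω t (t.1 + l, t.2)} : Set Cfg).indicator (1 : Cfg → ℝ)
          (fun v => if v ∈ D then ω v else ζ v)) := by
    unfold Pr
    refine FKA.Ex_congr fun S hS => ?_
    rw [e1]
    by_cases h1 : PC (cf D ζ S) t (t.1 + l, t.2)
    · rw [Set.indicator_of_mem (show cf D (hat t l ζ) S ∈ _ from (h.pc_hat hp).2 h1),
        Set.indicator_of_mem (show cf D ζ S ∈ {ω | PC ω t (t.1 + l, t.2)} from h1)]
      rfl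
    · rw [Set.indicator_of_notMem (show cf D (hat t l ζ) S ∉ _ from fun h2 =>
        h1 ((h.pc_hat hp).1 h2)),
        Set.indicator_of_notMem (show cf D ζ S ∉ {ω | PC ω t (t.1 + l, t.2)} from h1)]
  rw [k1, h.ex_hat hQ hp hζ hF]
  unfold Pr
  refine FKA.Ex_congr fun S hS => ?_
  rw [e1]

end Vale.Agent.P167.H364
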