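import Vale.Agent.P167.H816.Stop
import Vale.Agent.P167.H72.SD.Lat3

/-!
# P167, `0 < q < 4`, [GEO]: the root square and the banks

`t` is an even site of a horizontal free side (squares of the domain above), `b = t + (l, 0)` is the
junction (wired to the right). `rT t l` is a path of squares below the line from `t`, `ra t l` is the
root square: its even corners are the end of the path and the site `b + (1, -1)` of the wired row.
`Bd D ζ t l` : outside of `D` every wired contact is joined to `b` and every free contact is joined to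
the left neighbour of `t` or lies between `t` and `b`.
-/

set_option autoImplicit false

namespace Vale.Agent.P167.H364

open Finset Relation Vale.Agent.P167.FK
open Vale.Agent.P145.FB (PStep)
open Vale.Agent.P167.FKA (Cor)

/-- The path of squares below `t`. -/
noncomputable def rT (t : ℤ × ℤ) (l : ℤ) : Finset (ℤ × ℤ) :=
  insert (t.1, t.2 - 1) ((Finset.Ioo t.1 (t.1 + l)).image fun x => (x, t.2 - 2))

/-- The root square. -/
def ra (t : ℤ × ℤ) (l : ℤ) : ℤ × ℤ := (t.1 + l, t.2 - 2)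

/-- The window below the line. -/
structure Win (D : Finset (ℤ × ℤ)) (ζ : Cfg) (t : ℤ × ℤ) (l : ℤ) : Prop where
  out : ∀ x y : ℤ, t.1 - 2 ≤ x → x ≤ t.1 + l + 2 → t.2 - 4 ≤ y → y < t.2 → (x, y) ∉ D
  cfg : ∀ x y : ℤ, t.1 - 2 ≤ x → x ≤ t.1 + l + 2 → t.2 - 4 ≤ y → y < t.2 →
    (ζ (x, y) = true ↔ y = t.2 - 1 ∧ t.1 + l ≤ x)

/-- Joined by open squares off `D`. -/
def OJ (D : Finset (ℤ × ℤ)) (ζ : Cfg) (s s' : ℤ × ℤ) : Prop :=
  ReflTransGen (PStep {v | v ∉ D ∧ ζ v = true}) s s'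

/-- Joined by closed squares off `D` which are not in the path and not the root square. -/
def CJ (D : Finset (ℤ × ℤ)) (ζ : Cfg) (t : ℤ × ℤ) (l : ℤ) (s s' : ℤ × ℤ) : Prop :=
  ReflTransGen (PStep {v | v ∉ D ∧ ζ v = false ∧ v ∉ rT t l ∧ v ≠ ra t l}) s s'

/-- The two arcs of the boundary. -/
structure Bd (D : Finset (ℤ × ℤ)) (ζ : Cfg) (t : ℤ × ℤ) (l : ℤ) : Prop extends Win D ζ t l where
  good : Good ζ
  nu : ∀ s, (s.1 + s.2) % 2 = 0 → (∃ x ∈ D, Cor x s) → (∃ z, z ∉ D ∧ ζ z = true ∧ Cor z s) →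
    OJ D ζ s (t.1 + l, t.2)
  nd : ∀ s, (s.1 + s.2) % 2 = 1 → (∃ x ∈ D, Cor x s) → (∃ z, z ∉ D ∧ ζ z = false ∧ Cor z s) →
    (s.2 = t.2 ∧ t.1 < s.1 ∧ s.1 < t.1 + l) ∨ CJ D ζ t l s (t.1 - 1, t.2)

end Vale.Agent.P167.H364
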