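import Vale.Agent.P167.H369.RootD
import Vale.Agent.P167.H364.Opn

/-!
# P167, `0 < q < 4`, [GEO]: the banks of a shape (2)

* `low_shape` : the squares below the line from `c` to `b` are closed;
* `nd_shape` : the free contact sites of a shape;
* `ftz_shape` : the event that a set `Z` is joined to the wired arc.
-/

set_option autoImplicit false

namespace Vale.Agent.P167.H364

open Finset Relation Vale.Agent.P167.FK Vale.Agent.P167.H816
open Vale.Agent.P145.FB (PStep)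
open Vale.Agent.P167.FKA (Cor)
open Vale.Agent.P167.E6 (IsPolygon Encloses dir face)
open Vale.Agent.P167.H825 (enl pdir)
open Vale.Agent.P167.QT (Sh4 dom arcc)
open Vale.Agent.P167.Enl (PN PN_add_l face0 face1 face2 face3)
open Vale.Agent.P167.H72.SD (mem_dom' mem_dom_add cor_add even_add Wr dom_joined)
open Vale.Agent.P167.H369

theorem xt_low {P : Sh4} (h : P.Ok 2) {N : ℕ} (hN : 16 ≤ N) {x : ℤ}
    (hx : (((P.j : ℤ) - P.l) - 1) * N ≤ x) (hx' : x < lb P N) :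
    (x, -1) ∉ enl P.S N ∧ xt N P (x, -1) = false := by
  have hN0 : 0 < N := by omega
  have hn := H369.nm (N := N) h
  have hlb := lb_eq (N := N) h
  have g1 : (N : ℤ) ≤ P.k * N := by exact_mod_cast hn.kN
  have g2 : (P.k : ℤ) * N + 3 * N ≤ P.j * N := by exact_mod_cast hn.kj
  have g3 : (P.j : ℤ) * N + 2 * N ≤ P.l * N := by exact_mod_cast hn.jl
  have g4 : (P.l : ℤ) * N + 2 * N ≤ P.m * N := by exact_mod_cast hn.lm
  have e0 : (((P.j : ℤ) - P.l) - 1) * N = P.j * N - P.l * N - N := by ring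
  have e1 : ((P.j : ℤ) - P.l - 2) * N = P.j * N - P.l * N - 2 * N := by ring
  have e2 : ((P.m : ℤ) - P.l + 1) * N = P.m * N - P.l * N + N := by ring
  have e3 : (P.m + 1) * N = P.m * N + N := by ring
  rw [e0] at hx
  refine ⟨enl_below h hN0 (by rw [e1]; omega) (by rw [e2]; omega) (by norm_num) (by omega), ?_⟩
  rw [← Bool.not_eq_true]
  intro ht
  rw [xt_true h hN0] at ht
  obtain ⟨-, i, i1, i2, i3, i4⟩ := ht
  obtain ⟨d, -, hd, -⟩ := PN_side hN0 h.poly h.encl i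
  have hs' : ∀ a : ℕ, PN P.q N i = PN P.q N a → ((P.m * N : ℕ) : ℤ) ∣ (i : ℤ) - a :=
    fun a => PN_dvd hN0 h.poly
  generalize PN P.q N i = z at *
  obtain ⟨X, Y⟩ := z
  obtain ⟨c1, c2⟩ := i4
  simp only at c1 c2
  have hY0 : Y = 0 := by
    by_contra hY
    have hf : X - 1 ≤ (face (X, Y) d).1 ∧ (face (X, Y) d).1 ≤ X ∧ Y - 1 ≤ (face (X, Y) d).2 ∧
        (face (X, Y) d).2 ≤ Y := by
      fin_cases d <;> simp only [Fin.zero_eta, Fin.mk_one, Fin.reduceFinMk, face0, face1, face2,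
        face3] <;> omega
    generalize face (X, Y) d = w at hd hf
    obtain ⟨x', y'⟩ := w
    simp only at hf
    exact enl_below h hN0 (by rw [e1]; omega) (by rw [e2]; omega) (by omega) (by omega) hd
  obtain ⟨a, ha⟩ : ∃ a : ℕ, (a : ℤ) = X + P.l * N :=
    ⟨(X + P.l * N).toNat, Int.toNat_of_nonneg (by omega)⟩
  have ha2 : a < (P.m + 1) * N := by
    rw [e3]
    have : (a : ℤ) < P.m * N + N := by omega
    exact_mod_cast this
  have ha1 : P.j * N ≤ a + 2 * N := by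
    have : (P.j : ℤ) * N ≤ a + 2 * N := by omega
    exact_mod_cast this
  obtain ⟨t, ht⟩ := hs' a (by
    rw [H369.PN_line h hN0 ha1 ha2, hY0, ha, add_sub_cancel_right])
  have i1' : ((N / 2 : ℕ) : ℤ) < i := by exact_mod_cast i1
  have i2' : (i : ℤ) < P.k * N + ((N / 2 : ℕ) : ℤ) := by exact_mod_cast i2
  have t1 : t < 0 := by
    by_contra hc
    push Not at hc
    have : 0 ≤ ((P.m * N : ℕ) : ℤ) * t := mul_nonneg (by positivity) hc
    omega
  have hmN : ((P.m * N : ℕ) : ℤ) = (P.m : ℤ) * N := by push_cast; rfl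
  rw [hmN] at ht
  have t2 : -1 < t := by
    by_contra hc
    push Not at hc
    have : (P.m : ℤ) * N * t ≤ (P.m : ℤ) * N * (-1) :=
      mul_le_mul_of_nonneg_left hc (by positivity)
    omega
  omega

theorem low_shape {P : Sh4} (h : P.Ok 2) {N : ℕ} (hN : 16 ≤ N) {v₀ : ℤ × ℤ} {x : ℤ}
    (hx : v₀.1 + (((P.j : ℤ) - P.l) - 1) * N ≤ x) (hx' : x < v₀.1 + lP P N) :
    (x, v₀.2 - 1) ∉ dom N v₀ P ∧ QT.ext N v₀ P (x, v₀.2 - 1) = false := by
  have e : ((x, v₀.2 - 1) : ℤ × ℤ) - v₀ = (x - v₀.1, -1) := by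
    obtain ⟨a, b⟩ := v₀
    rw [Prod.mk_sub_mk, Prod.mk.injEq]
    exact ⟨rfl, by simp only; ring⟩
  have hl : lP P N = lb P N := rfl
  rw [mem_dom', ext_eq, e]
  exact xt_low h hN (by linarith) (by rw [← hl]; linarith)

theorem nd_shape {P : Sh4} (h : P.Ok 2) {N : ℕ} (hN : 16 ≤ N) (h4 : 4 ∣ N) {v₀ : ℤ × ℤ}
    (hv : Even (v₀.1 + v₀.2)) {s : ℤ × ℤ} (hs : (s.1 + s.2) % 2 = 1)
    (hx : ∃ x ∈ dom N v₀ P, Cor x s)
    (hz : ∃ z, z ∉ dom N v₀ P ∧ QT.ext N v₀ P z = false ∧ Cor z s) :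
    s ∈ arcc N v₀ P ∨
      (s.2 = v₀.2 ∧ v₀.1 + ((P.j : ℤ) - P.l) * N < s.1 ∧ s.1 < v₀.1 + lP P N) := by
  have hN0 : 0 < N := by omega
  have hn := H369.nm (N := N) h
  have hlb := lb_eq (N := N) h
  have k1 := hn.kN
  have k2 := hn.kj
  have k3 := hn.jl
  have k4 := hn.lm
  have e3 : (P.m + 1) * N = P.m * N + N := by ring
  have hl : lP P N = lb P N := rfl
  have hle : P.l * N % 2 = 0 ∧ P.m * N % 2 = 0 ∧ N / 2 % 2 = 0 := by
    obtain ⟨c, rfl⟩ := h4
    rw [show P.l * (4 * c) = 2 * (2 * (P.l * c)) by ring,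
      show P.m * (4 * c) = 2 * (2 * (P.m * c)) by ring]
    omega
  have hkk : (P.k * N + N / 2) % 2 = 0 := by
    obtain ⟨c, rfl⟩ := h4
    rw [show P.k * (4 * c) = 2 * (2 * (P.k * c)) by ring]
    omega
  obtain ⟨x, x1, x2⟩ := hx
  obtain ⟨z, z1, z2, z3⟩ := hz
  rw [Int.even_iff] at hv
  obtain ⟨i, i1, i2, i3⟩ := exists_idx h hN0 (s := s - v₀) (x := x - v₀) (z := z - v₀)
    (mem_dom'.1 x1) (cor_sub' x2) (fun hc => z1 (mem_dom'.2 hc)) (cor_sub' z3)
  have hpar := PN_par hN0 (Dvd.dvd.trans (by norm_num) h4) h.poly i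
  rw [i3] at hpar
  simp only [Prod.fst_sub, Prod.snd_sub] at hpar
  have hodd : i % 2 = 1 := by omega
  have i4 : i ≤ P.m * N + N / 2 := by
    by_contra hc
    push Not at hc
    have h5 : xt N P (z - v₀) = true := by
      rw [xt_true h hN0]
      refine ⟨fun hc => z1 (mem_dom'.2 hc), i - P.m * N, by omega, by omega, ?_, ?_⟩
      · rw [← PN_add_l hN0 (i - P.m * N), Nat.sub_add_cancel (by omega), Int.even_iff, i3]
        simp only [Prod.fst_sub, Prod.snd_sub]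
        omega
      · rw [← PN_add_l hN0 (i - P.m * N), Nat.sub_add_cancel (by omega), i3]
        exact cor_sub' z3
    have h6 : xt N P (z - v₀) = false := z2
    rw [h5] at h6
    exact absurd h6 (by simp)
  rcases Nat.lt_or_ge (P.j * N) i with h5 | h5
  · right
    rw [H369.PN_line h hN0 (by omega) (by rw [e3]; omega)] at i3
    have e4 : s.2 - v₀.2 = 0 := by
      have := congrArg Prod.snd i3
      exact this.symm
    have e5 : s.1 - v₀.1 = (i : ℤ) - P.l * N := by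
      have := congrArg Prod.fst i3
      exact this.symm
    have e6 : ((P.j : ℤ) - P.l) * N = P.j * N - P.l * N := by ring
    have h6 : (P.j : ℤ) * N < i := by exact_mod_cast h5
    have h7 : (i : ℤ) < P.m * N + ((N / 2 : ℕ) : ℤ) := by
      have : i < P.m * N + N / 2 := by omega
      exact_mod_cast this
    rw [e6, hl, hlb]
    refine ⟨by omega, by omega, by omega⟩
  · left
    exact ⟨i, i1, h5, by rw [i3, sub_add_cancel]⟩

theorem ftz_shape {P : Sh4} (h : P.Ok 2) {N : ℕ} (hN : 16 ≤ N) (h4 : 4 ∣ N) {v₀ : ℤ × ℤ}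
    (hv : Even (v₀.1 + v₀.2)) {Z : Finset (ℤ × ℤ)} (hZ : Z ⊆ dom N v₀ P) {ω : Cfg}
    (hω : ∀ v, v ∉ dom N v₀ P → ω v = QT.ext N v₀ P v)
    (hc : ∀ s ∈ BR.sites Z, Even (s.1 + s.2) → (∃ w ∈ dom N v₀ P, w ∉ Z ∧ Cor w s) →
      ReflTransGen (PStep (↑Z : Set (ℤ × ℤ))) v₀ s)
    (hl : ∀ s ∈ BR.sites Z, ∀ z, z ∉ dom N v₀ P → Cor z s → QT.ext N v₀ P z = false)
    (hv' : v₀ ∈ BR.sites Z) :
    BR.Jn true (dom N v₀ P \ Z) ω (↑(BR.sites Z))
        (H375.arcw N v₀ ⟨P.m, P.q, P.S, P.k, P.j, P.l⟩) ↔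
      PC (opn Z ω) v₀ (v₀.1 + lP P N, v₀.2) := by
  have hN0 : 0 < N := by omega
  have hn := H369.nm (N := N) h
  have hlb := lb_eq (N := N) h
  have e3 : (P.m + 1) * N = P.m * N + N := by ring
  have hll : lP P N = lb P N := rfl
  have k3 := hn.jl
  have k4 := hn.lm
  constructor
  · rintro ⟨u, hu, t, ⟨i, i1, i2, i3⟩, hup, hp⟩
    have hue : Even (u.1 + u.2) := by
      rw [Int.even_iff]
      simpa [H632.pr] using hup
    have hp' : PC (opn Z ω) u t := rtg_mono (fun v hv' => opn_true.2 (Or.inr hv'.1)) hp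
    have hev : Even (t.1 + t.2) := by
      clear hp i3
      induction hp' with
      | refl => exact hue
      | tail _ h1 ih => exact even_step h1 ih
    have hi : i % 2 = 0 := by
      have hpar := PN_par hN0 (Dvd.dvd.trans (by norm_num) h4) h.poly i
      have i3' : PN P.q N i + v₀ = t := i3
      rw [← i3', even_add hv, Int.even_iff] at hev
      omega
    have hw : t ∈ Wr (dom N v₀ P) (QT.ext N v₀ P) := by
      have i3' : PN P.q N i + v₀ = t := i3
      rw [← i3']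
      exact wr_arc h hN h4 hv i1 i2 hi
    have h6 := dom_joined h.poly h.encl (by omega : 2 ≤ N) hv hw (wr_b h hN h4 hv)
    have h7 : PC (opn Z ω) t (v₀.1 + lP P N, v₀.2) := by
      refine rtg_mono ?_ h6
      rintro v ⟨v1, v2⟩
      refine opn_true.2 (Or.inr ?_)
      rw [hω v fun hc => v2 (mem_coe.2 hc)]
      exact v1
    have hu' : u ∈ BR.sites Z := hu
    rcases ReflTransGen.cases_head hp with h8 | ⟨c, h8, -⟩
    · exfalso
      subst h8
      obtain ⟨-, z, z1, z2, z3⟩ := hw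
      have := hl u hu' z z1 z3
      rw [z2] at this
      exact Bool.noConfusion this
    · obtain ⟨q1, q2⟩ := FKA.cor_of_step h8
      obtain ⟨-, -, h9, h10⟩ := h8
      obtain ⟨h11, h12⟩ := mem_sdiff.1 (mem_coe.1 h10)
      have h13 := hc u hu' hue ⟨_, h11, h12, q1⟩
      refine ReflTransGen.trans (rtg_mono (fun v hv' => opn_true.2 (Or.inl (mem_coe.1 hv'))) h13) ?_
      exact hp'.trans h7
  · intro hp
    have hb : (v₀.1 + lP P N, v₀.2) ∈ H375.arcw N v₀ ⟨P.m, P.q, P.S, P.k, P.j, P.l⟩ := by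
      refine ⟨N / 2, le_rfl, by simp, ?_⟩
      show PN P.q N (N / 2) + v₀ = _
      rw [← PN_add_l hN0, H369.PN_line h hN0 (by omega) (by rw [e3]; omega), hll, hlb]
      obtain ⟨a, b⟩ := v₀
      rw [Prod.mk_add_mk, Prod.mk.injEq]
      simp only
      refine ⟨?_, by ring⟩
      push_cast
      ring
    have key : ∀ s : ℤ × ℤ, PC (opn Z ω) s (v₀.1 + lP P N, v₀.2) → Even (s.1 + s.2) →
        (∃ x ∈ dom N v₀ P, Cor x s) →
        (∃ u ∈ BR.sites Z, Even (u.1 + u.2) ∧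
          ReflTransGen (PStep (H632.cs true ω ∩ (↑(dom N v₀ P \ Z) : Set (ℤ × ℤ)))) u s) →
        ∃ u ∈ BR.sites Z, Even (u.1 + u.2) ∧
          ∃ t ∈ H375.arcw N v₀ ⟨P.m, P.q, P.S, P.k, P.j, P.l⟩,
          ReflTransGen (PStep (H632.cs true ω ∩ (↑(dom N v₀ P \ Z) : Set (ℤ × ℤ)))) u t := by
      intro s hs
      refine ReflTransGen.head_induction_on hs
        (fun _ _ ⟨u, u1, u2, u3⟩ => ⟨u, u1, u2, _, hb, u3⟩) ?_
      rintro a c hac _ ih ha hxa ⟨u, u1, u2, u3⟩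
      obtain ⟨q1, q2⟩ := FKA.cor_of_step hac
      have hac' := hac
      obtain ⟨-, -, hac3⟩ := hac'
      generalize hw : ((min a.1 c.1, min a.2 c.2) : ℤ × ℤ) = w at *
      have hce : Even (c.1 + c.2) := even_step hac ha
      by_cases hwZ : w ∈ Z
      · exact ih hce ⟨w, hZ hwZ, q2⟩ ⟨c, BR.mem_sites.2 ⟨w, hwZ, q2⟩, hce, ReflTransGen.refl⟩
      have hwo : ω w = true := (opn_true.1 hac3).resolve_left hwZ
      by_cases hwD : w ∈ dom N v₀ P
      · refine ih hce ⟨w, hwD, q2⟩ ⟨u, u1, u2, u3.tail ⟨hac.1, hac.2.1, ?_⟩⟩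
        rw [hw]
        exact ⟨hwo, mem_coe.2 (mem_sdiff.2 ⟨hwD, hwZ⟩)⟩
      · refine ⟨u, u1, u2, a, ?_, u3⟩
        obtain ⟨x, x1, x2⟩ := hxa
        have ho : QT.ext N v₀ P w = true := by rw [← hω w hwD]; exact hwo
        obtain ⟨i, i1, i2, i3⟩ := arcw_of h hN (s := a - v₀) (x := x - v₀) (z := w - v₀)
          ((even_add hv).1 (by rw [sub_add_cancel]; exact ha)) (mem_dom'.1 x1) (cor_sub' x2)
          (fun hc => hwD (mem_dom'.2 hc)) (cor_sub' q1) ho
        exact ⟨i, i1, i2, by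
          show PN P.q N i + v₀ = a
          rw [i3, sub_add_cancel]⟩
    have hvd : ∃ x ∈ dom N v₀ P, Cor x v₀ := by
      obtain ⟨x, x1, x2⟩ := BR.mem_sites.1 hv'
      exact ⟨x, hZ x1, x2⟩
    obtain ⟨u, u1, u2, t, t1, t2⟩ := key v₀ hp hv hvd ⟨v₀, hv', hv, ReflTransGen.refl⟩
    refine ⟨u, u1, t, t1, ?_, t2⟩
    rw [Int.even_iff] at u2
    simpa [H632.pr] using u2

end Vale.Agent.P167.H364
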