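import Vale.Agent.P167.H364.Bas

/-!
# P167, `0 < Q ≤ 1`, [GEO]: the four-step sandwich

Two worlds `(P₁, ζ₁)`, `(P₂, ζ₂)` with the common part `E` and the root square `a` (`u`, `v` its even,
`x`, `y` its odd corners). `sand4` : under local contact conditions the probability that `u` and `v`
are joined in the first world is at most that in the second world.
-/

set_option autoImplicit false

namespace Vale.Agent.P167.H364

open Finset Relation Vale.Agent.P167.FK Vale.Agent.P167.H816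
open Vale.Agent.P145.FB (PStep)
open Vale.Agent.P167.FKA (Cor)

/-- `s` is joined to one of the even corners of `a`. -/
def PU (a : ℤ × ℤ) (ω : Cfg) (s : ℤ × ℤ) : Prop := PC ω s (pa a) ∨ PC ω s (pb a)

/-- `s` is dually joined to one of the odd corners of `a`. -/
def DX (a : ℤ × ℤ) (ω : Cfg) (s : ℤ × ℤ) : Prop := DC ω s (da a) ∨ DC ω s (db a)

variable {a : ℤ × ℤ} {ω ω' : Cfg} {s t : ℤ × ℤ}

theorem PU.trans (h : PU a ω t) (h' : PC ω s t) : PU a ω s := h.imp h'.trans h'.trans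

theorem DX.trans (h : DX a ω t) (h' : DC ω s t) : DX a ω s := h.imp h'.trans h'.trans

theorem PU.mono (h : PU a ω s) (hm : ∀ v, ω v = true → ω' v = true) : PU a ω' s :=
  h.imp (fun h => PC_mono hm h) (fun h => PC_mono hm h)

theorem DX.mono (h : DX a ω s) (hm : ∀ v, ω v = false → ω' v = false) : DX a ω' s :=
  h.imp (fun h => DC_mono hm h) (fun h => DC_mono hm h)

theorem PU.restrict (hs : Even (s.1 + s.2)) (h : PU a ω s)
    (hm : ∀ b, ω b = true → PU a ω (pa b) → ω' b = true) : PU a ω' s := by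
  rcases h with h | h
  · exact Or.inl (PC_restrict hs h fun b hb h1 => hm b hb (Or.inl h1))
  · exact Or.inr (PC_restrict hs h fun b hb h1 => hm b hb (Or.inr h1))

theorem DX.restrict (hs : Odd (s.1 + s.2)) (h : DX a ω s)
    (hm : ∀ b, ω b = false → DX a ω (da b) → ω' b = false) : DX a ω' s := by
  rcases h with h | h
  · exact Or.inl (DC_restrict hs h fun b hb h1 => hm b hb (Or.inl h1))
  · exact Or.inr (DC_restrict hs h fun b hb h1 => hm b hb (Or.inr h1))

/-! ### The four squares around a site -/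

theorem cor_of_cor {b s : ℤ × ℤ} (h : Cor b s) : b ∈ four s := by
  obtain ⟨b1, b2⟩ := b
  obtain ⟨s1, s2⟩ := s
  obtain ⟨h1, h2⟩ := h
  simp only at h1 h2
  simp only [four, mem_insert, mem_singleton, Prod.mk.injEq]
  omega

theorem four_cor {b s : ℤ × ℤ} (h : b ∈ four s) : Cor b s := by
  obtain ⟨b1, b2⟩ := b
  obtain ⟨s1, s2⟩ := s
  simp only [four, mem_insert, mem_singleton, Prod.mk.injEq] at h
  unfold Cor
  simp only
  omega

/-- The corners of a square at `s` of the other parity are neighbours of `s`. -/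
theorem nb_of {b s o : ℤ × ℤ} (hs : Cor b s) (ho : Cor b o)
    (hp : (o.1 + o.2) % 2 = (s.1 + s.2 + 1) % 2) : Nb s o := by
  obtain ⟨b1, b2⟩ := b
  obtain ⟨s1, s2⟩ := s
  obtain ⟨o1, o2⟩ := o
  obtain ⟨h1, h2⟩ := hs
  obtain ⟨h3, h4⟩ := ho
  simp only at h1 h2 h3 h4 hp
  simp only [Nb, Prod.mk.injEq]
  omega

/-- If the four squares around `s` are open then the neighbours of `s` are joined. -/
theorem nb_join_open {χ : Cfg} {s : ℤ × ℤ} (h : ∀ b ∈ four s, χ b = true) {f g : ℤ × ℤ}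
    (hf : Nb s f) (hg : Nb s g) : PC χ f g := by
  have h1 := nb_join (χ := fun v => !(χ v)) (s := s) (fun b hb => by simp [h b hb]) hf hg
  have e : ((op fun v => !(χ v))ᶜ : Set (ℤ × ℤ)) = op χ := by
    ext v
    simp [op]
  unfold DC at h1
  rw [e] at h1
  exact h1

theorem even_mod {s : ℤ × ℤ} : Even (s.1 + s.2) ↔ (s.1 + s.2) % 2 = 0 := Int.even_iff

theorem odd_mod {s : ℤ × ℤ} : Odd (s.1 + s.2) ↔ (s.1 + s.2) % 2 = 1 := Int.odd_iff

/-- Around an odd site with open squares the even corners of two squares are joined. -/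
theorem PC_around {χ : Cfg} {s b e : ℤ × ℤ} (hs : Odd (s.1 + s.2))
    (h : ∀ w, Cor w s → χ w = true) (hb : Cor b s) (he : Cor e s) {o o' : ℤ × ℤ}
    (ho : Even (o.1 + o.2)) (ho' : Even (o'.1 + o'.2)) (hbo : Cor b o) (heo : Cor e o') :
    PC χ o o' := by
  rw [odd_mod] at hs
  rw [even_mod] at ho ho'
  exact nb_join_open (fun w hw => h w (four_cor hw)) (nb_of hb hbo (by omega))
    (nb_of he heo (by omega))

theorem DC_around {χ : Cfg} {s b e : ℤ × ℤ} (hs : Even (s.1 + s.2))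
    (h : ∀ w, Cor w s → χ w = false) (hb : Cor b s) (he : Cor e s) {o o' : ℤ × ℤ}
    (ho : Odd (o.1 + o.2)) (ho' : Odd (o'.1 + o'.2)) (hbo : Cor b o) (heo : Cor e o') :
    DC χ o o' := by
  rw [even_mod] at hs
  rw [odd_mod] at ho ho'
  exact nb_join (fun w hw => h w (four_cor hw)) (nb_of hb hbo (by omega))
    (nb_of he heo (by omega))

theorem cor_pa (b : ℤ × ℤ) : Cor b (pa b) := (cor_even (even_pa b)).2 (Or.inl rfl)
theorem cor_pb (b : ℤ × ℤ) : Cor b (pb b) := (cor_even (even_pb b)).2 (Or.inr rfl)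
theorem cor_da (b : ℤ × ℤ) : Cor b (da b) := (cor_odd (odd_da b)).2 (Or.inl rfl)
theorem cor_db (b : ℤ × ℤ) : Cor b (db b) := (cor_odd (odd_db b)).2 (Or.inr rfl)

variable {Q : ℝ} {P₁ P₂ E : Finset (ℤ × ℤ)} {ζ₁ ζ₂ : Cfg}

/-- **The four-step sandwich.** -/
theorem sand4 (hQ : 0 < Q) (hQ1 : Q ≤ 1) (hg1 : Good ζ₁) (hg2 : Good ζ₂) (hE1 : E ⊆ P₁)
    (hE2 : E ⊆ P₂) (ha1 : a ∉ P₁) (ha2 : a ∉ P₂) (hz1 : ζ₁ a = false) (hz2 : ζ₂ a = false)
    (N1u : ∀ s z, Even (s.1 + s.2) → (∃ x ∈ P₁, Cor x s) → z ∉ P₁ → ζ₁ z = true → Cor z s →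
      PU a (cf P₁ ζ₁ ∅) s)
    (N1d : ∀ s z, Odd (s.1 + s.2) → (∃ x ∈ P₁, Cor x s) → z ∉ P₁ → z ≠ a → ζ₁ z = false →
      Cor z s → DX a (cf P₁ (Function.update ζ₁ a true) P₁) s)
    (N2u : ∀ s z, Even (s.1 + s.2) → (∃ x ∈ P₂, Cor x s) → z ∉ P₂ → ζ₂ z = true → Cor z s →
      PU a (cf P₂ ζ₂ ∅) s)
    (N2d : ∀ s z, Odd (s.1 + s.2) → (∃ x ∈ P₂, Cor x s) → z ∉ P₂ → z ≠ a → ζ₂ z = false →
      Cor z s → DX a (cf P₂ (Function.update ζ₂ a true) P₂) s)
    (c1 : ∀ s z, Even (s.1 + s.2) → (∃ x ∈ E, Cor x s) → z ∉ E → (z ∈ P₁ ∨ ζ₁ z = true) →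
      Cor z s → PU a (cf P₂ ζ₂ ∅) s)
    (c2 : ∀ s z, Odd (s.1 + s.2) → (∃ x ∈ E, Cor x s) → z ∉ E → z ≠ a →
      (z ∈ P₂ ∨ ζ₂ z = false) → Cor z s → DX a (cf P₁ (Function.update ζ₁ a true) P₁) s)
    {U Y : Set (ℤ × ℤ)} (hu : pa a ∈ U) (hv : pb a ∉ U) (hx : da a ∈ Y) (hy : db a ∉ Y)
    (hU : ∀ b, b ∉ E → (pa b ∈ U ∨ pb b ∈ U) → b ∉ P₁ ∧ b ∉ P₂ ∧
      ((ζ₁ b = false ∧ ζ₂ b = false) ∨ (pa b ∈ U ∧ pb b ∈ U)))
    (hY : ∀ b, b ∉ E → b ≠ a → (da b ∈ Y ∨ db b ∈ Y) → b ∉ P₁ ∧ b ∉ P₂ ∧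
      ((ζ₁ b = true ∧ ζ₂ b = true) ∨ (da b ∈ Y ∧ db b ∈ Y))) :
    Pr Q P₁ ζ₁ {ω | PC ω (pa a) (pb a)} ≤ Pr Q P₂ ζ₂ {ω | PC ω (pa a) (pb a)} := by
  classical
  have haE : a ∉ E := fun h => ha1 (hE1 h)
  set ζ₁' : Cfg := Function.update ζ₁ a true with hζ₁'
  set ζ₂' : Cfg := Function.update ζ₂ a true with hζ₂'
  have u1 : ∀ b, ζ₁' b = false ↔ b ≠ a ∧ ζ₁ b = false := by
    intro b
    by_cases hb : b = a
    · subst hb; simp [hζ₁']
    · simp [hζ₁', hb]
  have u2 : ∀ b, ζ₂' b = false ↔ b ≠ a ∧ ζ₂ b = false := by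
    intro b
    by_cases hb : b = a
    · subst hb; simp [hζ₂']
    · simp [hζ₂', hb]
  -- the islands
  set α : Cfg := fun b => if b ∈ E then false else if b ∈ P₁ then true else ζ₁ b with hα
  set I : Finset (ℤ × ℤ) := (P₁ \ E).filter (fun b => ¬ PU a α (pa b)) with hI
  have mI : ∀ b, b ∈ I ↔ (b ∈ P₁ ∧ b ∉ E) ∧ ¬ PU a α (pa b) := by
    intro b
    rw [hI, mem_filter, mem_sdiff]
  have aα : ∀ b, α b = true ↔ b ∉ E ∧ (b ∈ P₁ ∨ ζ₁ b = true) := by
    intro b
    simp only [hα]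
    split_ifs with h1 h2 <;> simp [h1, *]
  -- the pockets
  set β : Cfg := fun b => if b ∈ E then true else if b ∈ P₂ then false else ζ₂' b with hβ
  set O : Finset (ℤ × ℤ) := (P₂ \ E).filter (fun b => ¬ DX a β (da b)) with hO
  have mO : ∀ b, b ∈ O ↔ (b ∈ P₂ ∧ b ∉ E) ∧ ¬ DX a β (da b) := by
    intro b
    rw [hO, mem_filter, mem_sdiff]
  have aβ : ∀ b, β b = false ↔ b ∉ E ∧ (b ∈ P₂ ∨ (b ≠ a ∧ ζ₂ b = false)) := by
    intro b
    rw [← u2]
    simp only [hβ]
    split_ifs with h1 h2 <;> simp [h1, *]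
  have haI : a ∉ I := fun h => ha1 ((mI a).1 h).1.1
  have haO : a ∉ O := fun h => ha2 ((mO a).1 h).1.1
  have sI : E ∪ I ⊆ P₁ := union_subset hE1 fun b hb => ((mI b).1 hb).1.1
  have sO : E ∪ O ⊆ P₂ := union_subset hE2 fun b hb => ((mO b).1 hb).1.1
  set ηa : Cfg := cf P₁ ζ₁ P₁ with hηa
  set ηc : Cfg := cf P₂ ζ₂ ∅ with hηc
  have ea : ∀ b, ηa b = true ↔ b ∈ P₁ ∨ ζ₁ b = true := by
    intro b
    by_cases h : b ∈ P₁ <;> simp [hηa, cf, h]
  have ea' : ∀ b, ηa b = false ↔ b ∉ P₁ ∧ ζ₁ b = false := by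
    intro b
    by_cases h : b ∈ P₁ <;> simp [hηa, cf, h]
  have ec : ∀ b, ηc b = true ↔ b ∉ P₂ ∧ ζ₂ b = true := by
    intro b
    by_cases h : b ∈ P₂ <;> simp [hηc, cf, h]
  have ec' : ∀ b, ηc b = false ↔ b ∈ P₂ ∨ ζ₂ b = false := by
    intro b
    by_cases h : b ∈ P₂ <;> simp [hηc, cf, h]
  have gηa : Good ηa := good_cf _ hg1 _
  have gηc : Good ηc := good_cf _ hg2 _
  -- the transfers
  have T1 : ∀ s, PU a (cf P₁ ζ₁ ∅) s → PU a (cf (E ∪ I) ηa ∅) s := fun s h => h.mono fun b hb => by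
    obtain ⟨h1, h2⟩ := cf_emp_true.1 hb
    exact cf_emp_true.2 ⟨fun h3 => h1 (sI h3), (ea b).2 (Or.inr h2)⟩
  have T1α : ∀ s, PU a (cf P₁ ζ₁ ∅) s → PU a α s := fun s h => h.mono fun b hb => by
    obtain ⟨h1, h2⟩ := cf_emp_true.1 hb
    exact (aα b).2 ⟨fun h3 => h1 (hE1 h3), Or.inr h2⟩
  have T2 : ∀ s, Even (s.1 + s.2) → PU a α s → PU a (cf (E ∪ I) ηa ∅) s := fun s hs h =>
    h.restrict hs fun b hb h1 => by
      obtain ⟨h2, h3⟩ := (aα b).1 hb
      refine cf_emp_true.2 ⟨fun h4 => ?_, (ea b).2 h3⟩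
      rcases mem_union.1 h4 with h5 | h5
      · exact h2 h5
      · exact ((mI b).1 h5).2 h1
  have T3 : ∀ s, DX a (cf P₁ ζ₁' P₁) s → DX a (cf (E ∪ I) (Function.update ηa a true) (E ∪ I)) s :=
    fun s h => h.mono fun b hb => by
      obtain ⟨h1, h2⟩ := cf_self_false.1 hb
      obtain ⟨h3, h4⟩ := (u1 b).1 h2
      refine cf_self_false.2 ⟨fun h5 => h1 (sI h5), ?_⟩
      rw [Function.update_of_ne h3]
      exact (ea' b).2 ⟨h1, h4⟩
  have T4 : ∀ s, PU a (cf P₂ ζ₂ ∅) s → PU a (cf (E ∪ O) ηc ∅) s := fun s h => h.mono fun b hb => by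
    obtain ⟨h1, h2⟩ := cf_emp_true.1 hb
    exact cf_emp_true.2 ⟨fun h3 => h1 (sO h3), (ec b).2 ⟨h1, h2⟩⟩
  have T5 : ∀ s, DX a (cf P₂ ζ₂' P₂) s → DX a (cf (E ∪ O) (Function.update ηc a true) (E ∪ O)) s :=
    fun s h => h.mono fun b hb => by
      obtain ⟨h1, h2⟩ := cf_self_false.1 hb
      obtain ⟨h3, h4⟩ := (u2 b).1 h2
      refine cf_self_false.2 ⟨fun h5 => h1 (sO h5), ?_⟩
      rw [Function.update_of_ne h3]
      exact (ec' b).2 (Or.inr h4)
  have T5β : ∀ s, DX a (cf P₂ ζ₂' P₂) s → DX a β s := fun s h => h.mono fun b hb => by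
    obtain ⟨h1, h2⟩ := cf_self_false.1 hb
    obtain ⟨h3, h4⟩ := (u2 b).1 h2
    exact (aβ b).2 ⟨fun h3 => h1 (hE2 h3), Or.inr ⟨h3, h4⟩⟩
  have T6 : ∀ s, Odd (s.1 + s.2) → DX a β s →
      DX a (cf (E ∪ O) (Function.update ηc a true) (E ∪ O)) s := fun s hs h =>
    h.restrict hs fun b hb h1 => by
      obtain ⟨h2, h3⟩ := (aβ b).1 hb
      have hba : b ≠ a := by
        rcases h3 with h3 | h3
        · rintro rfl; exact ha2 h3
        · exact h3.1
      refine cf_self_false.2 ⟨fun h4 => ?_, ?_⟩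
      · rcases mem_union.1 h4 with h5 | h5
        · exact h2 h5
        · exact ((mO b).1 h5).2 h1
      · rw [Function.update_of_ne hba]
        exact (ec' b).2 (h3.imp_right And.right)
  have cE : ∀ {D : Finset (ℤ × ℤ)} {s : ℤ × ℤ}, s ∈ Ev D → ∃ x ∈ D, Cor x s := fun h => (mem_Ev.1 h).2
  have cO : ∀ {D : Finset (ℤ × ℤ)} {s : ℤ × ℤ}, s ∈ Od D → ∃ x ∈ D, Cor x s := fun h => (mem_Od.1 h).2
  have sub_cor : ∀ {D D' : Finset (ℤ × ℤ)} {s : ℤ × ℤ}, D ⊆ D' → (∃ x ∈ D, Cor x s) →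
      ∃ x ∈ D', Cor x s := fun hD ⟨x, hx, hxs⟩ => ⟨x, hD hx, hxs⟩
  -- STEP 1
  have S1 : Pr Q P₁ ζ₁ {ω | PC ω (pa a) (pb a)} ≤ Pr Q (E ∪ I) ηa {ω | PC ω (pa a) (pb a)} := by
    refine bk_mono hQ hQ1 hg1 gηa sI (even_pa a) (even_pb a) (fun b _ h => (ea b).2 h) ?_
    intro b hb hb' s hbs hsE
    have hse := even_Ev hsE
    by_cases hbP : b ∈ P₁
    · have h1 : b ∉ E := fun h => hb (mem_union_left _ h)
      have h2 : PU a α (pa b) := by
        by_contra h2
        exact hb (mem_union_right _ ((mI b).2 ⟨⟨hbP, h1⟩, h2⟩))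
      have h3 : PC α (pa b) (pb b) := PC_sq ((aα b).2 ⟨h1, Or.inl hbP⟩)
      refine T2 s hse ?_
      rcases hbs with rfl | rfl
      · exact h2
      · exact h2.trans (H816.PC_symm h3)
    · have h1 : ζ₁ b = true := ((ea b).1 hb').resolve_left hbP
      exact T1 s (N1u s b hse (sub_cor sI (cE hsE)) hbP h1 ((cor_even hse).2 hbs))
  -- STEP 2
  have S2 : Pr Q (E ∪ I) ηa {ω | PC ω (pa a) (pb a)} ≤
      Pr Q ((E ∪ I) ∪ O) ηa {ω | PC ω (pa a) (pb a)} := by
    refine bks_bank hQ hQ1 gηa gηa subset_union_left (a := a) ?_ ?_ ?_ hx hy ?_ ?_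
    · simp only [mem_union, not_or]
      exact ⟨⟨haE, haI⟩, haO⟩
    · exact (ea' a).2 ⟨ha1, hz1⟩
    · exact (ea' a).2 ⟨ha1, hz1⟩
    · intro b hb hba hb'
      by_cases h1 : da b ∈ Y ∨ db b ∈ Y
      · obtain ⟨h2, h3, h4⟩ := hY b (fun h => hb (mem_union_left _ h)) hba h1
        have h5 : b ∉ O := fun h => h3 ((mO b).1 h).1.1
        have h6 : ηa b = false := by
          rcases hb' with h6 | h6 | h6
          · rcases mem_union.1 h6 with h7 | h7
            · exact absurd h7 hb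
            · exact absurd h7 h5
          · exact h6
          · exact h6
        rcases h4 with h4 | h4
        · have := ((ea' b).1 h6).2
          rw [h4.1] at this
          exact absurd this (by simp)
        · exact iff_of_true h4.1 h4.2
      · rw [not_or] at h1
        exact iff_of_false h1.1 h1.2
    · intro b hb hba hb' s hbs hsE
      have hso := odd_Od hsE
      have hbs' : Cor b s := (cor_odd hso).2 hbs
      have hsP : ∃ x ∈ P₁, Cor x s := sub_cor sI (cO hsE)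
      refine T3 s ?_
      by_cases h1 : ηa b = false
      · obtain ⟨h2, h3⟩ := (ea' b).1 h1
        exact N1d s b hso hsP h2 hba h3 hbs'
      have hbO : b ∈ O := by
        rcases hb' with h6 | h6 | h6
        · rcases mem_union.1 h6 with h7 | h7
          · exact absurd h7 hb
          · exact h7
        · exact absurd h6 h1
        · exact absurd h6 h1
      obtain ⟨⟨hbP2, hbE⟩, -⟩ := (mO b).1 hbO
      by_cases hsE' : ∃ x ∈ E, Cor x s
      · exact c2 s b hso hsE' hbE hba (Or.inl hbP2) hbs'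
      obtain ⟨e, he, hes⟩ := cO hsE
      have heI : e ∈ I := by
        rcases mem_union.1 he with h | h
        · exact absurd ⟨e, h, hes⟩ hsE'
        · exact h
      obtain ⟨⟨heP, heE⟩, he3⟩ := (mI e).1 heI
      have hnE : ∀ w, Cor w s → w ∉ E := fun w hw h => hsE' ⟨w, h, hw⟩
      by_cases hw : ∃ w, Cor w s ∧ w ∉ P₁ ∧ ζ₁ w = false
      · obtain ⟨w, hw1, hw2, hw3⟩ := hw
        by_cases hwa : w = a
        · subst hwa
          rcases (cor_odd hso).1 hw1 with rfl | rfl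
          · exact Or.inl ReflTransGen.refl
          · exact Or.inr ReflTransGen.refl
        · exact N1d s w hso hsP hw2 hwa hw3 hw1
      · exfalso
        push Not at hw
        have hop : ∀ w, Cor w s → α w = true := by
          intro w hws
          refine (aα w).2 ⟨hnE w hws, ?_⟩
          by_cases h2 : w ∈ P₁
          · exact Or.inl h2
          · right
            have := hw w hws h2
            simpa using this
        by_cases hbP1 : b ∈ P₁
        · have h2 : PU a α (pa b) := by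
            by_contra h2
            exact hb (mem_union_right _ ((mI b).2 ⟨⟨hbP1, hbE⟩, h2⟩))
          exact he3 (h2.trans (PC_around hso hop hes hbs' (even_pa e) (even_pa b) (cor_pa e)
            (cor_pa b)))
        · obtain ⟨w, w', o, hw1, hw2, hws, hws', hwo, hwo', ho⟩ :=
            H72.SD.turn (X := (↑P₁ : Set (ℤ × ℤ))) (mem_coe.2 heP) (fun h => hbP1 (mem_coe.1 h))
              hes hbs'
          rw [mem_coe] at hw1 hw2
          have hoe : Even (o.1 + o.2) := by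
            rw [odd_mod] at hso
            rw [even_mod]
            omega
          have h2 : ζ₁ w' = true := by
            have := hw w' hws' hw2
            simpa using this
          have h3 := T1α o (N1u o w' hoe ⟨w, hw1, hwo⟩ hw2 h2 hwo')
          exact he3 (h3.trans (PC_around hso hop hes hws (even_pa e) hoe (cor_pa e) hwo))
  -- STEP 3
  have S3 : Pr Q ((E ∪ I) ∪ O) ηa {ω | PC ω (pa a) (pb a)} ≤
      Pr Q (E ∪ O) ηc {ω | PC ω (pa a) (pb a)} := by
    have hsub : E ∪ O ⊆ (E ∪ I) ∪ O := union_subset_union_left subset_union_left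
    refine bk_bank hQ hQ1 gηa gηc hsub (even_pa a) (even_pb a) hu hv ?_ ?_
    · intro b hb hb'
      by_cases h1 : pa b ∈ U ∨ pb b ∈ U
      · obtain ⟨h2, h3, h4⟩ := hU b (fun h => hb (mem_union_left _ h)) h1
        rcases h4 with h4 | h4
        · exfalso
          rcases hb' with h5 | h5 | h5
          · rcases mem_union.1 h5 with h6 | h6
            · exact h2 (sI h6)
            · exact hb (mem_union_right _ h6)
          · rcases (ea b).1 h5 with h6 | h6
            · exact h2 h6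
            · rw [h4.1] at h6; exact absurd h6 (by simp)
          · have := ((ec b).1 h5).2
            rw [h4.2] at this
            exact absurd this (by simp)
        · exact iff_of_true h4.1 h4.2
      · rw [not_or] at h1
        exact iff_of_false h1.1 h1.2
    · intro b hb hb' s hbs hsE
      have hse := even_Ev hsE
      have hbs' : Cor b s := (cor_even hse).2 hbs
      have hsP : ∃ x ∈ P₂, Cor x s := sub_cor sO (cE hsE)
      have hbE : b ∉ E := fun h => hb (mem_union_left _ h)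
      refine T4 s ?_
      by_cases h1 : ηc b = true
      · obtain ⟨h2, h3⟩ := (ec b).1 h1
        exact N2u s b hse hsP h2 h3 hbs'
      have hb1 : b ∈ P₁ ∨ ζ₁ b = true := by
        rcases hb' with h5 | h5 | h5
        · rcases mem_union.1 h5 with h6 | h6
          · exact Or.inl (sI h6)
          · exact absurd (mem_union_right _ h6) hb
        · exact (ea b).1 h5
        · exact absurd h5 h1
      by_cases hsE' : ∃ x ∈ E, Cor x s
      · exact c1 s b hse hsE' hbE hb1 hbs'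
      obtain ⟨e, he, hes⟩ := cE hsE
      have heO : e ∈ O := by
        rcases mem_union.1 he with h | h
        · exact absurd ⟨e, h, hes⟩ hsE'
        · exact h
      obtain ⟨⟨heP, heE⟩, he3⟩ := (mO e).1 heO
      have hnE : ∀ w, Cor w s → w ∉ E := fun w hw h => hsE' ⟨w, h, hw⟩
      by_cases hw : ∃ w, Cor w s ∧ w ∉ P₂ ∧ ζ₂ w = true
      · obtain ⟨w, hw1, hw2, hw3⟩ := hw
        exact N2u s w hse hsP hw2 hw3 hw1
      push Not at hw
      by_cases hwa : Cor a s
      · rcases (cor_even hse).1 hwa with rfl | rfl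
        · exact Or.inl ReflTransGen.refl
        · exact Or.inr ReflTransGen.refl
      · exfalso
        have hcl : ∀ w, Cor w s → β w = false := by
          intro w hws
          refine (aβ w).2 ⟨hnE w hws, ?_⟩
          by_cases h2 : w ∈ P₂
          · exact Or.inl h2
          · refine Or.inr ⟨?_, ?_⟩
            · rintro rfl; exact hwa hws
            · have := hw w hws h2
              simpa using this
        by_cases hbP2 : b ∈ P₂
        · have h2 : DX a β (da b) := by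
            by_contra h2
            exact hb (mem_union_right _ ((mO b).2 ⟨⟨hbP2, hbE⟩, h2⟩))
          exact he3 (h2.trans (DC_around hse hcl hes hbs' (odd_da e) (odd_da b) (cor_da e)
            (cor_da b)))
        · obtain ⟨w, w', o, hw1, hw2, hws, hws', hwo, hwo', ho⟩ :=
            H72.SD.turn (X := (↑P₂ : Set (ℤ × ℤ))) (mem_coe.2 heP) (fun h => hbP2 (mem_coe.1 h))
              hes hbs'
          rw [mem_coe] at hw1 hw2
          have hoe : Odd (o.1 + o.2) := by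
            rw [even_mod] at hse
            rw [odd_mod]
            omega
          have h2 : ζ₂ w' = false := by
            have := hw w' hws' hw2
            simpa using this
          have hwa' : w' ≠ a := by rintro rfl; exact hwa hws'
          have h3 := T5β o (N2d o w' hoe ⟨w, hw1, hwo⟩ hw2 hwa' h2 hwo')
          exact he3 (h3.trans (DC_around hse hcl hes hws (odd_da e) hoe (cor_da e) hwo))
  -- STEP 4
  have S4 : Pr Q (E ∪ O) ηc {ω | PC ω (pa a) (pb a)} ≤ Pr Q P₂ ζ₂ {ω | PC ω (pa a) (pb a)} := by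
    refine bks_mono hQ hQ1 hg2 gηc sO ha2 hz2 ((ec' a).2 (Or.inr hz2))
      (fun b _ _ h => (ec' b).2 h) ?_
    intro b hb hba hb' s hbs hsE
    have hso := odd_Od hsE
    by_cases hbP : b ∈ P₂
    · have h1 : b ∉ E := fun h => hb (mem_union_left _ h)
      have h2 : DX a β (da b) := by
        by_contra h2
        exact hb (mem_union_right _ ((mO b).2 ⟨⟨hbP, h1⟩, h2⟩))
      have h3 : DC β (da b) (db b) := DC_sq ((aβ b).2 ⟨h1, Or.inl hbP⟩)
      refine T6 s hso ?_
      rcases hbs with rfl | rfl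
      · exact h2
      · exact h2.trans (H816.DC_symm h3)
    · have h1 : ζ₂ b = false := ((ec' b).1 hb').resolve_left hbP
      exact T5 s (N2d s b hso (sub_cor sO (cO hsE)) hbP hba h1 ((cor_odd hso).2 hbs))
  exact ((S1.trans S2).trans S3).trans S4

end Vale.Agent.P167.H364
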