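import Vale.Agent.P167.H364.CmpW

/-!
# P167, `0 < q < 4`, [GEO]: the worlds with open / closed squares `Bad`
-/

set_option autoImplicit false

namespace Vale.Agent.P167.H364

open Finset Relation Vale.Agent.P167.FK Vale.Agent.P167.H816
open Vale.Agent.P145.FB (PStep)
open Vale.Agent.P167.FKA (Cor)
open Vale.Agent.P167.E6 (IsPolygon Encloses edges wiredOpen)
open Vale.Agent.P167.H718 (Dq)
open Vale.Agent.P167.H161 (Rd)
open Vale.Agent.P167.H72.SD (dk om WD TD Up Lo Ws omB Wr Inn Kc)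

variable {n : ℕ} {p : ZMod n → ℤ × ℤ} {S : Finset (ℤ × ℤ)} {k : ℕ} {A : Finset (Sym2 (ℤ × ℤ))}
  {j : ℕ} {Bad E P : Finset (ℤ × ℤ)} {ζ : Cfg} {W W' WP arcP : Set (ℤ × ℤ)}
  {t : ℤ × ℤ} {l m : ℤ}

/-- The squares of `Bad` are open. -/
theorem Wd.up (h0 : Wd (dk p k S A j) (om p k A) t l m (WD p k S A j W)) (hp : Par t l)
    (hpoly : IsPolygon p) (hk : k < n) (hA : A ⊆ edges S) (h : Up p k S A j Bad E P ζ W' arcP) :
    Wd (dk p k S A j \ Bad) (opn Bad (om p k A)) t l m (WD p k S A j W) where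
  toWin := by
    refine h0.toWin.sub sdiff_subset fun v hv hv2 => ?_
    have h1 : v ∉ Bad := fun k1 => hv (h.bad k1)
    simp [opn, h1]
  good := good_opn h0.good
  low := fun x h1 h2 => by
    obtain ⟨h3, h4⟩ := h0.low x h1 h2
    exact ⟨fun h5 => h3 (mem_sdiff.1 h5).1, opn_false.2 ⟨fun h5 => h3 (h.bad h5), h4⟩⟩
  nu := by
    rintro s hs - ⟨z, hz, hz2, hzs⟩
    have g1 := hp.et
    have g2 := hp.el
    have g3 := hp.l4
    have hb : Ws p k S A j Bad (t.1 + l, t.2) := by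
      refine Or.inl ⟨even_mod.2 (by simp only; omega), (t.1 + l, t.2 - 1), ?_, ?_, ?_⟩
      · exact h0.out _ _ (by omega) (by omega) (by omega) (by omega)
      · exact (h0.cfg _ _ (by omega) (by omega) (by omega) (by omega)).2 ⟨rfl, le_rfl⟩
      · exact ⟨Or.inl rfl, Or.inr (by simp only; ring)⟩
    have hs' : Ws p k S A j Bad s := by
      rcases opn_true.1 hz2 with k1 | k1
      · exact Or.inr ⟨hs, z, k1, hzs⟩
      · by_cases k2 : z ∈ Bad
        · exact Or.inr ⟨hs, z, k2, hzs⟩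
        · exact Or.inl ⟨even_mod.2 hs, z, fun k3 => hz (mem_sdiff.2 ⟨k3, k2⟩), k1, hzs⟩
    have hj := h.joined hpoly hk hA hs' hb
    rw [omB_opn] at hj
    exact rtg_oj hj
  nd := by
    rintro s hs ⟨x, hx, hxs⟩ ⟨z, hz, hz2, hzs⟩
    obtain ⟨k1, k2⟩ := opn_false.1 hz2
    exact h0.nd s hs ⟨x, (mem_sdiff.1 hx).1, hxs⟩
      ⟨z, fun k3 => hz (mem_sdiff.2 ⟨k3, k1⟩), k2, hzs⟩
  ar := by
    intro s hs hs'
    refine rtg_mono' ?_ (h0.ar s hs hs')
    rintro v ⟨k1, k2, k3, k4⟩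
    exact ⟨fun k5 => k1 (mem_sdiff.1 k5).1, opn_false.2 ⟨fun k5 => k1 (h.bad k5), k2⟩, k3, k4⟩

/-- The squares of `Bad` are closed. -/
theorem Wd.lo (h0 : Wd (dk p k S A j) (om p k A) t l m (WD p k S A j W)) (hp : Par t l)
    (hpoly : IsPolygon p) (hS : Encloses p S) (hA : A ⊆ edges S)
    (hq : ∀ x y : ℤ, t.1 - 2 ≤ x → x ≤ t.1 + l + 2 → t.2 - 4 ≤ y → y < t.2 → (x, y) ∉ Dq S p k)
    (h : Lo p k S A j Bad E P ζ W WP arcP) :
    Wd (dk p k S A j \ Bad) (cld Bad (om p k A)) t l m (TD p k S A j Bad W) where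
  toWin := by
    refine h0.toWin.sub sdiff_subset fun v hv hv2 => ?_
    have h1 : v ∉ Bad := fun k1 => hv (h.bad k1)
    simp [cld, h1]
  good := good_cld h0.good
  low := fun x h1 h2 => by
    obtain ⟨h3, h4⟩ := h0.low x h1 h2
    exact ⟨fun h5 => h3 (mem_sdiff.1 h5).1, cld_false.2 (Or.inr h4)⟩
  nu := by
    rintro s hs ⟨x, hx, hxs⟩ ⟨z, hz, hz2, hzs⟩
    obtain ⟨k1, k2⟩ := cld_true.1 hz2
    refine rtg_mono' ?_ (h0.nu s hs ⟨x, (mem_sdiff.1 hx).1, hxs⟩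
      ⟨z, fun k3 => hz (mem_sdiff.2 ⟨k3, k1⟩), k2, hzs⟩)
    rintro v ⟨k3, k4⟩
    exact ⟨fun k5 => k3 (mem_sdiff.1 k5).1, cld_true.2 ⟨fun k5 => k3 (h.bad k5), k4⟩⟩
  nd := by
    rintro s hs ⟨x, hx, hxs⟩ ⟨z, hz, hz2, hzs⟩
    by_cases k1 : z ∈ Bad
    · obtain ⟨t', ht', k2⟩ := h.badj z k1 s hs hzs
      obtain ⟨t'', ht'', k3⟩ := h.fr hpoly hS hA ht'
      exact Or.inl ⟨t'', ht'', k2.trans k3⟩
    · have k2 : om p k A z = false := (cld_false.1 hz2).resolve_left k1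
      rcases h0.nd s hs ⟨x, (mem_sdiff.1 hx).1, hxs⟩
        ⟨z, fun k3 => hz (mem_sdiff.2 ⟨k3, k1⟩), k2, hzs⟩ with k3 | k3
      · exact Or.inl (h.fr hpoly hS hA k3)
      · exact Or.inr k3
  ar := by
    rintro s ⟨t', ht', k1⟩ hs'
    have h2 : (t'.1 + t'.2) % 2 = 1 := by
      have : ∀ {F : Set (ℤ × ℤ)} {s s' : ℤ × ℤ}, ReflTransGen (PStep F) s s' →
          (s'.1 + s'.2) % 2 = (s.1 + s.2) % 2 := by
        intro F s s' h
        induction h with
        | refl => rfl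
        | tail _ h ih =>
          obtain ⟨h1, h2, -⟩ := h
          omega
      rw [this k1]
      exact hs'
    have h3 := h0.ar t' (Or.inl ht') h2
    have g3 := hp.l4
    have key : ∀ v : ℤ × ℤ, v ∈ Dq S p k → v ∉ rT t l ∧ v ≠ ra t l := by
      rintro ⟨x, y⟩ hv
      constructor
      · intro k5
        rw [mem_rT] at k5
        simp only at k5
        exact hq x y (by omega) (by omega) (by omega) (by omega) hv
      · intro k5
        simp only [ra, Prod.mk.injEq] at k5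
        exact hq x y (by omega) (by omega) (by omega) (by omega) hv
    refine ReflTransGen.trans (rtg_mono' ?_ k1) (rtg_mono' ?_ h3)
    · rintro v (k2 | ⟨k2, k3⟩)
      · obtain ⟨k5, k6⟩ := key v (H72.SD.mem_dk.1 (h.bad k2)).1
        exact ⟨fun k4 => (mem_sdiff.1 k4).2 k2, cld_false.2 (Or.inl k2), k5, k6⟩
      · have k7 : v ∉ dk p k S A j := fun k4 => (mem_sdiff.1 k4).2 k2
        obtain ⟨k5, k6⟩ := key v (by
          have := H161.Rd_subset j k2
          rwa [QG.dq_eq] at this)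
        exact ⟨fun k4 => k7 (mem_sdiff.1 k4).1, cld_false.2 (Or.inr k3), k5, k6⟩
    · rintro v ⟨k2, k3, k4, k5⟩
      exact ⟨fun k6 => k2 (mem_sdiff.1 k6).1, cld_false.2 (Or.inr k3), k4, k5⟩

end Vale.Agent.P167.H364
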