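import Vale.Agent.P167.H364.Hat

/-!
# P167, `0 < Q ≤ 1`, [GEO]: worlds with a painted set `Z`

* `Rw D ζ t l m Ar` : as `Wd`, the wired contact sites are joined to `b` or to `t`; `Rw.del` : the set
  `Z` at `t` is removed and painted open;
* `sandZ` : the sandwich of two worlds; `frzZ_lo`, `frzZ_up` : frozen squares.
-/

set_option autoImplicit false

namespace Vale.Agent.P167.H364

open Finset Relation Vale.Agent.P167.FK Vale.Agent.P167.H816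
open Vale.Agent.P145.FB (PStep)
open Vale.Agent.P167.FKA (Cor)

/-- The boundary of a world with a root set. -/
structure Rw (D : Finset (ℤ × ℤ)) (ζ : Cfg) (t : ℤ × ℤ) (l m : ℤ) (Ar : Set (ℤ × ℤ)) : Prop
    extends Win D ζ t l where
  good : Good ζ
  low : ∀ x : ℤ, t.1 + l - m - 1 ≤ x → x < t.1 + l →
    (x, t.2 - 1) ∉ D ∧ ζ (x, t.2 - 1) = false
  nu : ∀ s, (s.1 + s.2) % 2 = 0 → (∃ x ∈ D, Cor x s) → (∃ z, z ∉ D ∧ ζ z = true ∧ Cor z s) →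
    OJ D ζ s (t.1 + l, t.2) ∨ OJ D ζ s t
  nd : ∀ s, (s.1 + s.2) % 2 = 1 → (∃ x ∈ D, Cor x s) → (∃ z, z ∉ D ∧ ζ z = false ∧ Cor z s) →
    s ∈ Ar ∨ (s.2 = t.2 ∧ t.1 + l - m < s.1 ∧ s.1 < t.1 + l)
  ar : ∀ s ∈ Ar, (s.1 + s.2) % 2 = 1 → CJ D ζ t l s (t.1 - 1, t.2)

variable {D : Finset (ℤ × ℤ)} {ζ ω : Cfg} {t : ℤ × ℤ} {l m : ℤ} {Ar : Set (ℤ × ℤ)}

theorem Wd.rw (h : Wd D ζ t l m Ar) : Rw D ζ t l m Ar where
  toWin := h.toWin
  good := h.good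
  low := h.low
  nu := fun s h1 h2 h3 => Or.inl (h.nu s h1 h2 h3)
  nd := h.nd
  ar := h.ar

/-- The set `Z` near `t`: the squares which touch it are in `E` or below the line. -/
structure Nz (E : Finset (ℤ × ℤ)) (t : ℤ × ℤ) (Z : Finset (ℤ × ℤ)) : Prop where
  up : ∀ v ∈ Z, t.2 ≤ v.2
  co : CoZ t Z
  nb : ∀ v, t.2 ≤ v.2 → (∃ s, Cor v s ∧ ∃ z ∈ Z, Cor z s) → v ∈ E

theorem Nz.sub {E Z : Finset (ℤ × ℤ)} (h : Nz E t Z) : Z ⊆ E := fun v hv =>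
  h.nb v (h.up v hv) ⟨v, ⟨Or.inl rfl, Or.inl rfl⟩, v, hv, ⟨Or.inl rfl, Or.inl rfl⟩⟩

theorem Nz.mono {E E' Z : Finset (ℤ × ℤ)} (h : Nz E t Z) (hE : E ⊆ E') : Nz E' t Z :=
  ⟨h.up, h.co, fun v h1 h2 => hE (h.nb v h1 h2)⟩

/-- Everything near `Z` below the line is outside and closed. -/
def Bl (D : Finset (ℤ × ℤ)) (ζ : Cfg) (t : ℤ × ℤ) (Z : Finset (ℤ × ℤ)) : Prop :=
  ∀ v : ℤ × ℤ, v.2 < t.2 → (∃ s, Cor v s ∧ ∃ z ∈ Z, Cor z s) → v ∉ D ∧ ζ v = false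

/-- **The set `Z` is removed and painted open.** -/
theorem Rw.del (h : Rw D ζ t l m Ar) {Z : Finset (ℤ × ℤ)} (hZ : Nz D t Z) (hb : Bl D ζ t Z) :
    Rw (D \ Z) (opn Z ζ) t l m Ar where
  out := fun x y h1 h2 h3 h4 h5 => h.out x y h1 h2 h3 h4 (mem_sdiff.1 h5).1
  cfg := fun x y h1 h2 h3 h4 => by
    have h5 : (x, y) ∉ Z := fun h5 => by
      have := hZ.up _ h5
      simp only at this
      omega
    rw [opn_true, ← h.cfg x y h1 h2 h3 h4]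
    tauto
  good := good_opn h.good
  low := fun x h1 h2 => by
    obtain ⟨h3, h4⟩ := h.low x h1 h2
    have h5 : (x, t.2 - 1) ∉ Z := fun h5 => by
      have := hZ.up _ h5
      simp only at this
      omega
    exact ⟨fun h6 => h3 (mem_sdiff.1 h6).1, opn_false.2 ⟨h5, h4⟩⟩
  nu := by
    rintro s hs ⟨x, hx, hxs⟩ ⟨z, hz, hz1, hzs⟩
    obtain ⟨hxD, hxZ⟩ := mem_sdiff.1 hx
    have hm : {v : ℤ × ℤ | v ∉ D ∧ ζ v = true} ⊆ {v | v ∉ D \ Z ∧ opn Z ζ v = true} := by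
      rintro v ⟨h1, h2⟩
      exact ⟨fun h3 => h1 (mem_sdiff.1 h3).1, opn_true.2 (Or.inr h2)⟩
    by_cases hsZ : ∃ v ∈ Z, Cor v s
    · right
      have h1 : t.2 ≤ x.2 := by
        by_contra h1
        exact (hb x (by omega) ⟨s, hxs, hsZ⟩).1 hxD
      have h2 := hZ.co s hs hsZ ⟨x, hxZ, h1, hxs⟩
      refine rtg_symm' (rtg_mono' (fun v hv => ?_) h2)
      have hv' : v ∈ Z := hv
      exact ⟨fun h3 => (mem_sdiff.1 h3).2 hv', opn_true.2 (Or.inl hv')⟩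
    · have hzZ : z ∉ Z := fun h1 => hsZ ⟨z, h1, hzs⟩
      have hzD : z ∉ D := fun h1 => hz (mem_sdiff.2 ⟨h1, hzZ⟩)
      have hz2 : ζ z = true := (opn_true.1 hz1).resolve_left hzZ
      exact (h.nu s hs ⟨x, hxD, hxs⟩ ⟨z, hzD, hz2, hzs⟩).imp (rtg_mono' hm) (rtg_mono' hm)
  nd := by
    rintro s hs ⟨x, hx, hxs⟩ ⟨z, hz, hz1, hzs⟩
    obtain ⟨hz2, hz3⟩ := opn_false.1 hz1
    exact h.nd s hs ⟨x, (mem_sdiff.1 hx).1, hxs⟩
      ⟨z, fun h1 => hz (mem_sdiff.2 ⟨h1, hz2⟩), hz3, hzs⟩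
  ar := by
    intro s hs h1
    refine rtg_mono' ?_ (h.ar s hs h1)
    rintro v ⟨h2, h3, h4, h5⟩
    exact ⟨fun h6 => h2 (mem_sdiff.1 h6).1, opn_false.2 ⟨fun h6 => h2 (hZ.sub h6), h3⟩, h4, h5⟩

/-! ### The contact conditions for the hat -/

theorem Rw.pu (h : Rw D ζ t l m Ar) (hp : Par t l) {s : ℤ × ℤ}
    (hs : OJ D ζ s (t.1 + l, t.2) ∨ OJ D ζ s t) : PU (ra t l) (cf D (hat t l ζ) ∅) s :=
  hs.elim (h.pu_b hp) (h.pu_t hp)

theorem Rw.dx (h : Rw D ζ t l m Ar) (hp : Par t l) {s : ℤ × ℤ} (hs : (s.1 + s.2) % 2 = 1)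
    (h1 : s ∈ Ar ∨ (s.2 = t.2 ∧ t.1 + l - m < s.1 ∧ s.1 < t.1 + l)) :
    DX (ra t l) (cf D (Function.update (hat t l ζ) (ra t l) true) D) s := by
  rcases h1 with h1 | ⟨h1, h2, h3⟩
  · exact h.dx_left hp (h.ar s h1 hs)
  · by_cases h4 : t.1 < s.1
    · exact h.dx_mid hp hs h1 h4 h3
    · have h5 : s.1 ≠ t.1 := by
        have := hp.et
        intro h5
        rw [h5, h1] at hs
        omega
      refine h.dx_left hp (low_left hp (a := t.1 + l - m - 1) (fun x hx hx' => ?_) hs h1 (by omega)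
        (by omega))
      have := hp.l4
      exact h.low x hx (by omega)

/-- The even corners of the root path which touch `D`. -/
theorem Rw.rt_even (h : Rw D ζ t l m Ar) (hp : Par t l) {s z : ℤ × ℤ} (hs : (s.1 + s.2) % 2 = 0)
    (hx : ∃ x ∈ D, Cor x s) (hz : z ∈ rT t l) (hzs : Cor z s) : s = t := by
  have h1 := rT_U0 hp hz hs hzs
  have h2 := h.ctr_of hx hp
  unfold ctr at h2
  rw [if_pos h1] at h2
  exact h2.symm

theorem Rw.n1u (h : Rw D ζ t l m Ar) (hp : Par t l) : ∀ s z, Even (s.1 + s.2) →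
    (∃ x ∈ D, Cor x s) → z ∉ D → hat t l ζ z = true → Cor z s →
      PU (ra t l) (cf D (hat t l ζ) ∅) s := by
  intro s z hs hx hz hz1 hzs
  rw [even_mod] at hs
  rcases hat_true.1 hz1 with h1 | h1
  · rw [h.rt_even hp hs hx h1 hzs]
    exact h.pu_t hp ReflTransGen.refl
  · exact h.pu hp (h.nu s hs hx ⟨z, hz, h1, hzs⟩)

theorem Rw.n1d (h : Rw D ζ t l m Ar) (hp : Par t l) : ∀ s z, Odd (s.1 + s.2) →
    (∃ x ∈ D, Cor x s) → z ∉ D → hat t l ζ z = false → Cor z s →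
      DX (ra t l) (cf D (Function.update (hat t l ζ) (ra t l) true) D) s := by
  intro s z hs hx hz hz1 hzs
  rw [odd_mod] at hs
  exact h.dx hp hs (h.nd s hs hx ⟨z, hz, (hat_false.1 hz1).2, hzs⟩)

/-! ### The sandwich -/

variable {P₁ P₂ E Z : Finset (ℤ × ℤ)} {ζ₁ ζ₂ : Cfg} {Ar₁ Ar₂ : Set (ℤ × ℤ)} {Q : ℝ}

theorem b_ne_U0 (hp : Par t l) : (t.1 + l + 1, t.2 - 1) ∉ U0 t l := by
  obtain ⟨g1, g2, g3⟩ := hp
  rintro (h | ⟨-, h⟩)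
  · have := congrArg Prod.fst h
    simp only at this
    omega
  · simp only at h
    omega

theorem pab_cor {b s : ℤ × ℤ} (h : s = pa b ∨ s = pb b) : (s.1 + s.2) % 2 = 0 ∧ Cor b s := by
  rcases h with rfl | rfl
  · exact ⟨even_mod.1 (even_pa b), cor_pa b⟩
  · exact ⟨even_mod.1 (even_pb b), cor_pb b⟩

theorem dab_cor {b s : ℤ × ℤ} (h : s = da b ∨ s = db b) : (s.1 + s.2) % 2 = 1 ∧ Cor b s := by
  rcases h with rfl | rfl
  · exact ⟨odd_mod.1 (odd_da b), cor_da b⟩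
  · exact ⟨odd_mod.1 (odd_db b), cor_db b⟩

/-- **The sandwich of two worlds with a root set `Z`.** -/
theorem sandZ (hQ : 0 < Q) (hQ1 : Q ≤ 1) (hp : Par t l) (h1 : Rw P₁ ζ₁ t l m Ar₁)
    (h2 : Rw P₂ ζ₂ t l m Ar₂) (hE1 : E ⊆ P₁) (hE2 : E ⊆ P₂) (hZ : Nz E t Z)
    (hb1 : Bl P₁ ζ₁ t Z) (hb2 : Bl P₂ ζ₂ t Z)
    (hrow : ∀ x : ℤ, t.1 - 1 ≤ x → x < t.1 + l → (x, t.2) ∈ E)
    (C1 : ∀ s z, (s.1 + s.2) % 2 = 0 → (∃ x ∈ E, Cor x s) → z ∉ E → (z ∈ P₁ ∨ ζ₁ z = true) →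
      Cor z s → OJ P₂ ζ₂ s (t.1 + l, t.2) ∨ OJ P₂ ζ₂ s t)
    (C2 : ∀ s z, (s.1 + s.2) % 2 = 1 → (∃ x ∈ E, Cor x s) → z ∉ E → (z ∈ P₂ ∨ ζ₂ z = false) →
      Cor z s → s ∈ Ar₁ ∨ (s.2 = t.2 ∧ t.1 + l - m < s.1 ∧ s.1 < t.1 + l)) :
    Pr Q (P₁ \ Z) (opn Z ζ₁) {ω | PC ω t (t.1 + l, t.2)} ≤
      Pr Q (P₂ \ Z) (opn Z ζ₂) {ω | PC ω t (t.1 + l, t.2)} := by
  have hd1 := h1.del (hZ.mono hE1) hb1
  have hd2 := h2.del (hZ.mono hE2) hb2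
  obtain ⟨g1, g2, g3⟩ := id hp
  rw [← hd1.pr_hat hQ hp hd1.good, ← hd2.pr_hat hQ hp hd2.good]
  set a := ra t l with ha
  have oj : ∀ {s : ℤ × ℤ}, OJ P₂ ζ₂ s (t.1 + l, t.2) ∨ OJ P₂ ζ₂ s t →
      OJ (P₂ \ Z) (opn Z ζ₂) s (t.1 + l, t.2) ∨ OJ (P₂ \ Z) (opn Z ζ₂) s t := by
    intro s hs
    have hm : {v : ℤ × ℤ | v ∉ P₂ ∧ ζ₂ v = true} ⊆ {v | v ∉ P₂ \ Z ∧ opn Z ζ₂ v = true} := by
      rintro v ⟨k1, k2⟩
      exact ⟨fun k3 => k1 (mem_sdiff.1 k3).1, opn_true.2 (Or.inr k2)⟩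
    exact hs.imp (rtg_mono' hm) (rtg_mono' hm)
  -- the squares at the sites of the root bank
  have root : ∀ {b s : ℤ × ℤ}, b ∉ E → Cor b s → (s.1 + s.2) % 2 = 0 →
      (s ∈ U0 t l ∨ ∃ z ∈ Z, Cor z s) → b.2 < t.2 ∧ (b ∈ rT t l ∨
        (b ∉ P₁ ∧ b ∉ P₂ ∧ ζ₁ b = false ∧ ζ₂ b = false ∧ b ∉ rT t l)) := by
    intro b s hb hbs hs hU
    by_cases hr : b ∈ rT t l
    · refine ⟨?_, Or.inl hr⟩
      rw [mem_rT] at hr
      omega
    have key : b.2 < t.2 → (b ∉ P₁ ∧ b ∉ P₂ ∧ ζ₁ b = false ∧ ζ₂ b = false) →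
        b.2 < t.2 ∧ (b ∈ rT t l ∨
        (b ∉ P₁ ∧ b ∉ P₂ ∧ ζ₁ b = false ∧ ζ₂ b = false ∧ b ∉ rT t l)) := by
      rintro k1 ⟨k2, k3, k4, k5⟩
      exact ⟨k1, Or.inr ⟨k2, k3, k4, k5, hr⟩⟩
    have win : ∀ x y : ℤ, b = (x, y) → t.1 - 2 ≤ x → x ≤ t.1 + l + 2 → t.2 - 4 ≤ y → y < t.2 →
        ¬ (y = t.2 - 1 ∧ t.1 + l ≤ x) → b ∉ P₁ ∧ b ∉ P₂ ∧ ζ₁ b = false ∧ ζ₂ b = false := by
      rintro x y rfl k1 k2 k3 k4 k5
      refine ⟨h1.out x y k1 k2 k3 k4, h2.out x y k1 k2 k3 k4, ?_, ?_⟩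
      · rw [← Bool.not_eq_true, h1.cfg x y k1 k2 k3 k4]; exact k5
      · rw [← Bool.not_eq_true, h2.cfg x y k1 k2 k3 k4]; exact k5
    obtain ⟨b1, b2⟩ := b
    rcases hU with hU | hU
    · rcases hU with rfl | ⟨-, hU⟩
      · obtain ⟨c1, c2⟩ := hbs
        simp only at c1 c2
        by_cases c3 : b2 = s.2
        · exfalso
          subst c3
          exact hb (hrow b1 (by omega) (by omega))
        · exact key (by simp only; omega) (win b1 b2 rfl (by omega) (by omega) (by omega) (by omega)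
            (by omega))
      · obtain ⟨c1, c2⟩ := hbs
        simp only at c1 c2
        exact key (by simp only; omega) (win b1 b2 rfl (by omega) (by omega) (by omega) (by omega)
          (by omega))
    · have k1 : (b1, b2).2 < t.2 := by
        by_contra k1
        exact hb (hZ.nb _ (by omega) ⟨s, hbs, hU⟩)
      obtain ⟨k2, k3⟩ := hb1 _ k1 ⟨s, hbs, hU⟩
      obtain ⟨k4, k5⟩ := hb2 _ k1 ⟨s, hbs, hU⟩
      exact key k1 ⟨k2, k4, k3, k5⟩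
  have sE : ∀ {b : ℤ × ℤ}, b ∉ E \ Z → b ∈ Z ∨ b ∉ E := by
    intro b hb
    by_cases h : b ∈ Z
    · exact Or.inl h
    · exact Or.inr fun h' => hb (mem_sdiff.2 ⟨h', h⟩)
  refine sand4 (a := a) hQ hQ1 (good_opn hd1.good) (good_opn hd2.good)
    (sdiff_subset_sdiff hE1 le_rfl) (sdiff_subset_sdiff hE2 le_rfl) (hd1.ra_out hp).1
    (hd2.ra_out hp).1 (hd1.hat_ra hp) (hd2.hat_ra hp) (hd1.n1u hp)
    (fun s z k1 k2 k3 _ k4 k5 => hd1.n1d hp s z k1 k2 k3 k4 k5) (hd2.n1u hp)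
    (fun s z k1 k2 k3 _ k4 k5 => hd2.n1d hp s z k1 k2 k3 k4 k5) ?_ ?_
    (U := {s | (s.1 + s.2) % 2 = 0 ∧ (s ∈ U0 t l ∨ ∃ z ∈ Z, Cor z s)}) (Y := Y0 t l)
    ?_ ?_ ?_ ?_ ?_ ?_
  · -- c1
    rintro s z hs ⟨x, hx, hxs⟩ hz hz' hzs
    rw [even_mod] at hs
    obtain ⟨hxE, hxZ⟩ := mem_sdiff.1 hx
    by_cases hsZ : ∃ v ∈ Z, Cor v s
    · obtain ⟨v, hv, hvs⟩ := hsZ
      refine hd2.pu hp (hd2.nu s hs ⟨x, mem_sdiff.2 ⟨hE2 hxE, hxZ⟩, hxs⟩ ⟨v, fun k => ?_, ?_, hvs⟩)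
      · exact (mem_sdiff.1 k).2 hv
      · exact opn_true.2 (Or.inl hv)
    · have hzZ : z ∉ Z := fun k => hsZ ⟨z, k, hzs⟩
      have hzE : z ∉ E := (sE hz).resolve_left hzZ
      have hz2 : z ∈ rT t l ∨ (z ∈ P₁ ∨ ζ₁ z = true) := by
        rcases hz' with k | k
        · exact Or.inr (Or.inl (mem_sdiff.1 k).1)
        · rcases hat_true.1 k with k | k
          · exact Or.inl k
          · exact Or.inr (Or.inr ((opn_true.1 k).resolve_left hzZ))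
      rcases hz2 with k | k
      · have e := hd2.rt_even hp hs ⟨x, mem_sdiff.2 ⟨hE2 hxE, hxZ⟩, hxs⟩ k hzs
        rw [e]
        exact hd2.pu_t hp ReflTransGen.refl
      · exact hd2.pu hp (oj (C1 s z hs ⟨x, hxE, hxs⟩ hzE k hzs))
  · -- c2
    rintro s z hs ⟨x, hx, hxs⟩ hz - hz' hzs
    rw [odd_mod] at hs
    obtain ⟨hxE, hxZ⟩ := mem_sdiff.1 hx
    have hz2 : z ∉ Z ∧ (z ∈ P₂ ∨ ζ₂ z = false) := by
      rcases hz' with k | k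
      · exact ⟨(mem_sdiff.1 k).2, Or.inl (mem_sdiff.1 k).1⟩
      · obtain ⟨-, k⟩ := hat_false.1 k
        obtain ⟨k1, k2⟩ := opn_false.1 k
        exact ⟨k1, Or.inr k2⟩
    exact hd1.dx hp hs (C2 s z hs ⟨x, hxE, hxs⟩ ((sE hz).resolve_left hz2.1) hz2.2 hzs)
  · -- pa a ∈ U
    rw [ha, hp.pa]
    refine ⟨by simp only; omega, Or.inl (Or.inr ⟨by simp only; omega, Or.inr ⟨rfl, ?_, le_rfl⟩⟩)⟩
    simp only
    omega
  · -- pb a ∉ U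
    rw [ha, hp.pb]
    rintro ⟨-, k | ⟨z, hz, k⟩⟩
    · exact b_ne_U0 hp k
    · have := hZ.up z hz
      obtain ⟨k1, k2⟩ := k
      simp only at k2
      omega
  · rw [ha, hp.da]
    refine ⟨by simp only; omega, Or.inr ⟨rfl, ?_, le_rfl⟩⟩
    simp only
    omega
  · rw [ha, hp.db]
    rintro ⟨-, k | k⟩ <;> simp only at k <;> omega
  · -- hU
    intro b hb hbU
    have hbs : ∃ s, (s = pa b ∨ s = pb b) ∧ (s ∈ U0 t l ∨ ∃ z ∈ Z, Cor z s) := by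
      rcases hbU with k | k
      · exact ⟨_, Or.inl rfl, k.2⟩
      · exact ⟨_, Or.inr rfl, k.2⟩
    obtain ⟨s, hs, hsU⟩ := hbs
    obtain ⟨hs1, hs2⟩ := pab_cor hs
    rcases sE hb with k | k
    · refine ⟨fun k1 => (mem_sdiff.1 k1).2 k, fun k1 => (mem_sdiff.1 k1).2 k, Or.inr ⟨⟨?_, ?_⟩,
        ?_, ?_⟩⟩
      · exact even_mod.1 (even_pa b)
      · exact Or.inr ⟨b, k, cor_pa b⟩
      · exact even_mod.1 (even_pb b)
      · exact Or.inr ⟨b, k, cor_pb b⟩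
    · obtain ⟨k1, k2⟩ := root k hs2 hs1 hsU
      have hbZ : b ∉ Z := fun k3 => by have := hZ.up b k3; omega
      rcases k2 with k2 | ⟨k2, k3, k4, k5, k6⟩
      · refine ⟨fun k3 => ?_, fun k3 => ?_, Or.inr ⟨⟨?_, ?_⟩, ?_, ?_⟩⟩
        · exact (h1.rT_out hp k2).1 (mem_sdiff.1 k3).1
        · exact (h2.rT_out hp k2).1 (mem_sdiff.1 k3).1
        · exact even_mod.1 (even_pa b)
        · exact Or.inl (rT_U0 hp k2 (even_mod.1 (even_pa b)) (cor_pa b))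
        · exact even_mod.1 (even_pb b)
        · exact Or.inl (rT_U0 hp k2 (even_mod.1 (even_pb b)) (cor_pb b))
      · refine ⟨fun k7 => k2 (mem_sdiff.1 k7).1, fun k7 => k3 (mem_sdiff.1 k7).1, Or.inl ⟨?_, ?_⟩⟩
        · exact hat_false.2 ⟨k6, opn_false.2 ⟨hbZ, k4⟩⟩
        · exact hat_false.2 ⟨k6, opn_false.2 ⟨hbZ, k5⟩⟩
  · -- hY
    intro b hb hba hbY
    have hbs : ∃ s, (s = da b ∨ s = db b) ∧ s ∈ Y0 t l := by
      rcases hbY with k | k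
      · exact ⟨_, Or.inl rfl, k⟩
      · exact ⟨_, Or.inr rfl, k⟩
    obtain ⟨s, hs, hsY⟩ := hbs
    obtain ⟨hs1, hs2⟩ := dab_cor hs
    rcases sE hb with k | k
    · refine ⟨fun k1 => (mem_sdiff.1 k1).2 k, fun k1 => (mem_sdiff.1 k1).2 k, Or.inl ⟨?_, ?_⟩⟩
      · exact hat_true.2 (Or.inr (opn_true.2 (Or.inl k)))
      · exact hat_true.2 (Or.inr (opn_true.2 (Or.inl k)))
    · have hbZ : b ∉ Z := fun k3 => k (hZ.sub k3)
      obtain ⟨b1, b2⟩ := b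
      have hb2' : b2 < t.2 := by
        by_contra k1
        obtain ⟨-, k2 | k2⟩ := hsY
        · obtain ⟨c1, c2⟩ := hs2
          simp only at c1 c2
          have : b2 = t.2 := by omega
          subst this
          exact k (hrow b1 (by omega) (by omega))
        · obtain ⟨c1, c2⟩ := hs2
          simp only at c1 c2
          omega
      have hwin : t.1 - 2 ≤ b1 ∧ b1 ≤ t.1 + l + 2 ∧ t.2 - 4 ≤ b2 := by
        obtain ⟨c1, c2⟩ := hs2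
        simp only at c1 c2
        obtain ⟨-, k2 | k2⟩ := hsY <;> omega
      obtain ⟨w1, w2, w3⟩ := hwin
      have o1 := h1.out b1 b2 w1 w2 w3 hb2'
      have o2 := h2.out b1 b2 w1 w2 w3 hb2'
      have e1 := h1.cfg b1 b2 w1 w2 w3 hb2'
      have e2 := h2.cfg b1 b2 w1 w2 w3 hb2'
      refine ⟨fun k3 => o1 (mem_sdiff.1 k3).1, fun k3 => o2 (mem_sdiff.1 k3).1, ?_⟩
      by_cases hr : (b1, b2) ∈ rT t l
      · exact Or.inl ⟨hat_true.2 (Or.inl hr), hat_true.2 (Or.inl hr)⟩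
      by_cases ho : b2 = t.2 - 1 ∧ t.1 + l ≤ b1
      · exact Or.inl ⟨hat_true.2 (Or.inr (opn_true.2 (Or.inr (e1.2 ho)))),
          hat_true.2 (Or.inr (opn_true.2 (Or.inr (e2.2 ho))))⟩
      · right
        have hr' := hr
        rw [mem_rT] at hr'
        simp only at hr'
        have hba' : ¬ (b1 = t.1 + l ∧ b2 = t.2 - 2) := by
          rintro ⟨rfl, rfl⟩
          exact hba rfl
        have hpos : t.1 < b1 ∧ b1 < t.1 + l ∧ b2 = t.2 - 1 := by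
          obtain ⟨c1, c2⟩ := hs2
          simp only at c1 c2
          obtain ⟨-, k2 | k2⟩ := hsY <;> omega
        have fin : ∀ s' : ℤ × ℤ, (s' = da (b1, b2) ∨ s' = db (b1, b2)) → s' ∈ Y0 t l := by
          intro s' hs'
          obtain ⟨k1, c1, c2⟩ := dab_cor hs'
          simp only at c1 c2
          refine ⟨k1, ?_⟩
          omega
        exact ⟨fin _ (Or.inl rfl), fin _ (Or.inr rfl)⟩

end Vale.Agent.P167.H364
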