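import Vale.Agent.P167.H364.World
import Vale.Agent.P167.H364.LbT

/-!
# P167, `0 < Q ≤ 1`, [GEO]: worlds with a painted set `Z`: frozen squares and the rectangle
-/

set_option autoImplicit false

namespace Vale.Agent.P167.H364

open Finset Relation Vale.Agent.P167.FK Vale.Agent.P167.H816
open Vale.Agent.P145.FB (PStep)
open Vale.Agent.P167.FKA (Cor)

variable {D : Finset (ℤ × ℤ)} {ζ η ω : Cfg} {t : ℤ × ℤ} {l m : ℤ} {Ar : Set (ℤ × ℤ)}
  {B Z : Finset (ℤ × ℤ)} {Q : ℝ}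

/-- The bank between `t` and `b`. -/
theorem Win.y0 (h : Win D ζ t l) (hp : Par t l)
    (hrow : ∀ x : ℤ, t.1 - 1 ≤ x → x < t.1 + l → (x, t.2) ∈ D) {b : ℤ × ℤ} (hb : b ∉ D)
    (hba : b ≠ ra t l) (hbr : b ∉ rT t l) (hbz : ζ b = false) :
    da b ∈ Y0 t l ↔ db b ∈ Y0 t l := by
  obtain ⟨g1, g2, g3⟩ := id hp
  have key : ∀ s, (s = da b ∨ s = db b) → s ∈ Y0 t l →
      ∀ s', (s' = da b ∨ s' = db b) → s' ∈ Y0 t l := by
    intro s hs hsY
    obtain ⟨hs1, hs2⟩ := dab_cor hs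
    obtain ⟨b1, b2⟩ := b
    have hb2' : b2 < t.2 := by
      by_contra k1
      obtain ⟨c1, c2⟩ := hs2
      simp only at c1 c2
      obtain ⟨-, k2 | k2⟩ := hsY
      · have : b2 = t.2 := by omega
        subst this
        exact hb (hrow b1 (by omega) (by omega))
      · omega
    have hwin : t.1 - 2 ≤ b1 ∧ b1 ≤ t.1 + l + 2 ∧ t.2 - 4 ≤ b2 := by
      obtain ⟨c1, c2⟩ := hs2
      simp only at c1 c2
      obtain ⟨-, k2 | k2⟩ := hsY <;> omega
    obtain ⟨w1, w2, w3⟩ := hwin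
    have e1 := h.cfg b1 b2 w1 w2 w3 hb2'
    have ho : ¬ (b2 = t.2 - 1 ∧ t.1 + l ≤ b1) := by
      intro ho
      have := e1.2 ho
      rw [hbz] at this
      exact Bool.noConfusion this
    have hr' := hbr
    rw [mem_rT] at hr'
    simp only at hr'
    have hba' : ¬ (b1 = t.1 + l ∧ b2 = t.2 - 2) := by
      rintro ⟨rfl, rfl⟩
      exact hba rfl
    have hpos : t.1 < b1 ∧ b1 < t.1 + l ∧ b2 = t.2 - 1 := by
      obtain ⟨c1, c2⟩ := hs2
      simp only at c1 c2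
      obtain ⟨-, k2 | k2⟩ := hsY <;> omega
    intro s' hs'
    obtain ⟨k1, c1, c2⟩ := dab_cor hs'
    simp only at c1 c2
    refine ⟨k1, ?_⟩
    omega
  exact ⟨fun k => key _ (Or.inl rfl) k _ (Or.inr rfl), fun k => key _ (Or.inr rfl) k _ (Or.inl rfl)⟩

/-- The root bank with the set `Z`. -/
def UZ (t : ℤ × ℤ) (l : ℤ) (Z : Finset (ℤ × ℤ)) : Set (ℤ × ℤ) :=
  {s | (s.1 + s.2) % 2 = 0 ∧ (s ∈ U0 t l ∨ ∃ z ∈ Z, Cor z s)}

theorem Win.uz (h : Win D ζ t l) (hp : Par t l)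
    (hrow : ∀ x : ℤ, t.1 - 1 ≤ x → x < t.1 + l → (x, t.2) ∈ D) (hZ : Nz D t Z)
    (hbl : Bl D ζ t Z) {b : ℤ × ℤ} (hb : b ∉ D \ Z) (hbz : hat t l (opn Z ζ) b = true) :
    pa b ∈ UZ t l Z ↔ pb b ∈ UZ t l Z := by
  obtain ⟨g1, g2, g3⟩ := id hp
  by_cases hZb : b ∈ Z
  · exact iff_of_true ⟨even_mod.1 (even_pa b), Or.inr ⟨b, hZb, cor_pa b⟩⟩
      ⟨even_mod.1 (even_pb b), Or.inr ⟨b, hZb, cor_pb b⟩⟩
  by_cases hr : b ∈ rT t l
  · exact iff_of_true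
      ⟨even_mod.1 (even_pa b), Or.inl (rT_U0 hp hr (even_mod.1 (even_pa b)) (cor_pa b))⟩
      ⟨even_mod.1 (even_pb b), Or.inl (rT_U0 hp hr (even_mod.1 (even_pb b)) (cor_pb b))⟩
  have hbD : b ∉ D := fun k => hb (mem_sdiff.2 ⟨k, hZb⟩)
  have hbo : ζ b = true := ((opn_true.1 ((hat_true.1 hbz).resolve_left hr))).resolve_left hZb
  have key : ∀ s, (s = pa b ∨ s = pb b) → s ∉ UZ t l Z := by
    rintro s hs ⟨hs0, hsU⟩
    obtain ⟨hs1, hs2⟩ := pab_cor hs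
    obtain ⟨b1, b2⟩ := b
    rcases hsU with hU | hU
    · have hw : b2 < t.2 → t.1 - 2 ≤ b1 → b1 ≤ t.1 + l + 2 → t.2 - 4 ≤ b2 →
          ¬ (b2 = t.2 - 1 ∧ t.1 + l ≤ b1) → False := by
        intro w1 w2 w3 w4 w5
        exact w5 ((h.cfg b1 b2 w2 w3 w4 w1).1 hbo)
      obtain ⟨c1, c2⟩ := hs2
      simp only at c1 c2
      rcases hU with rfl | ⟨-, hU⟩
      · by_cases c3 : b2 = s.2
        · subst c3
          exact hbD (hrow b1 (by omega) (by omega))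
        · exact hw (by omega) (by omega) (by omega) (by omega) (by omega)
      · exact hw (by omega) (by omega) (by omega) (by omega) (by omega)
    · by_cases k1 : t.2 ≤ b2
      · exact hbD (hZ.nb _ k1 ⟨s, hs2, hU⟩)
      · have := (hbl _ (by simp only; omega) ⟨s, hs2, hU⟩).2
        rw [hbo] at this
        exact Bool.noConfusion this
  exact iff_of_false (key _ (Or.inl rfl)) (key _ (Or.inr rfl))

/-! ### The exploration -/

theorem Kx.anti {c : Bool} {par : ℤ} {F F' : Set (ℤ × ℤ)} (hF : F ⊆ F') {s : ℤ × ℤ}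
    (h : Kx c par D B F' ω s) : Kx c par D B F ω s := by
  induction h with
  | base h1 h2 h3 => exact Kx.base h1 h2 h3
  | step h1 h2 h3 h4 h5 h6 h7 ih => exact Kx.step ih (fun k => h2 (hF k)) h3 h4 h5 h6 h7

theorem Kx.loc {c : Bool} {par : ℤ} {F : Set (ℤ × ℤ)} {ω' : Cfg} (hw : ∀ v ∈ D, ω v = ω' v)
    {s : ℤ × ℤ} (h : Kx c par D B F ω s) : Kx c par D B F ω' s := by
  induction h with
  | base h1 h2 h3 => exact Kx.base h1 h2 h3
  | step h1 h2 h3 h4 h5 h6 h7 ih => exact Kx.step ih h2 h3 (by rw [← hw _ h3]; exact h4) h5 h6 h7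

theorem loc_ind {A : Set Cfg} (h : ∀ ω ω' : Cfg, (∀ v ∈ D, ω v = ω' v) → (ω ∈ A → ω' ∈ A)) :
    FKA.Loc D (A.indicator (1 : Cfg → ℝ)) := by
  intro ω ω' hw
  by_cases k : ω ∈ A
  · rw [Set.indicator_of_mem k, Set.indicator_of_mem (h ω ω' hw k)]
    rfl
  · rw [Set.indicator_of_notMem k,
      Set.indicator_of_notMem fun k' => k (h ω' ω (fun v hv => (hw v hv).symm) k')]

theorem Win.fc_hat (h : Win D ζ t l) (hp : Par t l) : Fc D (hat t l ζ) = Fc D ζ := by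
  obtain ⟨g1, g2, g3⟩ := id hp
  ext s
  constructor
  · rintro ⟨h1, h2, z, h3, h4, h5⟩
    exact ⟨h1, h2, z, h3, (hat_false.1 h4).2, h5⟩
  · rintro ⟨h1, ⟨x, hx, hxs⟩, z, h3, h4, h5⟩
    refine ⟨h1, ⟨x, hx, hxs⟩, ?_⟩
    by_cases hr : z ∈ rT t l
    · rw [odd_mod] at h1
      rw [mem_rT] at hr
      have h6 : s.1 = t.1 + 1 ∧ s.2 = t.2 := by
        obtain ⟨x1, x2⟩ := x
        obtain ⟨c1, c2⟩ := hxs
        obtain ⟨c3, c4⟩ := h5
        simp only at c1 c2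
        by_contra h6
        exact h.out x1 x2 (by omega) (by omega) (by omega) (by omega) hx
      have k1 := h.out (t.1 + 1) (t.2 - 1) (by omega) (by omega) (by omega) (by omega)
      have k2 := h.cfg (t.1 + 1) (t.2 - 1) (by omega) (by omega) (by omega) (by omega)
      refine ⟨(t.1 + 1, t.2 - 1), k1, hat_false.2 ⟨?_, ?_⟩, ?_⟩
      · rw [mem_rT]
        simp only
        omega
      · rw [← Bool.not_eq_true, k2]
        omega
      · exact ⟨Or.inl h6.1, Or.inr (by simp only; omega)⟩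
    · exact ⟨z, h3, hat_false.2 ⟨hr, h4⟩, h5⟩

theorem wc_hat : Wc D ζ ⊆ Wc D (hat t l ζ) := by
  rintro s ⟨h1, h2, z, h3, h4, h5⟩
  exact ⟨h1, h2, z, h3, hat_true.2 (Or.inr h4), h5⟩

theorem Win.sub (h : Win D ζ t l) {D' : Finset (ℤ × ℤ)} {ζ' : Cfg} (hD : D' ⊆ D)
    (hz : ∀ v : ℤ × ℤ, v ∉ D → v.2 < t.2 → ζ' v = ζ v) : Win D' ζ' t l where
  out := fun x y h1 h2 h3 h4 h5 => h.out x y h1 h2 h3 h4 (hD h5)
  cfg := fun x y h1 h2 h3 h4 => by
    rw [hz _ (h.out x y h1 h2 h3 h4) h4]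
    exact h.cfg x y h1 h2 h3 h4

theorem opn_hat_opn : opn B (hat t l (opn Z η)) = hat t l (opn Z (opn B η)) := by
  funext v
  simp only [opn, hat]
  split_ifs <;> rfl

/-- **Frozen open squares.** -/
theorem frzZ_lo (hQ : 0 < Q) (hQ1 : Q ≤ 1) (hp : Par t l) (h : Rw D η t l m Ar)
    (hZ : Nz D t Z) (hbl : Bl D η t Z)
    (hrow : ∀ x : ℤ, t.1 - 1 ≤ x → x < t.1 + l → (x, t.2) ∈ D) (hB : B ⊆ D \ Z)
    (Bj : ∀ v ∈ B, ∀ s, (s.1 + s.2) % 2 = 0 → Cor v s →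
      OJ (D \ B) (opn B η) s (t.1 + l, t.2) ∨ OJ (D \ B) (opn B η) s t) :
    Pr Q ((D \ B) \ Z) (opn Z (opn B η)) {ω | PC ω t (t.1 + l, t.2)} *
        Pr Q (D \ Z) (opn Z η)
          {ω | ∀ s, Kx false 1 (D \ Z) B (Fc (D \ Z) (opn Z η)) ω s → s ∉ Y0 t l} ≤
      Pr Q (D \ Z) (opn Z η) {ω | PC ω t (t.1 + l, t.2)} := by
  have hd := h.del hZ hbl
  have hDB : (D \ B) \ Z = (D \ Z) \ B := by
    ext v
    simp only [mem_sdiff]
    tauto
  have hw2 : Win ((D \ B) \ Z) (opn Z (opn B η)) t l := by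
    refine h.toWin.sub (fun v hv => (mem_sdiff.1 (mem_sdiff.1 hv).1).1) fun v hv hv2 => ?_
    have h1 : v ∉ Z := fun k => by have := hZ.up v k; omega
    have h2 : v ∉ B := fun k => hv (mem_sdiff.1 (hB k)).1
    simp [opn, h1, h2]
  have hg2 : Good (opn Z (opn B η)) := good_opn (good_opn h.good)
  have key := frz_lo (a := ra t l) (D := D \ Z) (B := B) (η := hat t l (opn Z η)) hQ hQ1
    (good_opn hd.good) hB (hd.ra_out hp).1 (hd.hat_ra hp) (hd.n1u hp) (hd.n1d hp) ?_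
    (Y := Y0 t l) ?_ ?_ ?_
  · rw [opn_hat_opn, ← hDB, hw2.pr_hat hQ hp hg2, hd.pr_hat hQ hp hd.good, hd.fc_hat hp] at key
    have e : Pr Q (D \ Z) (hat t l (opn Z η))
        {ω | ∀ s, Kx false 1 (D \ Z) B (Fc (D \ Z) (opn Z η)) ω s → s ∉ Y0 t l} =
        Pr Q (D \ Z) (opn Z η)
        {ω | ∀ s, Kx false 1 (D \ Z) B (Fc (D \ Z) (opn Z η)) ω s → s ∉ Y0 t l} := by
      unfold Pr
      refine hd.ex_hat hQ hp hd.good (loc_ind fun ω ω' hw k s hs => k s ?_)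
      exact hs.loc fun v hv => (hw v hv).symm
    rw [e] at key
    exact key
  · intro v hv s hs hvs
    rw [opn_hat_opn, ← hDB]
    have hm : {v : ℤ × ℤ | v ∉ D \ B ∧ opn B η v = true} ⊆
        {v | v ∉ (D \ B) \ Z ∧ opn Z (opn B η) v = true} := by
      rintro v ⟨k1, k2⟩
      exact ⟨fun k3 => k1 (mem_sdiff.1 k3).1, opn_true.2 (Or.inr k2)⟩
    rcases Bj v hv s (even_mod.1 hs) hvs with k | k
    · exact hw2.pu_b hp (rtg_mono' hm k)
    · exact hw2.pu_t hp (rtg_mono' hm k)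
  · rw [hp.da]
    have := hp.et
    have := hp.el
    have := hp.l4
    refine ⟨by simp only; omega, Or.inr ⟨rfl, ?_, le_rfl⟩⟩
    simp only
    omega
  · rw [hp.db]
    have := hp.et
    have := hp.el
    rintro ⟨-, k | k⟩ <;> simp only at k <;> omega
  · intro b hb hba hb'
    obtain ⟨k1, k2⟩ := hat_false.1 hb'
    obtain ⟨k3, k4⟩ := opn_false.1 k2
    exact h.toWin.y0 hp hrow (fun k5 => hb (mem_sdiff.2 ⟨k5, k3⟩)) hba k1 k4

/-- **Frozen closed squares.** -/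
theorem frzZ_up (hQ : 0 < Q) (hQ1 : Q ≤ 1) (hp : Par t l) (h : Rw D η t l m Ar)
    (hZ : Nz D t Z) (hbl : Bl D η t Z)
    (hrow : ∀ x : ℤ, t.1 - 1 ≤ x → x < t.1 + l → (x, t.2) ∈ D) (hB : B ⊆ D \ Z)
    (Bj : ∀ v ∈ B, ∀ s, (s.1 + s.2) % 2 = 1 → Cor v s →
      CJ (D \ B) (cld B η) t l s (t.1 - 1, t.2)) :
    Pr Q (D \ Z) (opn Z η) {ω | PC ω t (t.1 + l, t.2)} ≤
      Pr Q ((D \ B) \ Z) (opn Z (cld B η)) {ω | PC ω t (t.1 + l, t.2)} +
        Pr Q (D \ Z) (opn Z η)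
          {ω | ∃ s, Kx true 0 (D \ Z) B (Wc (D \ Z) (opn Z η)) ω s ∧ s ∈ UZ t l Z} := by
  have hd := h.del hZ hbl
  obtain ⟨g1, g2, g3⟩ := id hp
  have hDB : (D \ B) \ Z = (D \ Z) \ B := by
    ext v
    simp only [mem_sdiff]
    tauto
  have hw2 : Win ((D \ B) \ Z) (opn Z (cld B η)) t l := by
    refine h.toWin.sub (fun v hv => (mem_sdiff.1 (mem_sdiff.1 hv).1).1) fun v hv hv2 => ?_
    have h1 : v ∉ Z := fun k => by have := hZ.up v k; omega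
    have h2 : v ∉ B := fun k => hv (mem_sdiff.1 (hB k)).1
    simp [opn, cld, h1, h2]
  have hg2 : Good (opn Z (cld B η)) := good_opn (good_cld h.good)
  have ecl : cld B (hat t l (opn Z η)) = hat t l (opn Z (cld B η)) := by
    funext v
    by_cases h1 : v ∈ B
    · obtain ⟨h2, h3⟩ := mem_sdiff.1 (hB h1)
      have h4 : v ∉ rT t l := fun k => (h.rT_out hp k).1 h2
      simp [cld, hat, opn, h1, h3, h4]
    · simp [cld, hat, opn, h1]
  have key := frz_up (a := ra t l) (D := D \ Z) (B := B) (η := hat t l (opn Z η)) hQ hQ1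
    (good_opn hd.good) hB (hd.ra_out hp).1 (hd.hat_ra hp) ?_ (hd.n1u hp) (hd.n1d hp) ?_
    (U := UZ t l Z) ?_ ?_ ?_
  · rw [ecl, ← hDB, hw2.pr_hat hQ hp hg2, hd.pr_hat hQ hp hd.good] at key
    have e : Pr Q (D \ Z) (hat t l (opn Z η))
        {ω | ∃ s, Kx true 0 (D \ Z) B (Wc (D \ Z) (opn Z η)) ω s ∧ s ∈ UZ t l Z} =
        Pr Q (D \ Z) (opn Z η)
        {ω | ∃ s, Kx true 0 (D \ Z) B (Wc (D \ Z) (opn Z η)) ω s ∧ s ∈ UZ t l Z} := by
      unfold Pr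
      refine hd.ex_hat hQ hp hd.good (loc_ind ?_)
      rintro ω ω' hw ⟨s, k1, k2⟩
      exact ⟨s, k1.loc hw, k2⟩
    have e2 : Pr Q (D \ Z) (hat t l (opn Z η))
        {ω | ∃ s, Kx true 0 (D \ Z) B (Wc (D \ Z) (hat t l (opn Z η))) ω s ∧ s ∈ UZ t l Z} ≤
        Pr Q (D \ Z) (hat t l (opn Z η))
        {ω | ∃ s, Kx true 0 (D \ Z) B (Wc (D \ Z) (opn Z η)) ω s ∧ s ∈ UZ t l Z} := by
      refine FKA.Pr_mono hQ ?_
      rintro ω ⟨s, k1, k2⟩
      exact ⟨s, k1.anti wc_hat, k2⟩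
    rw [e] at e2
    linarith
  · -- `hac`
    rintro ⟨x1, x2⟩ hx s hs hxs has
    have hxD := (mem_sdiff.1 hx).1
    obtain ⟨c1, c2⟩ := hxs
    obtain ⟨c3, c4⟩ := has
    rw [even_mod] at hs
    simp only [ra] at c1 c2 c3 c4
    exact h.out x1 x2 (by omega) (by omega) (by omega) (by omega) hxD
  · intro v hv s hs hvs
    rw [ecl, ← hDB]
    refine hw2.dx_left hp (rtg_mono' ?_ (Bj v hv s (odd_mod.1 hs) hvs))
    rintro v ⟨k1, k2, k3, k4⟩
    refine ⟨fun k5 => k1 (mem_sdiff.1 k5).1, opn_false.2 ⟨fun k5 => ?_, k2⟩, k3, k4⟩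
    refine k1 (mem_sdiff.2 ⟨hZ.sub k5, fun k6 => ?_⟩)
    exact (mem_sdiff.1 (hB k6)).2 k5
  · rw [hp.pa]
    refine ⟨by simp only; omega, Or.inl (Or.inr ⟨by simp only; omega, Or.inr ⟨rfl, ?_, le_rfl⟩⟩)⟩
    simp only
    omega
  · rw [hp.pb]
    rintro ⟨-, k | ⟨z, hz, k⟩⟩
    · exact b_ne_U0 hp k
    · have := hZ.up z hz
      obtain ⟨k1, k2⟩ := k
      simp only at k2
      omega
  · exact fun b hb hb' => h.toWin.uz hp hrow hZ hbl hb hb'

/-! ### The rectangle -/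

theorem Bd.rw (h : Bd D ζ t l) (hp : Par t l) :
    Rw D ζ t l l {s | CJ D ζ t l s (t.1 - 1, t.2)} where
  toWin := h.toWin
  good := h.good
  low := fun x h1 h2 => by
    have := hp.l4
    refine ⟨h.out _ _ (by omega) (by omega) (by omega) (by omega), ?_⟩
    rw [← Bool.not_eq_true, h.cfg _ _ (by omega) (by omega) (by omega) (by omega)]
    omega
  nu := fun s h1 h2 h3 => Or.inl (h.nu s h1 h2 h3)
  nd := fun s h1 h2 h3 => by
    rcases h.nd s h1 h2 h3 with k | k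
    · right
      omega
    · exact Or.inl k
  ar := fun s hs _ => hs

/-- **The rectangle in the domain.** -/
theorem rec_le (hQ : 0 < Q) (hQ1 : Q ≤ 1) (hp : Par t l) (h : Rw D η t l m Ar) {r : ℤ}
    (hrec : Bd (recT t l r) (xiT t l r) t l) (hsub : recT t l r ⊆ D) (hZ : Nz (recT t l r) t Z)
    (hb1 : Bl (recT t l r) (xiT t l r) t Z) (hb2 : Bl D η t Z)
    (hw : ∀ x : ℤ, t.1 + l ≤ x → x < t.1 + l + r →
      (x, t.2 - 1) ∉ D ∧ η (x, t.2 - 1) = true) :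
    Pr Q (recT t l r \ Z) (opn Z (xiT t l r)) {ω | PC ω t (t.1 + l, t.2)} ≤
      Pr Q (D \ Z) (opn Z η) {ω | PC ω t (t.1 + l, t.2)} := by
  have hd1 := (hrec.rw hp).del hZ hb1
  have hd2 := h.del (hZ.mono hsub) hb2
  rw [← hd1.pr_hat hQ hp hd1.good, ← hd2.pr_hat hQ hp hd2.good]
  refine bks_mono hQ hQ1 (good_opn hd2.good) (good_opn hd1.good) (sdiff_subset_sdiff hsub le_rfl)
    (hd2.ra_out hp).1 (hd2.hat_ra hp) (hd1.hat_ra hp) ?_ ?_
  · intro b hb hba hb'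
    rw [← Bool.not_eq_true]
    intro hb2'
    have h0 : b ∉ D \ Z → hat t l (opn Z η) b = true → False := by
      intro k1 k2
      rcases hb' with k3 | k3
      · exact k1 k3
      · have k4 : hat t l (opn Z η) b = false := k3
        rw [k2] at k4
        exact Bool.noConfusion k4
    rcases hat_true.1 hb2' with k | k
    · exact h0 (fun k1 => (h.rT_out hp k).1 (mem_sdiff.1 k1).1) (hat_true.2 (Or.inl k))
    · rcases opn_true.1 k with k | k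
      · exact h0 (fun k1 => (mem_sdiff.1 k1).2 k) (hat_true.2 (Or.inr (opn_true.2 (Or.inl k))))
      · obtain ⟨b1, b2⟩ := b
        unfold xiT at k
        rw [decide_eq_true_iff] at k
        simp only at k
        obtain ⟨rfl, k1, k2⟩ := k
        obtain ⟨k3, k4⟩ := hw b1 k1 k2
        exact h0 (fun k5 => k3 (mem_sdiff.1 k5).1) (hat_true.2 (Or.inr (opn_true.2 (Or.inr k4))))
  · intro b hb hba hb' s hs hsE
    obtain ⟨hs1, hs2⟩ := dab_cor hs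
    exact hd1.n1d hp s b (odd_mod.2 hs1) (mem_Od.1 hsE).2 hb hb' hs2

end Vale.Agent.P167.H364
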